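import Vale.Agent.P352.H148.Bdd

set_option linter.all false

noncomputable section

open MeasureTheory SchwartzMap Complex Filter Topology
open scoped SchwartzMap ComplexConjugate ENNReal LineDeriv NNReal ContDiff

namespace Vale.Agent.P352.H148

open GF (Ix V Fn Sch ev pd bar sim bas o)
open H246 H496 SubConf
open H755 (Tst IsT com Ok Phi cg com_eq sp sp_far tst_prof supp_bd isClosed_Zf Zf fadd fsmul
  fzero fneg fsum tstIs kil_tst)
open UniformSpace (Completion)

variable {D : Type*} [NormedAddCommGroup D] [InnerProductSpace ℂ D]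
variable {Q : GF.Theory D} {t : Ix → Ix → GF.Fld D} {A : GF.Fld D} {X : Ix → V → ℝ}

lemma od_t (ht : IsT Q t) (m n : Ix) : Od (t m n) (t m n) :=
  ⟨fun f g c v hf hg => ht.lin m n f g c v hf hg, ht.cont m n, ht.herm m n⟩

lemma od_A (hA : Q.fld A) : ∃ B, Q.fld B ∧ Od A B := by
  obtain ⟨B, hB, h⟩ := Q.adj A hA
  exact ⟨B, hB, fun f g c v hf hg => Q.lin A f g c v hA hf hg, fun v => Q.cont A v hA, h⟩

/-- the bilinear map -/
def bb (t : Ix → Ix → GF.Fld D) (M : Ix → 𝓢(Mink, ℂ) →L[ℂ] 𝓢(Mink, ℂ)) (A : GF.Fld D) (v : D)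
    (g f : 𝓢(Mink, ℂ)) : D :=
  ∑ n, t o n (fl (M n g)) (A (fl f) v) - A (fl f) (∑ n, t o n (fl (M n g)) v)

lemma bb_bound (ht : IsT Q t) (hA : Q.fld A) (M : Ix → 𝓢(Mink, ℂ) →L[ℂ] 𝓢(Mink, ℂ)) (v : D) :
    ∃ (C : ℝ) (k : ℕ), 0 ≤ C ∧ ∀ g f, ‖bb t M A v g f‖ ≤ C * snS k g * snS k f := by
  obtain ⟨B, hB, hAB⟩ := od_A hA
  have key : ∀ n : Ix, ∃ (C : ℝ) (k : ℕ), 0 ≤ C ∧ ∀ g f : 𝓢(Mink, ℂ),
      ‖t o n (fl (M n g)) (A (fl f) v)‖ + ‖A (fl f) (t o n (fl (M n g)) v)‖ ≤
        C * snS k g * snS k f := by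
    intro n
    obtain ⟨C1, k1, hC1, h1⟩ := (od_t ht o n).joint hAB v
    obtain ⟨C2, k2, hC2, h2⟩ := hAB.joint (od_t ht o n) v
    obtain ⟨C3, k3, hC3, h3⟩ := clm_snS' (M n) k1
    obtain ⟨C4, k4, hC4, h4⟩ := clm_snS' (M n) k2
    refine ⟨C1 * C3 + C2 * C4, max (max k1 k2) (max k3 k4), by positivity, fun g f => ?_⟩
    set k := max (max k1 k2) (max k3 k4) with hk
    have e1 : snS k1 f ≤ snS k f := snS_mono ((le_max_left _ _).trans (le_max_left _ _)) f
    have e2 : snS k2 f ≤ snS k f := snS_mono ((le_max_right _ _).trans (le_max_left _ _)) f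
    have e3 : snS k3 g ≤ snS k g := snS_mono ((le_max_left _ _).trans (le_max_right _ _)) g
    have e4 : snS k4 g ≤ snS k g := snS_mono ((le_max_right _ _).trans (le_max_right _ _)) g
    have p1 := snS_nonneg k1 f
    have p2 := snS_nonneg k2 f
    have p3 := snS_nonneg k3 g
    have p4 := snS_nonneg k4 g
    have pf := snS_nonneg k f
    have pg := snS_nonneg k g
    have p5 := snS_nonneg k1 (M n g)
    have p6 := snS_nonneg k2 (M n g)
    calc _ ≤ C1 * snS k1 (M n g) * snS k1 f + C2 * snS k2 f * snS k2 (M n g) :=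
          add_le_add (h1 _ _) (h2 _ _)
      _ ≤ C1 * (C3 * snS k g) * snS k f + C2 * snS k f * (C4 * snS k g) := by
          have h3' : snS k1 (M n g) ≤ C3 * snS k g :=
            (h3 g).trans (mul_le_mul_of_nonneg_left e3 hC3)
          have h4' : snS k2 (M n g) ≤ C4 * snS k g :=
            (h4 g).trans (mul_le_mul_of_nonneg_left e4 hC4)
          gcongr
      _ = _ := by ring
  choose C k hC h using key
  refine ⟨∑ n, C n, Finset.univ.sup k, Finset.sum_nonneg fun n _ => hC n, fun g f => ?_⟩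
  have h0 : ‖bb t M A v g f‖ ≤ ∑ n, (‖t o n (fl (M n g)) (A (fl f) v)‖ +
      ‖A (fl f) (t o n (fl (M n g)) v)‖) := by
    unfold bb
    rw [fsum hA (isTest_fl f), Finset.sum_add_distrib]
    exact (norm_sub_le _ _).trans (add_le_add (norm_sum_le _ _) (norm_sum_le _ _))
  refine h0.trans ?_
  rw [Finset.sum_mul, Finset.sum_mul]
  refine Finset.sum_le_sum fun n _ => (h n g f).trans ?_
  have e1 : snS (k n) f ≤ snS (Finset.univ.sup k) f :=
    snS_mono (Finset.le_sup (f := k) (Finset.mem_univ n)) f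
  have e2 : snS (k n) g ≤ snS (Finset.univ.sup k) g :=
    snS_mono (Finset.le_sup (f := k) (Finset.mem_univ n)) g
  have p1 := snS_nonneg (k n) f
  have p2 := snS_nonneg (k n) g
  have p3 := hC n
  gcongr

/-- the commutator is linear in the test function -/
lemma com_linf (ht : IsT Q t) (hA : Q.fld A) (hX : IsKil X) {g : V → ℝ} (hg : Tst g)
    (F F' : 𝓢(Mink, ℂ)) (c : ℂ) (v : D) :
    com t X g A (fl (F + c • F')) v = com t X g A (fl F) v + c • com t X g A (fl F') v := by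
  obtain ⟨B, hB, hAB⟩ := od_A hA
  have hT : ∀ n, ∃ G, (fun x => ((GF.eta n * X n x * g x : ℝ) : ℂ)) = fl G := by
    intro n
    obtain ⟨G, hG⟩ := exists_fl (tstIs (kil_tst hX hg n))
    exact ⟨G, hG.symm⟩
  choose G hG using hT
  unfold com
  simp only [hG]
  have e1 : ∀ n, t o n (fl (G n)) (A (fl (F + c • F')) v) = t o n (fl (G n)) (A (fl F) v) +
      c • t o n (fl (G n)) (A (fl F') v) := by
    intro n
    rw [hAB.addf, hAB.smulf, ((od_t ht o n).adjAdj (G n)).add, ((od_t ht o n).adjAdj (G n)).smul]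
  simp only [e1, Finset.sum_add_distrib, ← Finset.smul_sum]
  rw [hAB.addf, hAB.smulf, smul_sub]
  abel

lemma Phi_linf (ht : IsT Q t) (hA : Q.fld A) (hX : IsKil X) {F F' : 𝓢(Mink, ℂ)}
    (hF : HasCompactSupport F) (hF' : HasCompactSupport F') (c : ℂ) (v : D) :
    Phi t X A (fl (F + c • F')) v = Phi t X A (fl F) v + c • Phi t X A (fl F') v := by
  have h1 : HasCompactSupport (c • F' : 𝓢(Mink, ℂ)) := by
    have : (⇑(c • F') : Mink → ℂ) = fun x => c • F' x := rfl
    rw [this]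
    exact hF'.smul_left (f := fun _ => c)
  have h2 : HasCompactSupport (F + c • F' : 𝓢(Mink, ℂ)) := hF.add h1
  obtain ⟨N1, hN1⟩ := exists_cub (hasCompactSupport_fl hF).isCompact
  obtain ⟨N2, hN2⟩ := exists_cub (hasCompactSupport_fl hF').isCompact
  obtain ⟨N3, hN3⟩ := exists_cub (hasCompactSupport_fl h2).isCompact
  set N := N1 + N2 + N3
  rw [Phi_eq ht hA hX ⟨isTest_fl _, hasCompactSupport_fl hF⟩ (hN1 N (by omega)) (ok_cub N),
    Phi_eq ht hA hX ⟨isTest_fl _, hasCompactSupport_fl hF'⟩ (hN2 N (by omega)) (ok_cub N),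
    Phi_eq ht hA hX ⟨isTest_fl _, hasCompactSupport_fl h2⟩ (hN3 N (by omega)) (ok_cub N)]
  exact com_linf ht hA hX (cn_tst N) F F' c v

/-- the dyadic structure of the commutators -/
theorem phi_dyc (ht : IsT Q t) (hA : Q.fld A) (hX : IsKil X) (v : D) :
    ∃ b G, Dyc (fun F => Phi t X A (fl F) v) b G := by
  choose M hM using fun n => exists_mX hX n
  obtain ⟨G, hG⟩ := exists_fl (tstIs G0_tst)
  refine ⟨bb t M A v, G, ?_, ?_, ?_, bb_bound ht hA M v⟩
  · intro f g hf hg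
    have := Phi_linf ht hA hX hf hg 1 v
    rwa [one_smul, one_smul] at this
  · intro z f hf
    have h0 : HasCompactSupport (0 : 𝓢(Mink, ℂ)) := HasCompactSupport.zero
    have h1 := Phi_linf ht hA hX h0 hf z v
    have h2 := Phi_linf ht hA hX h0 h0 1 v
    rw [one_smul, one_smul, add_zero] at h2
    rw [zero_add] at h1
    have h3 : Phi t X A (fl 0) v = 0 := by simpa using h2
    rw [h3, zero_add] at h1
    exact h1
  · intro n f hf
    have h1 : Phi t X A (fl f) v = com t X (cn n) A (fl f) v :=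
      Phi_eq ht hA hX ⟨isTest_fl _, hasCompactSupport_fl (comp_of_le hf)⟩ (cub_of_ball hf)
        (ok_cub n) v
    show Phi t X A (fl f) v = _
    rw [h1]
    have e : ∀ m, (fun x => ((GF.eta m * X m x * cn n x : ℝ) : ℂ)) =
        fl (((((2 : ℝ) ^ n)⁻¹ : ℝ) : ℂ) • M m (scaleS ((2 : ℝ) ^ n)⁻¹ (two_inv_pos n).ne' G)) := by
      intro m
      funext x
      have h2 := congrFun hG (((2 : ℝ) ^ n)⁻¹ • x)
      rw [fl_apply] at h2
      have h3 : (((2 : ℝ) ^ n)⁻¹ • WithLp.toLp 2 x : Mink) =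
          WithLp.toLp 2 (((2 : ℝ) ^ n)⁻¹ • x) := rfl
      rw [fl_apply, SchwartzMap.smul_apply, smul_eq_mul, hM, scaleS_apply, h3, h2, cn_eq]
      push_cast
      ring
    unfold com bb
    simp only [e, (od_t ht o _).smulf, ← Finset.smul_sum]
    rw [fsmul hA (isTest_fl f), smul_sub]

/-- **Row (bdd).** -/
theorem phi_bdd (ht : IsT Q t) (hA : Q.fld A) (hX : IsKil X) (v : D) :
    ∃ p : Seminorm ℂ 𝓢(Mink, ℂ), Continuous p ∧
      ∀ F : 𝓢(Mink, ℂ), HasCompactSupport (fl F) → ‖Phi t X A (fl F) v‖ ≤ p F := by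
  obtain ⟨b, G, h⟩ := phi_dyc ht hA hX v
  obtain ⟨C, k, hC, hb⟩ := h.shc.bdd
  refine ⟨C.toNNReal • snS k, ?_, fun F hF => ?_⟩
  · have e : (⇑(C.toNNReal • snS k) : 𝓢(Mink, ℂ) → ℝ) = fun f => C * snS k f := by
      funext f
      rw [Seminorm.smul_apply, NNReal.smul_def, Real.coe_toNNReal C hC, smul_eq_mul]
    rw [e]
    exact continuous_const.mul (cont_snS k)
  · have h1 : HasCompactSupport F := by
      have h2 : (F : Mink → ℂ) = fl F ∘ (EuclideanSpace.equiv (Fin 4) ℝ).toHomeomorph := rfl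
      rw [h2]
      exact hF.comp_homeomorph _
    refine (hb F h1).trans (le_of_eq ?_)
    rw [Seminorm.smul_apply, NNReal.smul_def, Real.coe_toNNReal C hC, smul_eq_mul]

end Vale.Agent.P352.H148

end
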