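import Vale.Agent.P352.H121.Vir

/-!
# P352 (helper148): symmetry and covariance of the null-plane charge of the virial current
-/

set_option linter.all false

noncomputable section

open MeasureTheory Filter Topology Set
open scoped ContDiff ComplexConjugate

namespace Vale.Agent.P352.H148

open GF (Ix V Fn Fld bas eta o bar sim)
open H755 H496 H15 H246 H121

variable {D : Type*} [NormedAddCommGroup D] [InnerProductSpace ℂ D]
variable {Q : GF.Theory D} {T : Ix → Ix → GF.Fld D} {J : Ix → GF.Fld D}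
  {A : (V → V) → D → D} {K : V → D → D}

/-- a bump function with integral one -/
lemma exists_bump : ∃ ψ : ℝ → ℝ, Tst ψ ∧ ∫ u, (ψ u : ℂ) = 1 := by
  let g : ContDiffBump (0 : ℝ) := ⟨1, 2, one_pos, one_lt_two⟩
  have hg : Tst (g : ℝ → ℝ) := ⟨g.contDiff, g.hasCompactSupport⟩
  have hpos : 0 < ∫ u, g u := g.integral_pos
  refine ⟨fun u => (∫ u, g u)⁻¹ * g u, ⟨contDiff_const.mul hg.1, hg.2.mul_left⟩, ?_⟩
  rw [integral_complex_ofReal, integral_const_mul, inv_mul_cancel₀ hpos.ne', Complex.ofReal_one]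

lemma jf_tst {a b : V} {κ : V → ℝ} {ψ : ℝ → ℝ} (h : Adm a b κ ψ) {R : ℝ} (hR : 1 ≤ R) (m : Ix) :
    Tst fun x => eta m * a m * ctf a b κ 0 ψ R x :=
  H755.tst_smul contDiff_const (H755.ctf_tst h 0 hR)

lemma bar_real (g : V → ℝ) : bar (fun x => (g x : ℂ)) = fun x => (g x : ℂ) := by
  funext x
  simp [bar]

lemma Ja_symm (hJ : IsVirial Q T J) {a b : V} {κ : V → ℝ} {ψ : ℝ → ℝ} (h : Adm a b κ ψ) {R : ℝ}
    (hR : 1 ≤ R) (v w : D) :
    star (Ja J a b κ 0 ψ R v w) = Ja J a b κ 0 ψ R w v := by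
  unfold Ja
  rw [inner_sum, inner_sum, star_sum]
  refine Finset.sum_congr rfl fun m _ => ?_
  have h1 := hJ.herm m (fun x => ((eta m * a m * ctf a b κ 0 ψ R x : ℝ) : ℂ)) v w
    (jf_tst h hR m).isTest
  rw [bar_real] at h1
  rw [← h1]
  exact inner_conj_symm _ _

/-- the charge is symmetric -/
theorem Cop_symm (hT : Q.IsStress T) (hJ : IsVirial Q T J) (h : NullCharges Q T J A K)
    (ht : TrNull T) {a b : V} (ha : IsNull a) (hb : IsNull b) (hab : GF.mdot a b = 1) (v w : D) :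
    inner ℂ (Cop Q A K a b v) w = inner ℂ v (Cop Q A K a b w) := by
  obtain ⟨κ, hκ, hκ1⟩ := H846.exists_cutf
  obtain ⟨ψ, hψ, hψ1⟩ := exists_bump
  have hA : Adm a b κ ψ := ⟨ha, hb, hab, hκ, hκ1, hψ⟩
  have l1 := lim0 (J := J) hT hJ h ht hA v w
  have l2 := lim0 (J := J) hT hJ h ht hA w v
  rw [hψ1, one_mul] at l1 l2
  have l3 := l1.star
  have l4 : Tendsto (fun R => Ja J a b κ 0 ψ R w v) atTop
      (𝓝 (star (inner ℂ w (Cop Q A K a b v)))) := by
    refine l3.congr' ?_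
    filter_upwards [eventually_ge_atTop (1:ℝ)] with R hR
    exact Ja_symm hJ hA hR v w
  have e := tendsto_nhds_unique l4 l2
  rw [← e]
  exact (inner_conj_symm _ _).symm

lemma J_smul (hJ : IsVirial Q T J) (m : Ix) {g : V → ℝ} (hg : Tst g) (p : ℝ) (v : D) :
    J m (fun x => ((p * g x : ℝ) : ℂ)) v = (p : ℂ) • J m (fun x => (g x : ℂ)) v := by
  have h0 := Q.lin (J m) (fun x => (g x : ℂ)) (fun x => (g x : ℂ)) (-1) v
    (Q.bose_fld _ (hJ.bose m)) hg.isTest hg.isTest
  have h1 : J m (fun _ => 0) v = 0 := by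
    have e : (fun x => (g x : ℂ) + (-1) * (g x : ℂ)) = fun _ => 0 := by
      funext x; ring
    rw [e] at h0
    rw [h0]
    simp
  have h2 := Q.lin (J m) (fun _ => 0) (fun x => (g x : ℂ)) (p : ℂ) v
    (Q.bose_fld _ (hJ.bose m)) ⟨0, rfl⟩ hg.isTest
  have e : (fun x => ((p * g x : ℝ) : ℂ)) = fun x => (0 : ℂ) + (p : ℂ) * (g x : ℂ) := by
    funext x; push_cast; ring
  rw [e, h2, h1, zero_add]

/-- transformation of the smeared current -/
lemma J_cov (hJ : IsVirial Q T J) {g : V → ℝ} (hg : Tst g) (p : Ix → ℝ) {s : ℝ} {L : Ix → V}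
    (hs : 0 < s) (hL : GF.IsLor L) (w v : D) :
    inner ℂ (Q.U s L 0 w) (∑ m, J m (fun x => ((p m * g x : ℝ) : ℂ)) (Q.U s L 0 v)) =
      inner ℂ w (∑ k, J k (fun x => ((s * (∑ m, L k m * p m) * g (sim s L 0 x) : ℝ) : ℂ)) v) := by
  have hg' : Tst fun x => g (sim s L 0 x) := tst_sim hg hs hL
  have h1 : ∀ m, inner ℂ (Q.U s L 0 w) (J m (fun x => (g x : ℂ)) (Q.U s L 0 v)) =
      ∑ k, ((s : ℂ) * L k m) * inner ℂ w (J k (fun x => (g (sim s L 0 x) : ℂ)) v) := by
    intro m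
    rw [hJ.cov m s L 0 _ v hs hL hg.isTest, inner_sum]
    refine Finset.sum_congr rfl fun k _ => ?_
    rw [inner_smul_right, Q.U_inner s L 0 _ _ hs hL]
  rw [inner_sum, inner_sum]
  have e1 : ∀ m, inner ℂ (Q.U s L 0 w) (J m (fun x => ((p m * g x : ℝ) : ℂ)) (Q.U s L 0 v)) =
      (p m : ℂ) * ∑ k, ((s : ℂ) * L k m) *
        inner ℂ w (J k (fun x => (g (sim s L 0 x) : ℂ)) v) := by
    intro m
    rw [J_smul hJ m hg, inner_smul_right, h1]
  have e2 : ∀ k, inner ℂ w (J k (fun x =>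
      ((s * (∑ m, L k m * p m) * g (sim s L 0 x) : ℝ) : ℂ)) v) =
      ((s * (∑ m, L k m * p m) : ℝ) : ℂ) *
        inner ℂ w (J k (fun x => (g (sim s L 0 x) : ℂ)) v) := by
    intro k
    rw [J_smul hJ k hg', inner_smul_right]
  simp only [e1, e2]
  push_cast
  simp only [Fin.sum_univ_four]
  ring

/-- the charge commutes with the similitudes that multiply the null vector by a number -/
theorem Cop_cov0 (hT : Q.IsStress T) (hJ : IsVirial Q T J) (h : NullCharges Q T J A K)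
    (ht : TrNull T) {a b : V} (ha : IsNull a) (hb : IsNull b) (hab : GF.mdot a b = 1)
    {s r : ℝ} {L : Ix → V} (hs : 0 < s) (hr : 0 < r) (hL : GF.IsLor L)
    (hLa : sim 1 L 0 a = r • a) (v : D) :
    Cop Q A K a b (Q.U s L 0 v) = Q.U s L 0 (Cop Q A K a b v) := by
  obtain ⟨κ', hκ', hκ1'⟩ := exists_kp
  obtain ⟨ψ', hψ', hψ1⟩ := exists_bump
  obtain ⟨a', ha'def⟩ : ∃ a', a' = r⁻¹ • sim 1 (linv L) 0 b := ⟨_, rfl⟩
  have hLa' : sim 1 L 0 a' = r⁻¹ • b := by rw [ha'def, simL_smul, sim_linv hL]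
  have haa' : GF.mdot a a' = 1 := by
    rw [← md_LL hL, hLa, hLa', md_smul, md_smul_l, hab]
    field_simp
  have ha' : IsNull a' := by
    have h0 : GF.mdot a' a' = 0 := by
      rw [← md_LL hL, hLa', md_smul, md_smul_l, hb.1]; simp
    exact ⟨h0, null_pos ha h0 (by rw [haa']; exact one_pos)⟩
  set κ : V → ℝ := fun x => κ' (sim s L 0 x) with hκdef
  have hκ : Tst κ := tst_sim hκ' hs hL
  have hκ1 : ∀ᶠ x in 𝓝 (0 : V), κ x = 1 := by
    have hc : Tendsto (fun x : V => sim s L 0 x) (𝓝 0) (𝓝 0) := by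
      have h1 : Continuous fun x : V => simE s L hs hL x :=
        (simE s L hs hL).toContinuousLinearEquiv.continuous
      have h2 := h1.tendsto 0
      have e : sim s L 0 (0 : V) = 0 := by funext n; simp [sim]
      simpa [H755.simE_apply, e] using h2
    exact hc.eventually hκ1'
  have hsim : ∀ x, sim s L 0 x = s • sim 1 L 0 x := fun x => sim_s s L x
  have hbx : ∀ x, GF.mdot a (sim s L 0 x) = s / r * GF.mdot a x := by
    intro x
    have e : GF.mdot a (sim s L 0 x) = r⁻¹ * GF.mdot (sim 1 L 0 a) (sim s L 0 x) := by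
      rw [hLa, md_smul_l, ← mul_assoc, inv_mul_cancel₀ hr.ne', one_mul]
    rw [e, hsim, md_smul, md_LL hL]
    field_simp
  have hb'x : ∀ x, GF.mdot b (sim s L 0 x) = s * r * GF.mdot a' x := by
    intro x
    have e : b = r • sim 1 L 0 a' := by rw [hLa', smul_smul, mul_inv_cancel₀ hr.ne', one_smul]
    have e' : GF.mdot b (sim s L 0 x) = r * GF.mdot (sim 1 L 0 a') (sim s L 0 x) := by
      rw [← md_smul_l, ← e]
    rw [e', hsim, md_smul, md_LL hL]
    ring
  have hcut : ∀ R x, cut a b κ' R (sim s L 0 x) = cut a a' κ R x := by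
    intro R x
    unfold cut
    rw [hκdef]
    simp only
    congr 1
    rw [hbx, hb'x, hsim, hsim, simL_add, simL_smul, simL_smul, simL_sub, simL_sub, simL_smul,
      simL_smul L (GF.mdot a' x), hLa, hLa']
    funext n
    simp only [Pi.add_apply, Pi.smul_apply, Pi.sub_apply, smul_eq_mul]
    field_simp
  have hsr : s / r ≠ 0 := (div_pos hs hr).ne'
  set ψ : ℝ → ℝ := fun u => ψ' (s / r * u) with hψdef
  have hψ : Tst ψ :=
    ⟨hψ'.1.comp (contDiff_const.mul contDiff_id),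
      hψ'.2.comp_homeomorph (Homeomorph.mulLeft₀ (s / r) hsr)⟩
  have hAb : Adm a b κ' ψ' := ⟨ha, hb, hab, hκ', hκ1', hψ'⟩
  have hAa : Adm a a' κ ψ := ⟨ha, ha', haa', hκ, hκ1, hψ⟩
  have hint : ∫ u, (ψ u : ℂ) = ((r / s : ℝ) : ℂ) := by
    have h5 := Measure.integral_comp_mul_left (fun u => (ψ' u : ℂ)) (s / r)
    rw [hψdef]
    simp only
    rw [h5, hψ1, abs_of_pos (inv_pos.2 (div_pos hs hr)), inv_div, Complex.real_smul, mul_one]
  have main : ∀ w, inner ℂ (Q.U s L 0 w) (Cop Q A K a b (Q.U s L 0 v)) =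
      inner ℂ w (Cop Q A K a b v) := by
    intro w
    have l1 := lim0 (J := J) hT hJ h ht hAb (Q.U s L 0 v) (Q.U s L 0 w)
    have l2 := (lim0 (J := J) hT hJ h ht hAa v w).const_mul ((s / r : ℝ) : ℂ)
    rw [hψ1, one_mul] at l1
    rw [hint, Cop_b hT hJ h ht ha hb hab ha' haa'] at l2
    have l3 : Tendsto (fun R => Ja J a b κ' 0 ψ' R (Q.U s L 0 v) (Q.U s L 0 w)) atTop
        (𝓝 (((s / r : ℝ) : ℂ) * (((r / s : ℝ) : ℂ) * inner ℂ w (Cop Q A K a b v)))) := by
      refine l2.congr' ?_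
      filter_upwards [eventually_ge_atTop (1:ℝ)] with R hR
      unfold Ja
      have hg : Tst fun x => ctf a b κ' 0 ψ' R x := ctf_tst hAb 0 hR
      have e3 : ∀ x, ctf a b κ' 0 ψ' R (sim s L 0 x) = ctf a a' κ 0 ψ R x := by
        intro x
        unfold ctf
        rw [sub_zero, sub_zero, hcut, hbx]
      have e2 : ∀ k, ∑ m, L k m * (eta m * a m) = r⁻¹ * (eta k * a k) := by
        intro k
        have h5 := md_L hL k a
        rw [hLa, md_smul] at h5
        have h6 : GF.mdot (L k) a = ∑ m, L k m * (eta m * a m) := by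
          unfold GF.mdot
          exact Finset.sum_congr rfl fun m _ => by ring
        rw [← h6, ← h5, ← mul_assoc, inv_mul_cancel₀ hr.ne', one_mul]
      rw [J_cov hJ hg (fun m => eta m * a m) hs hL w v]
      simp only [e3, e2]
      rw [← inner_smul_right, Finset.smul_sum]
      refine congrArg (fun z => inner ℂ w z) (Finset.sum_congr rfl fun m _ => ?_)
      have hg' : Tst fun x => ctf a a' κ 0 ψ R x := ctf_tst hAa 0 hR
      rw [J_smul hJ m hg' (eta m * a m), J_smul hJ m hg' (s * (r⁻¹ * (eta m * a m))), smul_smul]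
      congr 1
      push_cast
      ring
    have e := tendsto_nhds_unique l1 l3
    rw [e, ← mul_assoc, ← Complex.ofReal_mul]
    have e4 : s / r * (r / s) = 1 := by field_simp
    rw [e4, Complex.ofReal_one, one_mul]
  refine ext_inner_left ℂ fun z => ?_
  have hz := U_linv' h.toRep hs hL z
  rw [← hz, main, Q.U_inner s L 0 _ _ hs hL]

/-- the charge commutes with the similitudes that multiply the null vector by a number -/
theorem Cop_cov (hT : Q.IsStress T) (hJ : IsVirial Q T J) (h : NullCharges Q T J A K)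
    (ht : TrNull T) {a b : V} (ha : IsNull a) (hb : IsNull b) (hab : GF.mdot a b = 1)
    {s r : ℝ} {L : Ix → V} (hs : 0 < s) (hr : 0 < r) (hL : GF.IsLor L)
    (hLa : sim 1 L 0 a = r • a) (x : V) (v : D) :
    Cop Q A K a b (Q.U s L x v) = Q.U s L x (Cop Q A K a b v) := by
  have e : ∀ v, Q.U s L x v = Q.U 1 GF.one x (Q.U s L 0 v) := by
    intro v
    rw [h.mul 1 GF.one x s L 0 v one_pos hs Vale.Agent.P352.isLor_one hL, one_mul]
    congr 1
    · funext m n
      simp [sim, GF.one, bas]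
    · funext n
      simp [sim, GF.one, bas]
  have h1 := Cop_tr hT hJ h ht ha hb hab x (Q.U 1 GF.one x (Q.U s L 0 v))
  rw [H755.UU, neg_add_cancel, H755.U0, Cop_cov0 hT hJ h ht ha hb hab hs hr hL hLa] at h1
  rw [e, e, h1]

end Vale.Agent.P352.H148

end
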