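import Vale.Agent.P352.H746.Reg

set_option linter.all false

noncomputable section

open MeasureTheory SchwartzMap Complex Filter Topology
open scoped SchwartzMap ComplexConjugate ENNReal LineDeriv

namespace Vale.Agent.P352.H148

open GF (Ix V Fn Sch ev pd bar sim bas o)
open H246 H496 H755 H246R H731 H746
open UniformSpace (Completion)

variable {D : Type*} [NormedAddCommGroup D] [InnerProductSpace ℂ D]
variable {Q : GF.Theory D}

/-- the spectral measure of a covariant vector valued distribution -/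
theorem wgt_of {κ : 𝓢(Mink, ℂ) →L[ℂ] Completion D} {ν : 𝓢(Mink, ℂ) → Measure Mink}
    {μ : Measure Mink} (Sd : SpecData (fun g => κ g) ν)
    (hd : ∀ g, ν g = μ.withDensity (dens g)) {σ w C : ℝ} (hσ : 0 < σ) (hw : 0 < w)
    {L : Ix → V} (hL : GF.IsLor L) (hn : ∀ F, ‖κ F‖ = w * ‖κ (simS σ hσ hL 0 F)‖)
    (hC : 0 < C) (hCw : C * w ^ 2 = σ ^ 8) :
    μ.map (fun p => σ⁻¹ • lam L p) = ENNReal.ofReal C • μ := by
  set Bl : 𝓢(Mink, ℂ) →ₗ[ℂ] Completion D :=
    { toFun := fun F => (w : ℂ) • κ (simS σ hσ hL 0 F)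
      map_add' := fun F G => by
        have : simS σ hσ hL 0 (F + G) = simS σ hσ hL 0 F + simS σ hσ hL 0 G := by
          ext x; simp [simS0_apply]
        rw [this, map_add, smul_add]
      map_smul' := fun c F => by
        have : simS σ hσ hL 0 (c • F) = c • simS σ hσ hL 0 F := by
          ext x; simp [simS0_apply]
        rw [this, map_smul, RingHom.id_apply, smul_comm] } with hBl
  have hn' : ∀ F, ‖(κ : 𝓢(Mink, ℂ) →ₗ[ℂ] Completion D) F‖ = ‖Bl F‖ := by
    intro F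
    show ‖κ F‖ = ‖(w : ℂ) • κ (simS σ hσ hL 0 F)‖
    rw [norm_smul, norm_real, Real.norm_of_nonneg hw.le]
    exact hn F
  have h5 := inv2 Sd Sd hd hd (fun p => σ⁻¹ • lam L p) (measurable_M σ L)
    (w ^ 2) ((σ ^ 4)⁻¹) (by positivity) (simS σ hσ hL 0)
    (fun b => (lamE hL).symm (σ⁻¹ • b))
    (fun g b => by
      ext x
      rw [simS0_apply, tauS_apply, tauS_apply, simS0_apply]
      congr 1
      have h1 : lam L (x - (lamE hL).symm (σ⁻¹ • b)) = lam L x - σ⁻¹ • b := by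
        have h2 := (lamE hL).map_sub x ((lamE hL).symm (σ⁻¹ • b))
        rw [ContinuousLinearEquiv.apply_symm_apply] at h2
        exact h2
      rw [h1, smul_sub, smul_smul, mul_inv_cancel₀ hσ.ne', one_smul])
    (fun f g => by
      have h1 := inner_of_norm (κ : 𝓢(Mink, ℂ) →ₗ[ℂ] Completion D) Bl hn' f g
      have h2 : inner ℂ (Bl f) (Bl g) = ((w ^ 2 : ℝ) : ℂ) *
          inner ℂ (κ (simS σ hσ hL 0 f)) (κ (simS σ hσ hL 0 g)) := by
        show inner ℂ ((w : ℂ) • κ (simS σ hσ hL 0 f))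
          ((w : ℂ) • κ (simS σ hσ hL 0 g)) = _
        rw [inner_smul_left, inner_smul_right, conj_ofReal]
        push_cast
        ring
      rw [h2] at h1
      exact h1)
    (fun g p => by
      rw [mft_simS]
      have : chr (-WithLp.toLp 2 (0 : V)) (σ⁻¹ • lam L p) = 1 := by
        have h0 : (-WithLp.toLp 2 (0 : V) : Mink) = 0 := by
          ext n; simp
        rw [h0, chr_zero']
      rw [this, one_mul])
    (fun b p => by rw [chr_lam_symm hL, chr_smul])
  have h6 : ENNReal.ofReal C * ENNReal.ofReal (w ^ 2 * ((σ ^ 4)⁻¹) ^ 2) = 1 := by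
    rw [← ENNReal.ofReal_mul hC.le]
    have : C * (w ^ 2 * ((σ ^ 4)⁻¹) ^ 2) = 1 := by
      rw [← mul_assoc, hCw]
      field_simp
    rw [this, ENNReal.ofReal_one]
  conv_rhs => rw [h5]
  rw [smul_smul, h6, one_smul]

/-- A covariant vector valued distribution with a positive weight vanishes. -/
theorem ker_zero {κ : 𝓢(Mink, ℂ) →L[ℂ] Completion D}
    (hx : ∀ g (a : Mink) (z : D), inner ℂ ((U1 Q a z : D) : Completion D) (κ (tauS a g)) =
      inner ℂ (z : Completion D) (κ g)) {A B : ℕ} (hAB : A < B + 2) (hAB' : 0 < A + B)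
    (hn : ∀ (σ r : ℝ) (L : Ix → V) (hσ : 0 < σ) (hr : 0 < r) (hL : GF.IsLor L),
      sim 1 L 0 (nu (-1)) = r • nu (-1) → ∃ w, 0 < w ∧ σ ^ A * r ^ B * w ^ 2 = σ ^ 8 ∧
        ∀ F, ‖κ F‖ = w * ‖κ (simS σ hσ hL 0 F)‖) (g : 𝓢(Mink, ℂ)) : κ g = 0 := by
  obtain ⟨ν, hν⟩ := exists_data (Q := Q) κ hx
  obtain ⟨μ, h1, h2⟩ := hν.exists_KL
  obtain ⟨C, m, hC, hb⟩ := exists_ball_bound κ hν h2
  have h0 : μ = 0 := null_gen (fin_compact hb) (by rw [ae_iff]; exact h1) (Or.inr rfl)
    (A := A) (B := B) hAB hAB'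
    (fun σ r L hσ hr hL hLa => by
      obtain ⟨w, hw, hw2, hw3⟩ := hn σ r L hσ hr hL hLa
      exact wgt_of hν h2 hσ hw hL hw3 (by positivity) hw2)
  have h3 := norm_sq_spec hν g
  rw [h2 g, h0, withDensity_zero_left] at h3
  simp only [Measure.coe_zero, Pi.zero_apply, ENNReal.ofReal_eq_zero] at h3
  have h4 : ‖κ g‖ ^ 2 = 0 := le_antisymm h3 (by positivity)
  exact norm_eq_zero.1 (pow_eq_zero_iff two_ne_zero |>.1 h4)

/-- the same statement for distributions with values in `D` that are weakly continuous -/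
theorem vec_zero {κ : 𝓢(Mink, ℂ) → D} (hadd : ∀ F G, κ (F + G) = κ F + κ G)
    (hsmul : ∀ (c : ℂ) F, κ (c • F) = c • κ F)
    (hcont : ∀ w : D, Continuous fun F => inner ℂ w (κ F))
    (htr : ∀ (b : Mink) F, κ (tauS b F) = U1 Q b (κ F))
    {A B : ℕ} (hAB : A < B + 2) (hAB' : 0 < A + B)
    (hn : ∀ (σ r : ℝ) (L : Ix → V) (hσ : 0 < σ) (hr : 0 < r) (hL : GF.IsLor L),
      sim 1 L 0 (nu (-1)) = r • nu (-1) → ∃ w : ℝ, 0 < w ∧ σ ^ A * r ^ B * w ^ 2 = σ ^ 8 ∧
        ∀ F, κ F = (w : ℂ) • Q.U σ L 0 (κ (simS σ hσ hL 0 F))) (g : 𝓢(Mink, ℂ)) : κ g = 0 := by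
  set κl : 𝓢(Mink, ℂ) →ₗ[ℂ] Completion D :=
    { toFun := fun F => (κ F : Completion D)
      map_add' := fun F G => by rw [hadd, Completion.coe_add]
      map_smul' := fun c F => by rw [hsmul, Completion.coe_smul, RingHom.id_apply] } with hκl
  have := barrelled_schwartz
  have hc : Continuous κl := by
    refine cont_of_weak κl (Z := Set.range ((↑) : D → Completion D)) Completion.denseRange_coe ?_
    rintro _ ⟨z, rfl⟩
    have e : (fun F : 𝓢(Mink, ℂ) => inner ℂ (z : Completion D) (κl F)) =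
        fun F : 𝓢(Mink, ℂ) => inner ℂ z (κ F) := by
      funext F
      exact Completion.inner_coe z (κ F)
    rw [e]
    exact hcont z
  have h := ker_zero (Q := Q) (κ := ⟨κl, hc⟩) (fun g a z => by
      show inner ℂ ((U1 Q a z : D) : Completion D) ((κ (tauS a g) : D) : Completion D) =
        inner ℂ (z : Completion D) ((κ g : D) : Completion D)
      rw [Completion.inner_coe, Completion.inner_coe, htr, U1_inner]) hAB hAB'
    (fun σ r L hσ hr hL hLa => by
      obtain ⟨w, hw, hw2, hw3⟩ := hn σ r L hσ hr hL hLa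
      refine ⟨w, hw, hw2, fun F => ?_⟩
      show ‖((κ F : D) : Completion D)‖ = w * ‖((κ (simS σ hσ hL 0 F) : D) : Completion D)‖
      rw [Completion.norm_coe, Completion.norm_coe]
      conv_lhs => rw [hw3 F]
      rw [norm_smul, norm_real, Real.norm_of_nonneg hw.le, U_nrm0 hσ hL]) g
  exact Completion.coe_eq_zero_iff.1 h

end Vale.Agent.P352.H148

end
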