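import Vale.Agent.P352.H993.TrDefs
import Vale.Agent.P352.H148.Zl
import Vale.Agent.P352.H496.Crit2
import Vale.Agent.P352.H15.Lor

set_option linter.all false

noncomputable section

open MeasureTheory SchwartzMap Complex Filter Topology
open scoped SchwartzMap ComplexConjugate ENNReal LineDeriv

namespace Vale.Agent.P352.H148

open GF (Ix V Fn Sch ev pd bar sim bas o)
open H246 H496 H755 H993 H15

/-! ### The differential operator `kd` on Schwartz functions -/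

lemma lineDeriv_tau (a : Mink) (F : 𝓢(Mink, ℂ)) (m : Ix) :
    (∂_{eb m} (tauS a F) : 𝓢(Mink, ℂ)) = tauS a (∂_{eb m} F : 𝓢(Mink, ℂ)) := by
  ext x
  apply lineDeriv_eq_of_hasDerivAt
  have h := hasDerivAt_line F (x - a) (eb m)
  have e : (fun t : ℝ => tauS a F (x + t • eb m)) = fun t : ℝ => F (x - a + t • eb m) := by
    funext t
    rw [tauS_apply]
    congr 1
    abel
  rw [e]
  exact h

lemma cont_ld (m : Ix) : Continuous fun f : 𝓢(Mink, ℂ) => (∂_{eb m} f : 𝓢(Mink, ℂ)) :=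
  (LineDeriv.lineDerivOpCLM ℂ 𝓢(Mink, ℂ) (eb m)).continuous

lemma ld_add (m : Ix) (f g : 𝓢(Mink, ℂ)) : (∂_{eb m} (f + g) : 𝓢(Mink, ℂ)) =
    (∂_{eb m} f : 𝓢(Mink, ℂ)) + (∂_{eb m} g : 𝓢(Mink, ℂ)) := LineDeriv.lineDerivOp_add _ f g

lemma ld_smul (m : Ix) (c : ℂ) (f : 𝓢(Mink, ℂ)) : (∂_{eb m} (c • f) : 𝓢(Mink, ℂ)) =
    c • (∂_{eb m} f : 𝓢(Mink, ℂ)) := LineDeriv.lineDerivOp_smul _ c f

lemma cont_dS (a : V) : Continuous (dS a) := by
  unfold dS
  exact continuous_finset_sum _ fun m _ => Continuous.const_smul (cont_ld m) (a m : ℂ)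

lemma cont_axS (a : V) : Continuous (axS a) := by
  unfold axS
  exact continuous_finset_sum _ fun m _ =>
    Continuous.const_smul (Xm m).continuous ((GF.eta m * a m : ℝ) : ℂ)

lemma cont_xxS : Continuous xxS := by
  unfold xxS
  exact continuous_finset_sum _ fun m _ =>
    Continuous.const_smul ((Xm m).continuous.comp (Xm m).continuous) (GF.eta m : ℂ)

lemma cont_Eu : Continuous Eu := by
  unfold Eu
  exact continuous_finset_sum _ fun m _ => (Xm m).continuous.comp (cont_ld m)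

lemma cont_kdS (a : V) (Δ : ℝ) : Continuous (kdS a Δ) := by
  unfold kdS
  have h1 : Continuous fun f => (2 : ℂ) • axS a (Eu f) :=
    Continuous.const_smul ((cont_axS a).comp cont_Eu) (2 : ℂ)
  have h2 : Continuous fun f => ((8 - 2 * Δ : ℝ) : ℂ) • axS a f :=
    Continuous.const_smul (cont_axS a) ((8 - 2 * Δ : ℝ) : ℂ)
  exact ((cont_xxS.comp (cont_dS a)).sub h1).sub h2

lemma dS_add (a : V) (f g : 𝓢(Mink, ℂ)) : dS a (f + g) = dS a f + dS a g := by
  unfold dS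
  simp only [ld_add, smul_add, Finset.sum_add_distrib]

lemma dS_smul (a : V) (c : ℂ) (f : 𝓢(Mink, ℂ)) : dS a (c • f) = c • dS a f := by
  unfold dS
  simp only [ld_smul, smul_comm _ c, Finset.smul_sum]

lemma Eu_add (f g : 𝓢(Mink, ℂ)) : Eu (f + g) = Eu f + Eu g := by
  unfold Eu
  simp only [ld_add, map_add, Finset.sum_add_distrib]

lemma Eu_smul (c : ℂ) (f : 𝓢(Mink, ℂ)) : Eu (c • f) = c • Eu f := by
  unfold Eu
  simp only [ld_smul, map_smul, Finset.smul_sum]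

lemma kdS_add (a : V) (Δ : ℝ) (f g : 𝓢(Mink, ℂ)) : kdS a Δ (f + g) = kdS a Δ f + kdS a Δ g := by
  ext x
  unfold kdS
  rw [dS_add, Eu_add]
  simp only [SchwartzMap.add_apply, SchwartzMap.sub_apply, SchwartzMap.smul_apply, xxS_apply,
    axS_apply, smul_eq_mul]
  ring

lemma kdS_smul (a : V) (Δ : ℝ) (c : ℂ) (f : 𝓢(Mink, ℂ)) : kdS a Δ (c • f) = c • kdS a Δ f := by
  ext x
  unfold kdS
  rw [dS_smul, Eu_smul]
  simp only [SchwartzMap.add_apply, SchwartzMap.sub_apply, SchwartzMap.smul_apply, xxS_apply,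
    axS_apply, smul_eq_mul]
  ring

lemma kdS_apply (a : V) (Δ : ℝ) (f : 𝓢(Mink, ℂ)) (x : Mink) :
    kdS a Δ f x = (GF.mdot x.ofLp x.ofLp : ℂ) * dS a f x - 2 * ((GF.mdot a x.ofLp : ℂ) * Eu f x) -
      ((8 - 2 * Δ : ℝ) : ℂ) * ((GF.mdot a x.ofLp : ℂ) * f x) := by
  unfold kdS
  rw [SchwartzMap.sub_apply, SchwartzMap.sub_apply, SchwartzMap.smul_apply,
    SchwartzMap.smul_apply, xxS_apply, axS_apply, axS_apply, smul_eq_mul, smul_eq_mul]

lemma Eu_eq (f : 𝓢(Mink, ℂ)) (x : Mink) :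
    Eu f x = ∑ n, (x n : ℂ) * (∂_{eb n} f : 𝓢(Mink, ℂ)) x := by
  unfold Eu
  rw [SchwartzMap.sum_apply]
  exact Finset.sum_congr rfl fun n _ => Xm_apply _ _ _

lemma gm_smul (s : ℝ) (x y : V) : GF.mdot (s • x) y = s * GF.mdot x y := by
  unfold GF.mdot
  rw [Finset.mul_sum]
  exact Finset.sum_congr rfl fun m _ => by simp only [Pi.smul_apply, smul_eq_mul]; ring

lemma gm_comm (x y : V) : GF.mdot x y = GF.mdot y x := by
  unfold GF.mdot
  exact Finset.sum_congr rfl fun m _ => by ring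

lemma gm_smul' (s : ℝ) (x y : V) : GF.mdot x (s • y) = s * GF.mdot x y := by
  rw [gm_comm, gm_smul, gm_comm]

lemma lam_ofLp (L : Ix → V) (x : Mink) : (lam L x).ofLp = sim 1 L 0 x.ofLp := by
  funext n
  simp [sim, lam_apply]

lemma dS_sim {s r : ℝ} (hs : 0 < s) {L : Ix → V} (hL : GF.IsLor L) {a b : V}
    (hab : sim 1 L 0 a = r • b) (F : 𝓢(Mink, ℂ)) (x : Mink) :
    dS a (simS s hs hL 0 F) x = ((s * r : ℝ) : ℂ) * dS b F (s • lam L x) := by
  rw [dS_apply, dS_apply]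
  have h : ∀ k, ∑ m, a m * L m k = r * b k := by
    intro k
    have := congrFun hab k
    simpa [sim] using this
  have h' : ∀ k, ∑ m, (a m : ℂ) * (L m k : ℂ) = (r : ℂ) * (b k : ℂ) := by
    intro k
    exact_mod_cast h k
  have e : ∀ m, (∂_{eb m} (simS s hs hL 0 F) : 𝓢(Mink, ℂ)) x =
      (s : ℂ) * ∑ k, (L m k : ℂ) * (∂_{eb k} F : 𝓢(Mink, ℂ)) (s • lam L x) := by
    intro m
    rw [lineDeriv_simS]
    simp only [SchwartzMap.smul_apply, SchwartzMap.sum_apply, smul_eq_mul, simS0_apply]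
  simp only [e]
  have h0 := h' 0
  have h1 := h' 1
  have h2 := h' 2
  have h3 := h' 3
  simp only [Fin.sum_univ_four] at h0 h1 h2 h3 ⊢
  push_cast
  linear_combination (s : ℂ) * (∂_{eb 0} F : 𝓢(Mink, ℂ)) (s • lam L x) * h0 +
    (s : ℂ) * (∂_{eb 1} F : 𝓢(Mink, ℂ)) (s • lam L x) * h1 +
    (s : ℂ) * (∂_{eb 2} F : 𝓢(Mink, ℂ)) (s • lam L x) * h2 +
    (s : ℂ) * (∂_{eb 3} F : 𝓢(Mink, ℂ)) (s • lam L x) * h3

lemma Eu_sim {s : ℝ} (hs : 0 < s) {L : Ix → V} (hL : GF.IsLor L) (F : 𝓢(Mink, ℂ)) (x : Mink) :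
    Eu (simS s hs hL 0 F) x = Eu F (s • lam L x) := by
  rw [Eu_eq, Eu_eq]
  have e : ∀ m, (∂_{eb m} (simS s hs hL 0 F) : 𝓢(Mink, ℂ)) x =
      (s : ℂ) * ∑ k, (L m k : ℂ) * (∂_{eb k} F : 𝓢(Mink, ℂ)) (s • lam L x) := by
    intro m
    rw [lineDeriv_simS]
    simp only [SchwartzMap.smul_apply, SchwartzMap.sum_apply, smul_eq_mul, simS0_apply]
  have e2 : ∀ k, (((s • lam L x : Mink) k : ℝ) : ℂ) = (s : ℂ) * ∑ m, (x m : ℂ) * (L m k : ℂ) := by
    intro k
    rw [PiLp.smul_apply, lam_apply, smul_eq_mul]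
    push_cast
    rfl
  simp only [e, e2]
  simp only [Fin.sum_univ_four]
  ring

/-- covariance of `kdS` -/
lemma kdS_sim (Δ : ℝ) {s r : ℝ} (hs : 0 < s) {L : Ix → V} (hL : GF.IsLor L) {a b : V}
    (hab : sim 1 L 0 a = r • b) (F : 𝓢(Mink, ℂ)) :
    kdS a Δ (simS s hs hL 0 F) = ((r / s : ℝ) : ℂ) • simS s hs hL 0 (kdS b Δ F) := by
  ext x
  rw [SchwartzMap.smul_apply, smul_eq_mul, simS0_apply, kdS_apply, kdS_apply, dS_sim hs hL hab,
    Eu_sim, simS0_apply]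
  have h1 : GF.mdot (s • lam L x).ofLp (s • lam L x).ofLp = s ^ 2 * GF.mdot x.ofLp x.ofLp := by
    have : (s • lam L x).ofLp = s • (lam L x).ofLp := rfl
    rw [this, gm_smul, gm_smul', lam_ofLp, mdot_sim hL]
    ring
  have h2 : r * GF.mdot b (s • lam L x).ofLp = s * GF.mdot a x.ofLp := by
    have : (s • lam L x).ofLp = s • (lam L x).ofLp := rfl
    rw [this, gm_smul', lam_ofLp, ← mdot_sim hL a x.ofLp, hab, gm_smul]
    ring
  have h3 : ((GF.mdot a x.ofLp : ℝ) : ℂ) = (r : ℂ) / (s : ℂ) * (GF.mdot b (s • lam L x).ofLp : ℂ) := by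
    have hs' : s ≠ 0 := hs.ne'
    have : GF.mdot a x.ofLp = r / s * GF.mdot b (s • lam L x).ofLp := by
      field_simp
      linarith
    rw [this]
    push_cast
    rfl
  rw [h1, h3]
  have hs' : (s : ℂ) ≠ 0 := by exact_mod_cast hs.ne'
  push_cast
  field_simp

/-- the velocity field of the translates of `K a` -/
def XK (a x : V) : V → V := fun z =>
  -(2 * GF.mdot a x) • z + (2 * GF.mdot x z) • a - (2 * GF.mdot a z) • x + cK a x

lemma isSim_XK (a x : V) : IsSim (-(2 * GF.mdot a x)) (XK a x) := by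
  refine ⟨cK a x, fun m n => 2 * GF.eta m * x m * a n - 2 * GF.eta m * a m * x n, ?_, ?_⟩
  · intro m n
    ring
  · intro z n
    simp only [XK, Pi.add_apply, Pi.sub_apply, Pi.smul_apply, smul_eq_mul, GF.mdot]
    simp only [Fin.sum_univ_four]
    ring

lemma gm_add (x y z : V) : GF.mdot x (y + z) = GF.mdot x y + GF.mdot x z := by
  unfold GF.mdot
  rw [← Finset.sum_add_distrib]
  exact Finset.sum_congr rfl fun m _ => by simp only [Pi.add_apply]; ring

/-- `kdS` of a translated function -/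
lemma kdS_tau (a : V) (x : Mink) (F : 𝓢(Mink, ℂ)) :
    (fun z => fl (tauS x (kdS a 2 (tauS (-x) F))) z) = fun z => fl (kdS a 2 F) z -
      (∑ n, (XK a x.ofLp z n : ℂ) * pd n (fl F) z) + 4 * (GF.mdot a x.ofLp : ℂ) * fl F z := by
  funext z
  rw [fl_apply, fl_apply, fl_apply, tauS_apply, kdS_apply, kdS_apply, dS_apply, dS_apply,
    Eu_eq, Eu_eq]
  simp only [lineDeriv_tau, tauS_apply, pd_fl, fl_apply]
  have e : WithLp.toLp 2 z - x - -x = WithLp.toLp 2 z := by abel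
  rw [e]
  have e1 : (WithLp.toLp 2 z - x : Mink).ofLp = z - x.ofLp := rfl
  have e3 : ∀ n, (WithLp.toLp 2 z - x : Mink) n = z n - x n := fun n => rfl
  simp only [e3, e1, XK, cK, Pi.add_apply, Pi.sub_apply, Pi.smul_apply, smul_eq_mul, GF.mdot]
  simp only [Fin.sum_univ_four]
  push_cast
  ring

end Vale.Agent.P352.H148

end
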