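import Vale.Agent.P352.H148.Kd

set_option linter.all false

noncomputable section

open MeasureTheory SchwartzMap Complex Filter Topology
open scoped SchwartzMap ComplexConjugate ENNReal LineDeriv

namespace Vale.Agent.P352.H148

open GF (Ix V Fn Sch ev pd bar sim bas o)
open H246 H496 H755 H731 H746 H993 H15

/-! ### Commutation rules -/

lemma ld_apply (m : Ix) (f : 𝓢(Mink, ℂ)) (x : Mink) :
    (∂_{eb m} f : 𝓢(Mink, ℂ)) x = fderiv ℝ f x (eb m) := rfl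

lemma eb_apply (m n : Ix) : (eb m : Mink) n = if n = m then 1 else 0 := by
  simp [eb]

lemma ld_Xm (k n : Ix) (f : 𝓢(Mink, ℂ)) : (∂_{eb k} (Xm n f) : 𝓢(Mink, ℂ)) =
    Xm n (∂_{eb k} f : 𝓢(Mink, ℂ)) + (if n = k then (1 : ℂ) else 0) • f := by
  ext x
  apply lineDeriv_eq_of_hasDerivAt
  have h := hasDerivAt_line f x (eb k)
  have e : (fun t : ℝ => Xm n f (x + t • eb k)) =
      fun t : ℝ => ((x n + t * (eb k : Mink) n : ℝ) : ℂ) * f (x + t • eb k) := by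
    funext t
    rw [Xm_apply]
    simp
  rw [e]
  have h1 : HasDerivAt (fun t : ℝ => ((x n + t * (eb k : Mink) n : ℝ) : ℂ))
      (((eb k : Mink) n : ℝ) : ℂ) 0 := by
    have h2 : HasDerivAt (fun t : ℝ => x n + t * (eb k : Mink) n) ((eb k : Mink) n) 0 := by
      have := ((hasDerivAt_id (0 : ℝ)).mul_const ((eb k : Mink) n)).const_add (x n)
      simpa using this
    exact h2.ofReal_comp
  have h3 := h1.mul h
  refine h3.congr_deriv ?_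
  rw [SchwartzMap.add_apply, SchwartzMap.smul_apply, Xm_apply, eb_apply, smul_eq_mul, ld_apply]
  simp only [zero_smul, add_zero, zero_mul]
  split_ifs <;> simp <;> ring

lemma ld_sum (m : Ix) (g : Ix → 𝓢(Mink, ℂ)) :
    (∂_{eb m} (∑ k, g k) : 𝓢(Mink, ℂ)) = ∑ k, (∂_{eb m} (g k) : 𝓢(Mink, ℂ)) :=
  LineDeriv.lineDerivOp_sum (eb m) g Finset.univ

lemma ld_sub (m : Ix) (f g : 𝓢(Mink, ℂ)) : (∂_{eb m} (f - g) : 𝓢(Mink, ℂ)) =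
    (∂_{eb m} f : 𝓢(Mink, ℂ)) - (∂_{eb m} g : 𝓢(Mink, ℂ)) := by
  rw [sub_eq_add_neg, ld_add, ← neg_one_smul ℂ g, ld_smul, neg_one_smul, sub_eq_add_neg]

lemma ld_dS (m : Ix) (a : V) (f : 𝓢(Mink, ℂ)) :
    (∂_{eb m} (dS a f) : 𝓢(Mink, ℂ)) = dS a (∂_{eb m} f : 𝓢(Mink, ℂ)) := by
  unfold dS
  rw [ld_sum]
  refine Finset.sum_congr rfl fun n _ => ?_
  rw [ld_smul, lineDeriv_comm']

lemma ld_axS (m : Ix) (a : V) (f : 𝓢(Mink, ℂ)) :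
    (∂_{eb m} (axS a f) : 𝓢(Mink, ℂ)) = axS a (∂_{eb m} f : 𝓢(Mink, ℂ)) +
      ((GF.eta m * a m : ℝ) : ℂ) • f := by
  unfold axS
  rw [ld_sum]
  simp only [ld_smul, ld_Xm, smul_add, Finset.sum_add_distrib]
  congr 1
  rw [Finset.sum_eq_single m]
  · rw [if_pos rfl, one_smul]
  · intro n _ hn
    rw [if_neg hn, zero_smul, smul_zero]
  · intro hn
    exact absurd (Finset.mem_univ m) hn

lemma ld_xxS (m : Ix) (f : 𝓢(Mink, ℂ)) :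
    (∂_{eb m} (xxS f) : 𝓢(Mink, ℂ)) = xxS (∂_{eb m} f : 𝓢(Mink, ℂ)) +
      (2 * GF.eta m : ℂ) • Xm m f := by
  unfold xxS
  rw [ld_sum]
  simp only [ld_smul, ld_Xm, smul_add, Finset.sum_add_distrib, map_add, map_smul]
  rw [add_assoc]
  congr 1
  rw [← Finset.sum_add_distrib, Finset.sum_eq_single m]
  · rw [if_pos rfl, one_smul, ← two_smul ℂ ((GF.eta m : ℂ) • Xm m f), smul_smul]
  · intro n _ hn
    rw [if_neg hn, zero_smul, smul_zero, add_zero]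
  · intro hn
    exact absurd (Finset.mem_univ m) hn

lemma ld_Eu (m : Ix) (f : 𝓢(Mink, ℂ)) :
    (∂_{eb m} (Eu f) : 𝓢(Mink, ℂ)) = Eu (∂_{eb m} f : 𝓢(Mink, ℂ)) + (∂_{eb m} f : 𝓢(Mink, ℂ)) := by
  unfold Eu
  rw [ld_sum]
  simp only [ld_Xm, Finset.sum_add_distrib]
  congr 1
  · refine Finset.sum_congr rfl fun n _ => ?_
    rw [lineDeriv_comm']
  · rw [Finset.sum_eq_single m]
    · rw [if_pos rfl, one_smul]
    · intro n _ hn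
      rw [if_neg hn, zero_smul]
    · intro hn
      exact absurd (Finset.mem_univ m) hn

lemma axS_add (a : V) (f g : 𝓢(Mink, ℂ)) : axS a (f + g) = axS a f + axS a g := by
  ext x
  simp only [axS_apply, SchwartzMap.add_apply]
  ring

lemma axS_smul (a : V) (c : ℂ) (f : 𝓢(Mink, ℂ)) : axS a (c • f) = c • axS a f := by
  ext x
  simp only [axS_apply, SchwartzMap.smul_apply, smul_eq_mul]
  ring

/-- derivatives of `kdS a 4 f` -/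
lemma ld_kdS (m : Ix) (a : V) (Δ : ℝ) (f : 𝓢(Mink, ℂ)) :
    (∂_{eb m} (kdS a Δ f) : 𝓢(Mink, ℂ)) = kdS a (Δ - 1) (∂_{eb m} f : 𝓢(Mink, ℂ)) +
      (2 * GF.eta m : ℂ) • Xm m (dS a f) - (2 * (GF.eta m * a m) : ℂ) • Eu f -
      ((8 - 2 * Δ) * (GF.eta m * a m) : ℂ) • f := by
  have h : (∂_{eb m} (kdS a Δ f) : 𝓢(Mink, ℂ)) = xxS (dS a (∂_{eb m} f : 𝓢(Mink, ℂ))) +
      (2 * GF.eta m : ℂ) • Xm m (dS a f) - (2 : ℂ) • (axS a (Eu (∂_{eb m} f : 𝓢(Mink, ℂ)) +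
        (∂_{eb m} f : 𝓢(Mink, ℂ))) + ((GF.eta m * a m : ℝ) : ℂ) • Eu f) -
      ((8 - 2 * Δ : ℝ) : ℂ) • (axS a (∂_{eb m} f : 𝓢(Mink, ℂ)) + ((GF.eta m * a m : ℝ) : ℂ) • f) := by
    unfold kdS
    rw [ld_sub, ld_sub, ld_smul, ld_smul, ld_xxS, ld_axS, ld_axS, ld_dS, ld_Eu]
  rw [h]
  ext x
  simp only [SchwartzMap.add_apply, SchwartzMap.sub_apply, SchwartzMap.smul_apply, smul_eq_mul,
    kdS_apply, xxS_apply, axS_apply]
  push_cast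
  ring

lemma eta_c (m : Ix) : (GF.eta m : ℂ) * (GF.eta m : ℂ) = 1 := by
  exact_mod_cast eta_sq m

lemma boxS_eq (f : 𝓢(Mink, ℂ)) (x : Mink) :
    boxS f x = ∑ k, (GF.eta k : ℂ) * (∂_{eb k} (∂_{eb k} f : 𝓢(Mink, ℂ)) : 𝓢(Mink, ℂ)) x := by
  unfold boxS
  rw [SchwartzMap.sum_apply]
  rfl

/-- `kdS` as a linear map -/
def kdL (a : V) (Δ : ℝ) : 𝓢(Mink, ℂ) →ₗ[ℂ] 𝓢(Mink, ℂ) where
  toFun := kdS a Δ
  map_add' := kdS_add a Δ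
  map_smul' c f := kdS_smul a Δ c f

lemma kdS_sum (a : V) (Δ : ℝ) (c : Ix → ℂ) (g : Ix → 𝓢(Mink, ℂ)) :
    kdS a Δ (∑ k, c k • g k) = ∑ k, c k • kdS a Δ (g k) := by
  have h := map_sum (kdL a Δ) (fun k => c k • g k) Finset.univ
  simp only [map_smul] at h
  exact h

lemma Eu_dS (a : V) (f : 𝓢(Mink, ℂ)) (x : Mink) :
    ∑ k, (x k : ℂ) * dS a (∂_{eb k} f : 𝓢(Mink, ℂ)) x =
      ∑ k, (a k : ℂ) * Eu (∂_{eb k} f : 𝓢(Mink, ℂ)) x := by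
  simp only [dS_apply, Eu_eq, Finset.mul_sum]
  rw [Finset.sum_comm]
  refine Finset.sum_congr rfl fun k _ => Finset.sum_congr rfl fun n _ => ?_
  rw [lineDeriv_comm']
  ring

/-- the d'Alembertian intertwines the actions of the dimensions 4 and 2 up to a gradient -/
lemma box_kdS (a : V) (f : 𝓢(Mink, ℂ)) :
    boxS (kdS a 4 f) = kdS a 2 (boxS f) + (4 : ℂ) • dS a f := by
  have h1 : ∀ k, (∂_{eb k} (∂_{eb k} (kdS a 4 f) : 𝓢(Mink, ℂ)) : 𝓢(Mink, ℂ)) =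
      kdS a 2 (∂_{eb k} (∂_{eb k} f : 𝓢(Mink, ℂ)) : 𝓢(Mink, ℂ)) +
      (4 * GF.eta k : ℂ) • Xm k (dS a (∂_{eb k} f : 𝓢(Mink, ℂ))) +
      (2 * GF.eta k : ℂ) • dS a f -
      (4 * (GF.eta k * a k) : ℂ) • Eu (∂_{eb k} f : 𝓢(Mink, ℂ)) -
      (4 * (GF.eta k * a k) : ℂ) • (∂_{eb k} f : 𝓢(Mink, ℂ)) := by
    intro k
    rw [ld_kdS, ld_sub, ld_sub, ld_add, ld_smul, ld_smul, ld_smul, ld_Xm, ld_Eu, ld_kdS,
      ld_dS, if_pos rfl, one_smul]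
    ext x
    simp only [SchwartzMap.add_apply, SchwartzMap.sub_apply, SchwartzMap.smul_apply,
      smul_eq_mul, kdS_apply]
    push_cast
    ring
  have h2 : boxS f = ∑ k, (GF.eta k : ℂ) • (∂_{eb k} (∂_{eb k} f : 𝓢(Mink, ℂ)) : 𝓢(Mink, ℂ)) :=
    rfl
  have h3 : kdS a 2 (boxS f) = ∑ k, (GF.eta k : ℂ) •
      kdS a 2 (∂_{eb k} (∂_{eb k} f : 𝓢(Mink, ℂ)) : 𝓢(Mink, ℂ)) := by
    rw [h2, kdS_sum]
  rw [h3]
  ext x
  rw [boxS_eq, SchwartzMap.add_apply, SchwartzMap.sum_apply, SchwartzMap.smul_apply]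
  simp only [h1, SchwartzMap.add_apply, SchwartzMap.sub_apply, SchwartzMap.smul_apply,
    smul_eq_mul, Xm_apply]
  have h4 := Eu_dS a f x
  have h5 := dS_apply a f x
  have e0 := eta_c 0
  have e1 := eta_c 1
  have e2 := eta_c 2
  have e3 := eta_c 3
  simp only [Fin.sum_univ_four] at h4 h5 ⊢
  linear_combination (4 * (x 0 : ℂ) * dS a (∂_{eb 0} f : 𝓢(Mink, ℂ)) x + 2 * dS a f x -
      4 * (a 0 : ℂ) * Eu (∂_{eb 0} f : 𝓢(Mink, ℂ)) x - 4 * (a 0 : ℂ) *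
        (∂_{eb 0} f : 𝓢(Mink, ℂ)) x) * e0 +
    (4 * (x 1 : ℂ) * dS a (∂_{eb 1} f : 𝓢(Mink, ℂ)) x + 2 * dS a f x -
      4 * (a 1 : ℂ) * Eu (∂_{eb 1} f : 𝓢(Mink, ℂ)) x - 4 * (a 1 : ℂ) *
        (∂_{eb 1} f : 𝓢(Mink, ℂ)) x) * e1 +
    (4 * (x 2 : ℂ) * dS a (∂_{eb 2} f : 𝓢(Mink, ℂ)) x + 2 * dS a f x -
      4 * (a 2 : ℂ) * Eu (∂_{eb 2} f : 𝓢(Mink, ℂ)) x - 4 * (a 2 : ℂ) *
        (∂_{eb 2} f : 𝓢(Mink, ℂ)) x) * e2 +
    (4 * (x 3 : ℂ) * dS a (∂_{eb 3} f : 𝓢(Mink, ℂ)) x + 2 * dS a f x -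
      4 * (a 3 : ℂ) * Eu (∂_{eb 3} f : 𝓢(Mink, ℂ)) x - 4 * (a 3 : ℂ) *
        (∂_{eb 3} f : 𝓢(Mink, ℂ)) x) * e3 + 4 * h4 + 4 * h5

/-- the derivative along `a` commutes with `kdS a 2` -/
lemma dS_kdS {a : V} (ha : GF.mdot a a = 0) (f : 𝓢(Mink, ℂ)) :
    dS a (kdS a 2 f) = kdS a 2 (dS a f) := by
  have h3 : kdS a 1 (dS a f) = ∑ k, (a k : ℂ) • kdS a 1 (∂_{eb k} f : 𝓢(Mink, ℂ)) := by
    have h2 : dS a f = ∑ k, (a k : ℂ) • (∂_{eb k} f : 𝓢(Mink, ℂ)) := rfl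
    rw [h2, kdS_sum]
  have h4 : kdS a 2 (dS a f) = kdS a 1 (dS a f) + (2 : ℂ) • axS a (dS a f) := by
    ext x
    simp only [SchwartzMap.add_apply, SchwartzMap.smul_apply, smul_eq_mul, kdS_apply, axS_apply]
    push_cast
    ring
  rw [h4, h3]
  ext x
  rw [dS_apply, SchwartzMap.add_apply, SchwartzMap.sum_apply, SchwartzMap.smul_apply, axS_apply]
  simp only [ld_kdS, SchwartzMap.add_apply, SchwartzMap.sub_apply, SchwartzMap.smul_apply,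
    smul_eq_mul, Xm_apply]
  have h5 : (GF.eta 0 * a 0 * a 0 + GF.eta 1 * a 1 * a 1 + GF.eta 2 * a 2 * a 2 +
      GF.eta 3 * a 3 * a 3 : ℂ) = 0 := by
    have : GF.eta 0 * a 0 * a 0 + GF.eta 1 * a 1 * a 1 + GF.eta 2 * a 2 * a 2 +
      GF.eta 3 * a 3 * a 3 = 0 := by
      rw [← ha, GF.mdot, Fin.sum_univ_four]
    exact_mod_cast this
  have e1 : (2 : ℝ) - 1 = 1 := by norm_num
  rw [e1]
  simp only [GF.mdot, Fin.sum_univ_four]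
  push_cast
  linear_combination (-2 * Eu f x - 4 * f x) * h5

end Vale.Agent.P352.H148

end
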