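import Vale.Agent.P352.H148.Kd

set_option linter.all false

noncomputable section

open MeasureTheory SchwartzMap Complex Filter Topology
open scoped SchwartzMap ComplexConjugate ENNReal LineDeriv

namespace Vale.Agent.P352.H148

open GF (Ix V Fn Sch ev pd bar sim bas o)
open H246 H496 H755 H731 H746 H993 H15

variable {D : Type*} [NormedAddCommGroup D] [InnerProductSpace ℂ D]
variable {Q : GF.Theory D} {T : Ix → Ix → GF.Fld D} {A : (V → V) → D → D} {K : V → D → D}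

/-- covariant vector valued distributions of dimension two -/
structure YF (Q : GF.Theory D) (Y : Fn → D) : Prop where
  lin : ∀ f g c, GF.IsTest f → GF.IsTest g → Y (fun x => f x + c * g x) = Y f + c • Y g
  cont : Continuous fun g => Y (ev g)
  cov : ∀ s L x f, 0 < s → GF.IsLor L → GF.IsTest f →
    Y f = ((s ^ 2 : ℝ) : ℂ) • Q.U s L x (Y fun z => f (sim s L x z))

section

variable {Y : Fn → D} (hY : YF Q Y)
include hY

lemma YF.zero : Y (fl 0) = 0 := by
  have h2 := hY.lin (fl 0) (fl 0) 1 (isTest_fl _) (isTest_fl _)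
  rw [fl_add_smul] at h2
  simp only [smul_zero, add_zero, one_smul] at h2
  simpa using h2

lemma YF.add (F G : 𝓢(Mink, ℂ)) : Y (fl (F + G)) = Y (fl F) + Y (fl G) := by
  have h2 := hY.lin (fl F) (fl G) 1 (isTest_fl _) (isTest_fl _)
  rw [fl_add_smul] at h2
  simpa only [one_smul] using h2

lemma YF.smul (c : ℂ) (F : 𝓢(Mink, ℂ)) : Y (fl (c • F)) = c • Y (fl F) := by
  have h2 := hY.lin (fl 0) (fl F) c (isTest_fl _) (isTest_fl _)
  rw [fl_add_smul, hY.zero, zero_add, zero_add] at h2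
  exact h2

lemma YF.neg (F : 𝓢(Mink, ℂ)) : Y (fl (-F)) = -Y (fl F) := by
  have h := hY.smul (-1) F
  rwa [neg_one_smul, neg_one_smul] at h

lemma YF.sub (F G : 𝓢(Mink, ℂ)) : Y (fl (F - G)) = Y (fl F) - Y (fl G) := by
  rw [sub_eq_add_neg, hY.add, hY.neg, ← sub_eq_add_neg]

lemma YF.contS : Continuous fun F : 𝓢(Mink, ℂ) => Y (fl F) := by
  have h2 : (fun F : 𝓢(Mink, ℂ) => Y (fl F)) = (fun g => Y (ev g)) ∘ toSchL := rfl
  rw [h2]
  exact hY.cont.comp toSchL.continuous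

lemma YF.sim0 {s : ℝ} (hs : 0 < s) {L : Ix → V} (hL : GF.IsLor L) (F : 𝓢(Mink, ℂ)) :
    Y (fl F) = ((s ^ 2 : ℝ) : ℂ) • Q.U s L 0 (Y (fl (simS s hs hL 0 F))) := by
  have h := hY.cov s L 0 (fl F) hs hL (isTest_fl _)
  rw [fl_sim s hs hL 0] at h
  exact h

lemma YF.tau (b : Mink) (F : 𝓢(Mink, ℂ)) : Y (fl (tauS b F)) = U1 Q b (Y (fl F)) := by
  have h := hY.cov 1 GF.one b.ofLp (fl (tauS b F)) one_pos isLor_one (isTest_fl _)
  rw [fl_sim 1 one_pos isLor_one b.ofLp, simS_tauS] at h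
  rw [h, one_pow, ofReal_one, one_smul]

end

lemma K_adj (h : ConfGen Q A K) {a : V} (ha : IsNull a) : Adj (K a) (K a) :=
  fun v w => h.symm a v w ha

/-- the deviation of `K a` from the action of a quasi-primary field on `Y` -/
def kap (K : V → D → D) (Y : Fn → D) (a : V) (F : 𝓢(Mink, ℂ)) : D :=
  K a (Y (fl F)) + I • Y (fl (kdS a 2 F))

section

variable (h : ConfGen Q A K) {Y : Fn → D} (hY : YF Q Y) {a : V} (ha : IsNull a)
include h hY ha

lemma kap_add (F G : 𝓢(Mink, ℂ)) : kap K Y a (F + G) = kap K Y a F + kap K Y a G := by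
  unfold kap
  rw [hY.add, (K_adj h ha).add, kdS_add, hY.add, smul_add]
  abel

lemma kap_smul (c : ℂ) (F : 𝓢(Mink, ℂ)) : kap K Y a (c • F) = c • kap K Y a F := by
  unfold kap
  rw [hY.smul, (K_adj h ha).smul, kdS_smul, hY.smul, smul_add, smul_comm]

lemma kap_cont (w : D) : Continuous fun F => inner ℂ w (kap K Y a F) := by
  unfold kap
  have e : (fun F => inner ℂ w (K a (Y (fl F)) + I • Y (fl (kdS a 2 F)))) =
      fun F => inner ℂ (K a w) (Y (fl F)) + I * inner ℂ w (Y (fl (kdS a 2 F))) := by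
    funext F
    rw [inner_add_right, inner_smul_right, h.symm a w _ ha]
  rw [e]
  exact (continuous_const.inner hY.contS).add
    (continuous_const.mul (continuous_const.inner (hY.contS.comp (cont_kdS a 2))))

lemma kap_cov {b : V} (hb : IsNull b) {s r : ℝ} (hs : 0 < s) (hr : 0 < r) {L : Ix → V}
    (hL : GF.IsLor L) (hab : sim 1 L 0 a = r • b) (F : 𝓢(Mink, ℂ)) :
    kap K Y b F = ((s ^ 3 / r : ℝ) : ℂ) • Q.U s L 0 (kap K Y a (simS s hs hL 0 F)) := by
  have hs' : (s : ℂ) ≠ 0 := by exact_mod_cast hs.ne'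
  have hr' : (r : ℂ) ≠ 0 := by exact_mod_cast hr.ne'
  unfold kap
  rw [U_add hs hL, U_smul hs hL, h.cov s L r a b _ hs hr hL ha hb hab, kdS_sim 2 hs hL hab,
    hY.smul, U_smul hs hL]
  conv_lhs => rw [hY.sim0 hs hL F, hY.sim0 hs hL (kdS b 2 F)]
  rw [(K_adj h hb).smul, smul_add, smul_smul, smul_smul, smul_smul, smul_smul]
  congr 1
  · congr 1
    push_cast
    field_simp
  · congr 1
    push_cast
    field_simp

lemma kap_tau (hA : ∀ r X f, IsSim r X → GF.IsTest f → A X (Y f) = I • (((2 * r : ℝ) : ℂ) • Y f) +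
      I • Y (fun x => ∑ n, (X x n : ℂ) * pd n f x)) (x : Mink) (F : 𝓢(Mink, ℂ)) :
    kap K Y a (tauS x F) = U1 Q x (kap K Y a F) := by
  obtain ⟨G, rfl⟩ : ∃ G, tauS (-x) G = F := ⟨tauS x F, by
    rw [tauS_tauS, add_neg_cancel, tauS_zero']⟩
  have eG : tauS x (tauS (-x) G) = G := by
    rw [tauS_tauS, neg_add_cancel, tauS_zero']
  rw [eG]
  unfold kap
  rw [U1_add, U1_smul, ← hY.tau x, hY.tau (-x)]
  have h1 := h.tra a x.ofLp (Y (fl G)) ha
  have e1 : U1 Q x (K a (U1 Q (-x) (Y (fl G)))) = Q.U 1 GF.one x.ofLp (K a (Q.U 1 GF.one (-x.ofLp)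
    (Y (fl G)))) := rfl
  have e2 := hA (-(2 * GF.mdot a x.ofLp)) (XK a x.ofLp) (fl G) (isSim_XK a x.ofLp) (isTest_fl _)
  rw [e1, h1]
  have e3 : (fun z => -(2 * GF.mdot a x.ofLp) • z + (2 * GF.mdot x.ofLp z) • a -
    (2 * GF.mdot a z) • x.ofLp + cK a x.ofLp) = XK a x.ofLp := rfl
  rw [e3, e2]
  set c : ℂ := 4 * (GF.mdot a x.ofLp : ℂ) with hc
  obtain ⟨W, hW⟩ : ∃ W : 𝓢(Mink, ℂ), W = kdS a 2 G + c • G - tauS x (kdS a 2 (tauS (-x) G)) :=
    ⟨_, rfl⟩
  have eW : (fun z => ∑ n, (XK a x.ofLp z n : ℂ) * pd n (fl G) z) = fl W := by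
    funext z
    have h5 := congrFun (kdS_tau a x G) z
    rw [hW, fl_apply, SchwartzMap.sub_apply, SchwartzMap.add_apply, SchwartzMap.smul_apply,
      smul_eq_mul]
    simp only [fl_apply] at h5 ⊢
    rw [h5]
    ring
  have e4 : tauS x (kdS a 2 (tauS (-x) G)) = kdS a 2 G + c • G - W := by
    rw [hW]
    abel
  rw [eW, e4, hY.sub, hY.add, hY.smul]
  have e5 : ((2 * -(2 * GF.mdot a x.ofLp) : ℝ) : ℂ) = -c := by
    rw [hc]
    push_cast
    ring
  rw [e5]
  module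

theorem kap_zero (hA : ∀ r X f, IsSim r X → GF.IsTest f → A X (Y f) = I • (((2 * r : ℝ) : ℂ) • Y f) +
      I • Y (fun x => ∑ n, (X x n : ℂ) * pd n f x)) (F : 𝓢(Mink, ℂ)) : kap K Y a F = 0 := by
  have ha0 : IsNull (nu (-1)) := isNull_nu (Or.inr rfl)
  have h0 : ∀ F, kap K Y (nu (-1)) F = 0 := by
    intro F
    refine vec_zero (Q := Q) (kap_add h hY ha0) (kap_smul h hY ha0) (kap_cont h hY ha0)
      (fun b F => kap_tau h hY ha0 hA b F) (A := 2) (B := 2) (by norm_num) (by norm_num)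
      (fun σ r L hσ hr hL hLa => ⟨σ ^ 3 / r, by positivity, by field_simp, fun F =>
        kap_cov h hY ha0 ha0 hσ hr hL hLa F⟩) F
  obtain ⟨θ, ψ, hrot⟩ := exists_rot ha
  rw [kap_cov h hY ha0 ha one_pos (inv_pos.2 ha.2) (isLor_Rt θ ψ) hrot F, h0]
  have hz : Q.U 1 (Rt θ ψ) 0 (0 : D) = 0 := by
    have := U_smul (Q := Q) one_pos (isLor_Rt θ ψ) 0 0 (0 : D)
    rwa [zero_smul, zero_smul] at this
  rw [hz, smul_zero]

end

/-- `K a` acts on `Y` as on a quasi-primary field of dimension two; the action of the generators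
of the similitudes as a hypothesis -/
theorem prim0 (h : ConfGen Q A K) {Y : Fn → D}
    (hl : ∀ f g c, GF.IsTest f → GF.IsTest g → Y (fun x => f x + c * g x) = Y f + c • Y g)
    (hc : Continuous fun g => Y (ev g))
    (hcov : ∀ s L x f, 0 < s → GF.IsLor L → GF.IsTest f →
      Y f = ((s ^ 2 : ℝ) : ℂ) • Q.U s L x (Y fun z => f (sim s L x z)))
    (hA : ∀ r X f, IsSim r X → GF.IsTest f → A X (Y f) = I • (((2 * r : ℝ) : ℂ) • Y f) +
      I • Y (fun x => ∑ n, (X x n : ℂ) * pd n f x))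
    {a : V} (ha : IsNull a) {f : Fn} (hf : GF.IsTest f) : K a (Y f) = -(I • Y (kd a 2 f)) := by
  obtain ⟨F, rfl⟩ := exists_fl hf
  have h1 := kap_zero h ⟨hl, hc, hcov⟩ ha hA F
  unfold kap at h1
  rw [fl_kdS] at h1
  exact eq_neg_of_add_eq_zero_left h1

end Vale.Agent.P352.H148

end
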