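import Vale.Agent.P352.H993.LfLim

/-!
# P352 (helper148): the d'Alembertian of a cut off profile
-/

set_option linter.all false

noncomputable section

open MeasureTheory Filter Topology Set
open scoped ContDiff ComplexConjugate

namespace Vale.Agent.P352.H148

open GF (Ix V Fn Fld bas eta pd)
open H755 H496 H15 H246
open H846 (cut_cv contDiff_cv contDiff_mdot cv)
open H993 (line_deriv cut_line sum_dr)

/-- the derivative of a function in the direction `a` -/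
def Da (a : V) (κ : V → ℝ) (z : V) : ℝ := fderiv ℝ κ z a

/-- the component of the unit vector orthogonal to the null vectors -/
def pm (a b : V) (m : Ix) : V :=
  bas m 1 - GF.mdot a (bas m 1) • b - GF.mdot b (bas m 1) • a

/-- the transversal Laplacian -/
def Lap (a b : V) (κ : V → ℝ) (z : V) : ℝ :=
  ∑ m, eta m * fderiv ℝ (fun y => fderiv ℝ κ y (pm a b m)) z (pm a b m)

/-- the projection -/
def Pl (a b : V) : V →L[ℝ] V :=
  ContinuousLinearMap.id ℝ V - (ml a).smulRight b - (ml b).smulRight a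

lemma Pl_apply (a b x : V) : Pl a b x = x - GF.mdot a x • b - GF.mdot b x • a := by
  simp [Pl, ml_apply]

lemma pm_Pl (a b : V) (m : Ix) : pm a b m = Pl a b (bas m 1) := by
  rw [Pl_apply]; rfl

lemma sum_bas {W : Type*} [NormedAddCommGroup W] [NormedSpace ℝ W] (M : V →L[ℝ] W) (y : V) :
    ∑ m, y m • M (bas m 1) = M y := by
  have h1 : y = ∑ n, y n • (bas n 1 : V) := by
    funext k
    simp [bas, Finset.sum_apply]
  conv_rhs => rw [h1]
  rw [map_sum]
  exact Finset.sum_congr rfl fun m _ => (map_smul _ _ _).symm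

lemma md_bas (a : V) (m : Ix) : GF.mdot a (bas m 1) = eta m * a m := by
  simp [GF.mdot, bas]

lemma eta_sq (m : Ix) : eta m * eta m = 1 := by
  unfold eta
  split_ifs <;> norm_num

lemma cv_bas (a b : V) (R : ℝ) (m : Ix) :
    cv a b R (bas m 1) = (eta m * b m / R ^ 2) • a + R⁻¹ • pm a b m := by
  unfold cv pm
  rw [md_bas b m]

lemma cv_self {a b : V} (haa : GF.mdot a a = 0) (hab : GF.mdot a b = 1) (R : ℝ) :
    cv a b R a = (R ^ 2)⁻¹ • a := by
  have hba : GF.mdot b a = 1 := by rw [md_comm]; exact hab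
  unfold cv
  rw [haa, hba]
  simp

lemma Pl_b {a b : V} (hbb : GF.mdot b b = 0) (hab : GF.mdot a b = 1) : Pl a b b = 0 := by
  rw [Pl_apply, hab, hbb]
  simp

/-- the derivative of a cut off profile -/
lemma fd_F (a b : V) {Ψ : ℝ → ℝ} {κ : V → ℝ} (hΨ : ContDiff ℝ ∞ Ψ) (hκ : ContDiff ℝ ∞ κ) (R : ℝ)
    (x y : V) : fderiv ℝ (fun x => Ψ (GF.mdot a x) * cut a b κ R x) x y =
      deriv Ψ (GF.mdot a x) * GF.mdot a y * cut a b κ R x +
        Ψ (GF.mdot a x) * fderiv ℝ κ (cv a b R x) (cv a b R y) := by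
  have hs : ContDiff ℝ ∞ fun x => Ψ (GF.mdot a x) * cut a b κ R x :=
    (hΨ.comp (contDiff_mdot a)).mul (hκ.comp (contDiff_cv a b R))
  have h1 : HasDerivAt (fun t : ℝ => (fun x => Ψ (GF.mdot a x) * cut a b κ R x) (x + t • y))
      (fderiv ℝ (fun x => Ψ (GF.mdot a x) * cut a b κ R x) x y) 0 := line_deriv hs x y
  have h2 : HasDerivAt (fun t : ℝ => cut a b κ R (x + t • y))
      (fderiv ℝ κ (cv a b R x) (cv a b R y)) 0 := cut_line hκ R x y
  have h3 : HasDerivAt (fun t : ℝ => Ψ (GF.mdot a (x + t • y)))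
      (deriv Ψ (GF.mdot a x) * GF.mdot a y) 0 := by
    have e : (fun t : ℝ => Ψ (GF.mdot a (x + t • y))) =
        fun t : ℝ => Ψ (GF.mdot a x + t * GF.mdot a y + t ^ 2 * 0) := by
      funext t
      rw [md_add, md_smul, mul_zero, add_zero]
    rw [e]
    have h4 : HasDerivAt Ψ (deriv Ψ (GF.mdot a x))
        (GF.mdot a x + 0 * GF.mdot a y + 0 ^ 2 * 0) := by
      have := ((hΨ.differentiable (by simp)) (GF.mdot a x)).hasDerivAt
      simpa using this
    exact h4.comp (0:ℝ) (hasDeriv_poly (GF.mdot a x) (GF.mdot a y) 0)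
  have h4 := h3.mul h2
  have h6 := h1.unique h4
  rw [h6]
  simp only [zero_smul, add_zero]

/-- the derivative of a cut off profile along a null line -/
theorem E1 {a b : V} (haa : GF.mdot a a = 0) (hab : GF.mdot a b = 1)
    {Ψ : ℝ → ℝ} {κ : V → ℝ} (hΨ : ContDiff ℝ ∞ Ψ) (hκ : ContDiff ℝ ∞ κ) (R : ℝ) (x : V) :
    ∑ m, a m * dr m (fun x => Ψ (GF.mdot a x) * cut a b κ R x) x =
      (R ^ 2)⁻¹ * (Ψ (GF.mdot a x) * cut a b (Da a κ) R x) := by
  have hs : ContDiff ℝ ∞ fun x => Ψ (GF.mdot a x) * cut a b κ R x :=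
    (hΨ.comp (contDiff_mdot a)).mul (hκ.comp (contDiff_cv a b R))
  rw [sum_dr hs, fd_F a b hΨ hκ, haa, cv_self haa hab, map_smul, smul_eq_mul, cut_cv (κ := Da a κ)]
  unfold Da
  ring

lemma fd_smooth {κ : V → ℝ} (hκ : ContDiff ℝ ∞ κ) (w : V) :
    ContDiff ℝ ∞ fun y => fderiv ℝ κ y w :=
  (hκ.fderiv_right (m := (∞ : WithTop ℕ∞)) (by simp)).clm_apply contDiff_const

lemma fd_fd {κ : V → ℝ} (hκ : ContDiff ℝ ∞ κ) (z w u : V) :
    fderiv ℝ (fun y => fderiv ℝ κ y w) z u = fderiv ℝ (fderiv ℝ κ) z u w := by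
  have h1 : DifferentiableAt ℝ (fderiv ℝ κ) z :=
    (hκ.fderiv_right (m := (∞ : WithTop ℕ∞)) (by simp)).differentiable (by simp) z
  have h2 : HasFDerivAt (fun y => fderiv ℝ κ y w)
      ((fderiv ℝ (fderiv ℝ κ) z).flip w) z := by
    have := h1.hasFDerivAt.clm_apply (hasFDerivAt_const w z)
    simpa using this
  rw [h2.fderiv]
  rfl

lemma dr_dr_F (a b : V) {Ψ : ℝ → ℝ} {κ : V → ℝ} (hΨ : ContDiff ℝ ∞ Ψ) (hκ : ContDiff ℝ ∞ κ)
    (R : ℝ) (m : Ix) (x : V) :
    dr m (dr m (fun x => Ψ (GF.mdot a x) * cut a b κ R x)) x =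
      deriv (deriv Ψ) (GF.mdot a x) * (eta m * a m) ^ 2 * cut a b κ R x +
      2 * (deriv Ψ (GF.mdot a x) * ((eta m * a m) *
        fderiv ℝ κ (cv a b R x) (cv a b R (bas m 1)))) +
      Ψ (GF.mdot a x) * fderiv ℝ (fderiv ℝ κ) (cv a b R x) (cv a b R (bas m 1))
        (cv a b R (bas m 1)) := by
  have hs : ContDiff ℝ ∞ fun x => Ψ (GF.mdot a x) * cut a b κ R x :=
    (hΨ.comp (contDiff_mdot a)).mul (hκ.comp (contDiff_cv a b R))
  have hΨ1 : ContDiff ℝ ∞ (deriv Ψ) := (contDiff_infty_iff_deriv.mp hΨ).2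
  have hκ1 := fd_smooth hκ (cv a b R (bas m 1))
  have e : dr m (fun x => Ψ (GF.mdot a x) * cut a b κ R x) = fun x =>
      (eta m * a m) * (deriv Ψ (GF.mdot a x) * cut a b κ R x) +
        Ψ (GF.mdot a x) * cut a b (fun y => fderiv ℝ κ y (cv a b R (bas m 1))) R x := by
    funext x
    rw [dr_fd hs, fd_F a b hΨ hκ, md_bas]
    simp only [cut_cv]
    ring
  have hs1 : ContDiff ℝ ∞ fun x => deriv Ψ (GF.mdot a x) * cut a b κ R x :=
    (hΨ1.comp (contDiff_mdot a)).mul (hκ.comp (contDiff_cv a b R))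
  have hs2 : ContDiff ℝ ∞ fun x => Ψ (GF.mdot a x) *
      cut a b (fun y => fderiv ℝ κ y (cv a b R (bas m 1))) R x :=
    (hΨ.comp (contDiff_mdot a)).mul (hκ1.comp (contDiff_cv a b R))
  rw [e, dr_fd ((contDiff_const.mul hs1).add hs2)]
  have h1 : DifferentiableAt ℝ (fun x => deriv Ψ (GF.mdot a x) * cut a b κ R x) x :=
    hs1.differentiable (by simp) x
  have h2 : DifferentiableAt ℝ (fun x => Ψ (GF.mdot a x) *
      cut a b (fun y => fderiv ℝ κ y (cv a b R (bas m 1))) R x) x :=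
    hs2.differentiable (by simp) x
  have h3 : fderiv ℝ (fun x => (eta m * a m) * (deriv Ψ (GF.mdot a x) * cut a b κ R x) +
        Ψ (GF.mdot a x) * cut a b (fun y => fderiv ℝ κ y (cv a b R (bas m 1))) R x) x =
      (eta m * a m) • fderiv ℝ (fun x => deriv Ψ (GF.mdot a x) * cut a b κ R x) x +
      fderiv ℝ (fun x => Ψ (GF.mdot a x) *
        cut a b (fun y => fderiv ℝ κ y (cv a b R (bas m 1))) R x) x :=
    ((h1.hasFDerivAt.const_mul (eta m * a m)).add h2.hasFDerivAt).fderiv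
  rw [h3]
  simp only [ContinuousLinearMap.add_apply, ContinuousLinearMap.smul_apply, smul_eq_mul]
  rw [fd_F a b hΨ1 hκ, fd_F a b hΨ hκ1, fd_fd hκ, md_bas]
  simp only [cut_cv]
  ring

/-- the d'Alembertian of a cut off profile -/
theorem E2 {a b : V} (haa : GF.mdot a a = 0) (hbb : GF.mdot b b = 0) (hab : GF.mdot a b = 1)
    {Ψ : ℝ → ℝ} {κ : V → ℝ} (hΨ : ContDiff ℝ ∞ Ψ) (hκ : ContDiff ℝ ∞ κ) (R : ℝ) (x : V) :
    ∑ m, eta m * dr m (dr m (fun x => Ψ (GF.mdot a x) * cut a b κ R x)) x =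
      (R ^ 2)⁻¹ * (2 * deriv Ψ (GF.mdot a x) * cut a b (Da a κ) R x +
        Ψ (GF.mdot a x) * cut a b (Lap a b κ) R x) := by
  have e1 : ∑ m, eta m * (eta m * a m) ^ 2 = 0 := by
    rw [← haa]
    unfold GF.mdot
    refine Finset.sum_congr rfl fun m _ => ?_
    have := eta_sq m
    calc eta m * (eta m * a m) ^ 2 = (eta m * eta m) * (eta m * a m * a m) := by ring
      _ = eta m * a m * a m := by rw [this, one_mul]
  have e2 : ∑ m, eta m * ((eta m * a m) * fderiv ℝ κ (cv a b R x) (cv a b R (bas m 1))) =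
      (R ^ 2)⁻¹ * fderiv ℝ κ (cv a b R x) a := by
    have hcl : ∀ y, cv a b R y = ((R ^ 2)⁻¹ • (ml b).smulRight a + R⁻¹ • Pl a b) y := by
      intro y
      simp only [ContinuousLinearMap.add_apply, ContinuousLinearMap.smul_apply,
        ContinuousLinearMap.smulRight_apply, ml_apply, Pl_apply]
      unfold cv
      rw [smul_smul, div_eq_inv_mul]
    have h1 := sum_bas ((fderiv ℝ κ (cv a b R x)).comp
      ((R ^ 2)⁻¹ • (ml b).smulRight a + R⁻¹ • Pl a b)) a
    simp only [ContinuousLinearMap.comp_apply, ← hcl] at h1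
    rw [cv_self haa hab, map_smul, smul_eq_mul] at h1
    rw [← h1]
    refine Finset.sum_congr rfl fun m _ => ?_
    have := eta_sq m
    rw [smul_eq_mul]
    calc eta m * ((eta m * a m) * fderiv ℝ κ (cv a b R x) (cv a b R (bas m 1))) =
        (eta m * eta m) * (a m * fderiv ℝ κ (cv a b R x) (cv a b R (bas m 1))) := by ring
      _ = _ := by rw [this, one_mul]
  have e3 : ∑ m, eta m * fderiv ℝ (fderiv ℝ κ) (cv a b R x) (cv a b R (bas m 1))
        (cv a b R (bas m 1)) = (R ^ 2)⁻¹ * Lap a b κ (cv a b R x) := by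
    obtain ⟨B, hB⟩ : ∃ B, B = fderiv ℝ (fderiv ℝ κ) (cv a b R x) := ⟨_, rfl⟩
    have hL : Lap a b κ (cv a b R x) = ∑ m, eta m * B (pm a b m) (pm a b m) := by
      unfold Lap
      refine Finset.sum_congr rfl fun m _ => ?_
      rw [fd_fd hκ, hB]
    rw [← hB, hL]
    have s1 : ∑ m, b m * B a (pm a b m) = 0 := by
      have h1 := sum_bas ((B a).comp (Pl a b)) b
      simp only [ContinuousLinearMap.comp_apply, ← pm_Pl, Pl_b hbb hab, map_zero,
        smul_eq_mul] at h1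
      exact h1
    have s2 : ∑ m, b m * B (pm a b m) a = 0 := by
      have h1 := sum_bas ((B.flip a).comp (Pl a b)) b
      simp only [ContinuousLinearMap.comp_apply, ← pm_Pl, Pl_b hbb hab, map_zero,
        smul_eq_mul, ContinuousLinearMap.flip_apply] at h1
      exact h1
    have s3 : ∑ m, eta m * b m * b m = 0 := hbb
    have key : ∀ m, eta m * B (cv a b R (bas m 1)) (cv a b R (bas m 1)) =
        (R ^ 2)⁻¹ ^ 2 * B a a * (eta m * b m * b m) + (R ^ 2)⁻¹ * R⁻¹ * (b m * B a (pm a b m)) +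
        (R ^ 2)⁻¹ * R⁻¹ * (b m * B (pm a b m) a) +
        (R ^ 2)⁻¹ * (eta m * B (pm a b m) (pm a b m)) := by
      intro m
      have he := eta_sq m
      rw [cv_bas]
      simp only [map_add, map_smul, ContinuousLinearMap.add_apply, ContinuousLinearMap.smul_apply,
        smul_eq_mul, div_eq_mul_inv, ← inv_pow]
      have hr : (R⁻¹) ^ 2 = R⁻¹ * R⁻¹ := by ring
      linear_combination ((R⁻¹ ^ 2) ^ 2 * B a a * eta m * b m * b m +
        R⁻¹ ^ 2 * R⁻¹ * b m * B a (pm a b m) + R⁻¹ ^ 2 * R⁻¹ * b m * B (pm a b m) a) * he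
    calc ∑ m, eta m * B (cv a b R (bas m 1)) (cv a b R (bas m 1)) =
        ∑ m, ((R ^ 2)⁻¹ ^ 2 * B a a * (eta m * b m * b m) +
          (R ^ 2)⁻¹ * R⁻¹ * (b m * B a (pm a b m)) +
          (R ^ 2)⁻¹ * R⁻¹ * (b m * B (pm a b m) a) +
          (R ^ 2)⁻¹ * (eta m * B (pm a b m) (pm a b m))) :=
          Finset.sum_congr rfl fun m _ => key m
      _ = (R ^ 2)⁻¹ ^ 2 * B a a * (∑ m, eta m * b m * b m) +
          (R ^ 2)⁻¹ * R⁻¹ * (∑ m, b m * B a (pm a b m)) +
          (R ^ 2)⁻¹ * R⁻¹ * (∑ m, b m * B (pm a b m) a) +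
          (R ^ 2)⁻¹ * ∑ m, eta m * B (pm a b m) (pm a b m) := by
          simp only [Finset.sum_add_distrib, Finset.mul_sum]
      _ = _ := by rw [s1, s2, s3]; ring
  calc ∑ m, eta m * dr m (dr m (fun x => Ψ (GF.mdot a x) * cut a b κ R x)) x =
      ∑ m, (deriv (deriv Ψ) (GF.mdot a x) * cut a b κ R x * (eta m * (eta m * a m) ^ 2) +
        2 * deriv Ψ (GF.mdot a x) * (eta m * ((eta m * a m) *
          fderiv ℝ κ (cv a b R x) (cv a b R (bas m 1)))) +
        Ψ (GF.mdot a x) * (eta m * fderiv ℝ (fderiv ℝ κ) (cv a b R x) (cv a b R (bas m 1))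
          (cv a b R (bas m 1)))) := by
        refine Finset.sum_congr rfl fun m _ => ?_
        rw [dr_dr_F a b hΨ hκ]
        ring
    _ = deriv (deriv Ψ) (GF.mdot a x) * cut a b κ R x * (∑ m, eta m * (eta m * a m) ^ 2) +
        2 * deriv Ψ (GF.mdot a x) * (∑ m, eta m * ((eta m * a m) *
          fderiv ℝ κ (cv a b R x) (cv a b R (bas m 1)))) +
        Ψ (GF.mdot a x) * (∑ m, eta m * fderiv ℝ (fderiv ℝ κ) (cv a b R x)
          (cv a b R (bas m 1)) (cv a b R (bas m 1))) := by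
        simp only [Finset.sum_add_distrib, Finset.mul_sum]
    _ = _ := by
        rw [e1, e2, e3]
        simp only [cut_cv, Da]
        ring

lemma Da_smooth {κ : V → ℝ} (hκ : ContDiff ℝ ∞ κ) (a : V) : ContDiff ℝ ∞ (Da a κ) :=
  fd_smooth hκ a

lemma Lap_smooth {κ : V → ℝ} (hκ : ContDiff ℝ ∞ κ) (a b : V) : ContDiff ℝ ∞ (Lap a b κ) := by
  unfold Lap
  exact ContDiff.sum fun m _ => contDiff_const.mul (fd_smooth (fd_smooth hκ _) _)

theorem tst_Da {κ : V → ℝ} (hκ : Tst κ) (a : V) : Tst (Da a κ) :=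
  ⟨Da_smooth hκ.1 a, hκ.2.fderiv_apply (𝕜 := ℝ) _⟩

theorem tst_Lap {κ : V → ℝ} (hκ : Tst κ) (a b : V) : Tst (Lap a b κ) := by
  refine ⟨Lap_smooth hκ.1 a b, ?_⟩
  refine hκ.2.mono' ?_
  intro z hz
  by_contra hn
  apply hz
  have h0 : κ =ᶠ[𝓝 z] fun _ => 0 := by
    have := notMem_tsupport_iff_eventuallyEq.mp hn
    exact this
  have h1 : ∀ w : V, (fun y => fderiv ℝ κ y w) =ᶠ[𝓝 z] fun _ => 0 := by
    intro w
    filter_upwards [h0.eventuallyEq_nhds] with y hy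
    rw [hy.fderiv_eq]
    simp
  unfold Lap
  refine Finset.sum_eq_zero fun m _ => ?_
  rw [(h1 (pm a b m)).fderiv_eq]
  simp

theorem Da_const {κ : V → ℝ} {z : V} {c : ℝ} (h : κ =ᶠ[𝓝 z] fun _ => c) (a : V) :
    Da a κ =ᶠ[𝓝 z] fun _ => 0 := by
  filter_upwards [h.eventuallyEq_nhds] with y hy
  unfold Da
  rw [hy.fderiv_eq]
  simp

theorem Lap_const {κ : V → ℝ} {z : V} {c : ℝ} (h : κ =ᶠ[𝓝 z] fun _ => c) (a b : V) :
    Lap a b κ =ᶠ[𝓝 z] fun _ => 0 := by
  filter_upwards [h.eventuallyEq_nhds] with y hy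
  unfold Lap
  refine Finset.sum_eq_zero fun m _ => ?_
  have h1 : (fun x => fderiv ℝ κ x (pm a b m)) =ᶠ[𝓝 y] fun _ => 0 := by
    filter_upwards [hy.eventuallyEq_nhds] with x hx
    rw [hx.fderiv_eq]
    simp
  rw [h1.fderiv_eq]
  simp

end Vale.Agent.P352.H148
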