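import Vale.Agent.P352.H148.TlA
import Vale.Agent.P352.H148.BoxTh
import Vale.Agent.P352.H846.Sw1
import Vale.Agent.P352.H496.CSeq

/-!
# P352 (helper148): cutoffs near the causal cone
-/

set_option linter.all false

noncomputable section

open MeasureTheory Filter Topology Set
open scoped ContDiff ComplexConjugate SchwartzMap

namespace Vale.Agent.P352.H148

open GF (Ix V Fn Fld bas eta pd Sch ev o)
open H755 H496 H15 H246

section prod

variable {E F : Type*} [NormedAddCommGroup E] [NormedSpace ℝ E]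
  [NormedAddCommGroup F] [NormedSpace ℝ F]

/-- the product of two Schwartz functions -/
def prS (α : 𝓢(E, ℂ)) (β : 𝓢(F, ℂ)) : 𝓢(E × F, ℂ) where
  toFun p := α p.1 * β p.2
  smooth' := ((α.smooth ⊤).comp contDiff_fst).mul ((β.smooth ⊤).comp contDiff_snd)
  decay' := by
    intro k n
    set K : ℕ × ℕ := (k, n) with hK
    set A : ℝ := 2 ^ k * ((Finset.Iic K).sup fun q => SchwartzMap.seminorm ℝ q.1 q.2) α
    set B : ℝ := 2 ^ k * ((Finset.Iic K).sup fun q => SchwartzMap.seminorm ℝ q.1 q.2) β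
    have hA0 : 0 ≤ A := by positivity
    have hB0 : 0 ≤ B := by positivity
    refine ⟨∑ i ∈ Finset.range (n + 1), (n.choose i : ℝ) * A * B, fun p => ?_⟩
    have e1 : ∀ i, ‖iteratedFDeriv ℝ i (fun p : E × F => α p.1) p‖ ≤
        ‖iteratedFDeriv ℝ i α p.1‖ := by
      intro i
      have h : (fun p : E × F => α p.1) = α ∘ (ContinuousLinearMap.fst ℝ E F) := rfl
      rw [h, (ContinuousLinearMap.fst ℝ E F).iteratedFDeriv_comp_right (α.smooth ⊤) p
        (by exact_mod_cast le_top)]
      refine (ContinuousMultilinearMap.norm_compContinuousLinearMap_le _ _).trans ?_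
      rw [Finset.prod_const, Finset.card_univ, Fintype.card_fin]
      refine mul_le_of_le_one_right (norm_nonneg _) ?_
      exact pow_le_one₀ (norm_nonneg _) (ContinuousLinearMap.norm_fst_le ℝ E F)
    have e2 : ∀ i, ‖iteratedFDeriv ℝ i (fun p : E × F => β p.2) p‖ ≤
        ‖iteratedFDeriv ℝ i β p.2‖ := by
      intro i
      have h : (fun p : E × F => β p.2) = β ∘ (ContinuousLinearMap.snd ℝ E F) := rfl
      rw [h, (ContinuousLinearMap.snd ℝ E F).iteratedFDeriv_comp_right (β.smooth ⊤) p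
        (by exact_mod_cast le_top)]
      refine (ContinuousMultilinearMap.norm_compContinuousLinearMap_le _ _).trans ?_
      rw [Finset.prod_const, Finset.card_univ, Fintype.card_fin]
      refine mul_le_of_le_one_right (norm_nonneg _) ?_
      exact pow_le_one₀ (norm_nonneg _) (ContinuousLinearMap.norm_snd_le ℝ E F)
    have hp : ‖p‖ ≤ (1 + ‖p.1‖) * (1 + ‖p.2‖) := by
      have h1 := norm_nonneg p.1
      have h2 := norm_nonneg p.2
      have h3 := mul_nonneg h1 h2
      rw [Prod.norm_def]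
      refine max_le ?_ ?_ <;> nlinarith
    have hmul := norm_iteratedFDeriv_mul_le (n := n) (N := ∞)
      ((α.smooth ⊤).comp (contDiff_fst (E := E) (F := F)))
      ((β.smooth ⊤).comp (contDiff_snd (E := E) (F := F))) p (by exact_mod_cast le_top)
    calc ‖p‖ ^ k * ‖iteratedFDeriv ℝ n (fun p : E × F => α p.1 * β p.2) p‖
        ≤ ((1 + ‖p.1‖) * (1 + ‖p.2‖)) ^ k * ∑ i ∈ Finset.range (n + 1),
          (n.choose i : ℝ) * ‖iteratedFDeriv ℝ i α p.1‖ * ‖iteratedFDeriv ℝ (n - i) β p.2‖ := by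
          gcongr
          refine hmul.trans (Finset.sum_le_sum fun i _ => ?_)
          gcongr
          · exact e1 i
          · exact e2 (n - i)
      _ = ∑ i ∈ Finset.range (n + 1), (n.choose i : ℝ) *
          ((1 + ‖p.1‖) ^ k * ‖iteratedFDeriv ℝ i α p.1‖) *
          ((1 + ‖p.2‖) ^ k * ‖iteratedFDeriv ℝ (n - i) β p.2‖) := by
          rw [Finset.mul_sum]
          refine Finset.sum_congr rfl fun i _ => ?_
          rw [mul_pow]
          ring
      _ ≤ _ := by
          gcongr with i hi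
          · exact SchwartzMap.one_add_le_sup_seminorm_apply (𝕜 := ℝ) (m := K) le_rfl
              (Nat.lt_succ_iff.1 (Finset.mem_range.1 hi)) α p.1
          · exact SchwartzMap.one_add_le_sup_seminorm_apply (𝕜 := ℝ) (m := K) le_rfl
              (Nat.sub_le n i) β p.2

@[simp] lemma prS_apply (α : 𝓢(E, ℂ)) (β : 𝓢(F, ℂ)) (p : E × F) :
    prS α β p = α p.1 * β p.2 := rfl

end prod

/-- the light cone coordinates as a complex number -/
def zl (a b : V) : V →L[ℝ] ℂ :=
  (ml a).smulRight (1 : ℂ) + (ml b).smulRight Complex.I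

lemma zl_sq (a b x : V) : ‖zl a b x‖ ^ 2 = GF.mdot a x ^ 2 + GF.mdot b x ^ 2 := by
  rw [← Complex.normSq_eq_norm_sq]
  simp [zl, ml_apply, Complex.normSq_apply]
  ring

/-- a cutoff near the causal cone -/
def cone (a b x : V) : ℝ := stp (-(GF.mdot x x) * (1 + ‖zl a b x‖ ^ 2) ^ (-1 : ℝ))

lemma cone_eq (a b x : V) :
    cone a b x = stp (-(GF.mdot x x) / (1 + GF.mdot a x ^ 2 + GF.mdot b x ^ 2)) := by
  unfold cone
  rw [zl_sq, Real.rpow_neg_one, div_eq_mul_inv, add_assoc]

lemma cone_one {a b x : V}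
    (h : -(GF.mdot x x) ≤ (1 + GF.mdot a x ^ 2 + GF.mdot b x ^ 2) / 4) : cone a b x = 1 := by
  rw [cone_eq]
  apply stp_one
  rw [div_le_iff₀ (by positivity)]
  linarith

lemma cone_zero {a b x : V}
    (h : (1 + GF.mdot a x ^ 2 + GF.mdot b x ^ 2) / 2 ≤ -(GF.mdot x x)) : cone a b x = 0 := by
  rw [cone_eq]
  apply stp_zero
  rw [le_div_iff₀ (by positivity)]
  linarith

lemma temp_coord (m : Ix) : Function.HasTemperateGrowth fun x : V => x m :=
  (ContinuousLinearMap.proj (R := ℝ) (φ := fun _ : Ix => ℝ) m).hasTemperateGrowth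

lemma temp_mdot (a : V) : Function.HasTemperateGrowth fun x : V => GF.mdot a x := by
  have h : (fun x : V => GF.mdot a x) = fun x => ml a x := by
    funext x
    rw [ml_apply]
  rw [h]
  exact (ml a).hasTemperateGrowth

lemma temp_sq : Function.HasTemperateGrowth fun x : V => GF.mdot x x := by
  unfold GF.mdot
  refine Function.HasTemperateGrowth.sum fun m _ => ?_
  exact ((Function.HasTemperateGrowth.const _).mul (temp_coord m)).mul (temp_coord m)

theorem cone_temp (a b : V) : Function.HasTemperateGrowth (cone a b) := by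
  refine stp_temp.comp ?_
  refine Function.HasTemperateGrowth.mul temp_sq.fun_neg ?_
  exact (Function.hasTemperateGrowth_one_add_norm_sq_rpow ℂ (-1)).comp (zl a b).hasTemperateGrowth

/-- light cone coordinates -/
def uv (a b : V) : V →L[ℝ] ℝ × ℝ := (ml a).prod (ml b)

lemma uv_apply (a b x : V) : uv a b x = (GF.mdot a x, GF.mdot b x) := by
  simp [uv, ml_apply]

lemma norm_uv (a b x : V) : ‖uv a b x‖ = max |GF.mdot a x| |GF.mdot b x| := by
  rw [uv_apply, Prod.norm_def]
  rfl

/-- the square of the component orthogonal to the null vectors -/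
lemma md_Pl {a b : V} (haa : GF.mdot a a = 0) (hbb : GF.mdot b b = 0) (hab : GF.mdot a b = 1)
    (x : V) : GF.mdot (Pl a b x) (Pl a b x) =
      GF.mdot x x - 2 * GF.mdot a x * GF.mdot b x := by
  rw [Pl_apply]
  have hba : GF.mdot b a = 1 := by rw [md_comm]; exact hab
  simp only [md_sub_l, md_sub, md_smul_l, md_smul, haa, hbb, hab, hba,
    md_comm x a, md_comm x b]
  ring

lemma md_a_Pl {a b : V} (haa : GF.mdot a a = 0) (hab : GF.mdot a b = 1)
    (x : V) : GF.mdot a (Pl a b x) = 0 := by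
  rw [Pl_apply]
  simp only [md_sub, md_smul, haa, hab]
  ring

lemma md_b_Pl {a b : V} (hbb : GF.mdot b b = 0) (hab : GF.mdot a b = 1)
    (x : V) : GF.mdot b (Pl a b x) = 0 := by
  have hba : GF.mdot b a = 1 := by rw [md_comm]; exact hab
  rw [Pl_apply]
  simp only [md_sub, md_smul, hbb, hba]
  ring

/-- on the support of the cutoff the norm is bounded by the light cone coordinates -/
theorem norm_le_of_cone {a b : V} (ha : IsNull a) (hb : IsNull b) (hab : GF.mdot a b = 1) :
    ∃ C : ℝ, ∀ x, cone a b x ≠ 0 → ‖x‖ ≤ C * (1 + ‖uv a b x‖) := by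
  have hs : 0 < a 0 + b 0 := add_pos ha.2 hb.2
  refine ⟨‖b‖ + ‖a‖ + 2 * (a 0 + b 0), fun x hx => ?_⟩
  have h1 : -(GF.mdot x x) < (1 + GF.mdot a x ^ 2 + GF.mdot b x ^ 2) / 2 := by
    by_contra h
    exact hx (cone_zero (not_lt.1 h))
  have h2 := H846.perp_norm ha hb hab (md_a_Pl ha.1 hab x) (md_b_Pl hb.1 hab x)
  rw [md_Pl ha.1 hb.1 hab] at h2
  set N := ‖uv a b x‖ with hN
  have hN0 : 0 ≤ N := norm_nonneg _
  have hu : |GF.mdot a x| ≤ N := by rw [hN, norm_uv]; exact le_max_left _ _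
  have hv : |GF.mdot b x| ≤ N := by rw [hN, norm_uv]; exact le_max_right _ _
  have hu2 : GF.mdot a x ^ 2 ≤ N ^ 2 := by
    rw [← sq_abs]; gcongr
  have hv2 : GF.mdot b x ^ 2 ≤ N ^ 2 := by
    rw [← sq_abs]; gcongr
  have hw : ‖Pl a b x‖ ≤ 2 * (a 0 + b 0) * (1 + N) := by
    apply le_of_sq_le_sq _ (by positivity)
    have h3 : 2 * (GF.mdot a x * GF.mdot b x) ≤ GF.mdot a x ^ 2 + GF.mdot b x ^ 2 := by
      nlinarith [sq_nonneg (GF.mdot a x - GF.mdot b x)]
    have h4 : -(GF.mdot x x - 2 * GF.mdot a x * GF.mdot b x) ≤ 4 * (1 + N) ^ 2 := by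
      nlinarith
    calc ‖Pl a b x‖ ^ 2 ≤ (a 0 + b 0) ^ 2 / 2 *
          -(GF.mdot x x - 2 * GF.mdot a x * GF.mdot b x) := h2
      _ ≤ (a 0 + b 0) ^ 2 / 2 * (4 * (1 + N) ^ 2) := by gcongr
      _ ≤ (2 * (a 0 + b 0) * (1 + N)) ^ 2 := by
        nlinarith [mul_nonneg (sq_nonneg (a 0 + b 0)) (sq_nonneg (1 + N))]
  have hx' : x = GF.mdot a x • b + GF.mdot b x • a + Pl a b x := by
    rw [Pl_apply]
    abel
  calc ‖x‖ = ‖GF.mdot a x • b + GF.mdot b x • a + Pl a b x‖ := by rw [← hx']
    _ ≤ |GF.mdot a x| * ‖b‖ + |GF.mdot b x| * ‖a‖ + ‖Pl a b x‖ := by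
      refine (norm_add₃_le).trans ?_
      rw [norm_smul, norm_smul, Real.norm_eq_abs, Real.norm_eq_abs]
    _ ≤ (1 + N) * ‖b‖ + (1 + N) * ‖a‖ + 2 * (a 0 + b 0) * (1 + N) := by
      gcongr
      · linarith
      · linarith
    _ = _ := by ring

lemma temp_of {P : V → ℝ} (hP : P.HasTemperateGrowth) :
    Function.HasTemperateGrowth fun x : V => (P x : ℂ) :=
  Function.Complex.hasTemperateGrowth_ofReal.comp hP

/-- the cutoff has temperate growth -/
theorem growth_cone (a b : V) : Function.HasTemperateGrowth fun x : V => (cone a b x : ℂ) :=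
  temp_of (cone_temp a b)

/-- profiles in the light cone coordinates have temperate growth -/
theorem growth_uv (a b : V) (α β : 𝓢(ℝ, ℂ)) :
    Function.HasTemperateGrowth fun x : V => α (GF.mdot a x) * β (GF.mdot b x) :=
  (α.hasTemperateGrowth.comp (temp_mdot a)).mul (β.hasTemperateGrowth.comp (temp_mdot b))

/-! ### Test functions -/

lemma test_of {f : V → ℂ} (F : 𝓢(V, ℂ)) (h : ∀ x, F x = f x) : GF.IsTest f := ⟨F, funext h⟩

/-- **Row (A).** A profile in the light cone coordinates, times a function of temperate growth,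
cut off to a neighbourhood of the causal cone, is a test function. -/
theorem isTest_cF {a b : V} (ha : IsNull a) (hb : IsNull b) (hab : GF.mdot a b = 1)
    (α β : 𝓢(ℝ, ℂ)) {P : V → ℂ} (hP : P.HasTemperateGrowth) :
    GF.IsTest fun x => α (GF.mdot a x) * β (GF.mdot b x) * P x * (cone a b x : ℂ) := by
  obtain ⟨C, hC⟩ := norm_le_of_cone ha hb hab
  obtain ⟨F, hF⟩ := exists_cone (prS α β) (uv a b)
    (g := fun x : V => P x * (cone a b x : ℂ)) (hP.mul (growth_cone a b)) (C := C) (by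
      intro x hx
      refine hC _ fun h => hx ?_
      rw [h]
      simp)
  refine test_of F fun x => ?_
  rw [hF, prS_apply, uv_apply]
  ring

/-- products of test functions with functions of temperate growth -/
theorem isTest_mul {f g : V → ℂ} (hf : GF.IsTest f) (hg : g.HasTemperateGrowth) :
    GF.IsTest fun x => f x * g x := by
  obtain ⟨F, rfl⟩ := hf
  refine test_of (SchwartzMap.smulLeftCLM ℂ g F) fun x => ?_
  rw [SchwartzMap.smulLeftCLM_apply_apply hg]
  exact mul_comm _ _

lemma temp_rescale {P : V → ℂ} (hP : P.HasTemperateGrowth) (r : ℝ) :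
    Function.HasTemperateGrowth fun x : V => P (r • x) :=
  hP.comp (r • ContinuousLinearMap.id ℝ V).hasTemperateGrowth

/-- rescaled test functions -/
theorem isTest_rescale {f : V → ℂ} (hf : GF.IsTest f) {R : ℝ} (hR : 0 < R) :
    GF.IsTest fun x => f (R⁻¹ • x) := by
  obtain ⟨F, rfl⟩ := hf
  obtain ⟨G, hG⟩ := exists_cone F (R⁻¹ • ContinuousLinearMap.id ℝ V)
    (g := fun _ : V => (1 : ℂ)) (Function.HasTemperateGrowth.const _) (C := R) (by
      intro x _
      have h1 : ‖(R⁻¹ • ContinuousLinearMap.id ℝ V) x‖ = R⁻¹ * ‖x‖ := by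
        show ‖R⁻¹ • x‖ = _
        rw [norm_smul, Real.norm_eq_abs, abs_of_pos (by positivity)]
      rw [h1, mul_add, ← mul_assoc, mul_inv_cancel₀ hR.ne']
      linarith)
  refine test_of G fun x => ?_
  rw [hG, mul_one]
  rfl

/-- a profile in the light cone coordinates times a function of temperate growth and a cutoff -/
theorem isTest_kF {a b : V} (α β : 𝓢(ℝ, ℂ)) {P κ : V → ℂ} (hP : P.HasTemperateGrowth)
    (hκ : GF.IsTest κ) {R : ℝ} (hR : 0 < R) :
    GF.IsTest fun x => α (GF.mdot a x) * β (GF.mdot b x) * P x * κ (R⁻¹ • x) := by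
  obtain ⟨F, hF⟩ := isTest_mul (isTest_rescale hκ hR) ((growth_uv a b α β).mul hP)
  refine test_of F fun x => ?_
  have h := congrFun hF x
  simp only [ev] at h
  rw [h]
  simp only [Pi.mul_apply]
  ring

/-! ### Functionals -/

/-- **Row (B).** Functionals that vanish on functions with compact support in the spacelike
region. -/
theorem tl_ext {F : Type*} [TopologicalSpace F] [T2Space F] [Zero F] {c : Fn → F}
    (hc : Continuous fun f : 𝓢(Mink, ℂ) => c (fl f))
    (h : ∀ f : 𝓢(Mink, ℂ), HasCompactSupport f →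
      (∀ x ∈ tsupport f, GF.mdot x.ofLp x.ofLp < 0) → c (fl f) = 0)
    {δ : ℝ} (hδ : 0 < δ) {f : Fn} (hf : GF.IsTest f) (hs : ∀ x, f x ≠ 0 → GF.mdot x x ≤ -δ) :
    c f = 0 := by
  obtain ⟨f, rfl⟩ := exists_fl hf
  obtain ⟨g, hg1, hg2, hg3⟩ := H496.exists_compact_sup f
  have hcl : IsClosed {x : Mink | GF.mdot x.ofLp x.ofLp ≤ -δ} :=
    isClosed_le (temp_sq.1.continuous.comp
      (EuclideanSpace.equiv (Fin 4) ℝ).continuous) continuous_const
  have hts : tsupport f ⊆ {x : Mink | GF.mdot x.ofLp x.ofLp ≤ -δ} :=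
    closure_minimal (fun x hx => hs x.ofLp hx) hcl
  refine tendsto_nhds_unique ((hc.tendsto f).comp hg3) ?_
  refine tendsto_const_nhds.congr fun n => ?_
  exact (h _ (hg1 n) fun x hx => lt_of_le_of_lt (hts (hg2 n hx)) (by linarith)).symm

/-- **Row (C).** Functionals and rescaled cutoffs. -/
theorem tendsto_cut {F : Type*} [TopologicalSpace F] {c : Fn → F}
    (hc : Continuous fun f : 𝓢(Mink, ℂ) => c (fl f)) {f κ : Fn} (hf : GF.IsTest f) (hκ : GF.IsTest κ)
    (h1 : κ 0 = 1) : Tendsto (fun R : ℝ => c fun x => f x * κ (R⁻¹ • x)) atTop (𝓝 (c f)) := by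
  obtain ⟨f, rfl⟩ := exists_fl hf
  have hκt : κ.HasTemperateGrowth := by
    obtain ⟨K, rfl⟩ := hκ
    exact K.hasTemperateGrowth
  have hm : Function.HasTemperateGrowth fun x : Mink => x.ofLp :=
    (EuclideanSpace.equiv (Fin 4) ℝ : Mink →L[ℝ] V).hasTemperateGrowth
  have hκm : Function.HasTemperateGrowth fun x : Mink => κ x.ofLp := hκt.comp hm
  have hκR : ∀ R : ℝ, Function.HasTemperateGrowth fun x : Mink => κ (R⁻¹ • x.ofLp) := fun R =>
    (temp_rescale hκt R⁻¹).comp hm
  set G : ℝ → 𝓢(Mink, ℂ) := fun R =>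
    SchwartzMap.smulLeftCLM ℂ (fun x : Mink => κ (R⁻¹ • x.ofLp)) f with hG
  have hGa : ∀ R x, G R x = κ (R⁻¹ • x.ofLp) * f x := fun R x =>
    SchwartzMap.smulLeftCLM_apply_apply (hκR R) f x
  have ht : Tendsto (fun R => f - G R) atTop (𝓝 0) := by
    refine tendsto_scale f (h := fun x : Mink => 1 - κ x.ofLp)
      ((Function.HasTemperateGrowth.const _).sub hκm) (by simp [h1]) fun R _ x => ?_
    rw [SchwartzMap.sub_apply, hGa]
    simp only [WithLp.ofLp_smul]
    ring
  have ht' : Tendsto G atTop (𝓝 f) := by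
    have := (tendsto_const_nhds (x := f) (f := atTop (α := ℝ))).sub ht
    simpa using this
  refine ((hc.tendsto f).comp ht').congr fun R => ?_
  show c (fl (G R)) = _
  congr 1
  funext x
  rw [fl_apply, hGa, fl_apply, mul_comm]

end Vale.Agent.P352.H148

end
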