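import Vale.Agent.P352.H148.TlB
import Vale.Agent.P352.H121.TlS
import Vale.Agent.P352.H993.TlRm
import Vale.Agent.P352.H731.Ten2

/-!
# P352 (helper148): the functionals of the TL criterion
-/

set_option linter.all false

noncomputable section

open MeasureTheory SchwartzMap Complex Filter Topology Set
open scoped SchwartzMap ComplexConjugate ENNReal LineDeriv ContDiff FourierTransform

namespace Vale.Agent.P352.H148

open GF (Ix V Fn Sch ev pd bar sim bas o)
open H731 (toS fl_toS toS_fl)

/-- the cutoff near the causal cone -/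
theorem cn_cone {a b : V} (ha : H496.IsNull a) (hb : H496.IsNull b) (hab : GF.mdot a b = 1) :
    H121.Cn a b fun x => (cone a b x : ℂ) where
  growth := growth_cone a b
  one x hx := by rw [cone_one hx, ofReal_one]
  test α β P hP := isTest_cF ha hb hab α β hP

/-- `S = M + conj M conj` on test functions -/
def SM (M : Ix → Ix → 𝓢(Mink, ℂ) →L[ℂ] ℂ) (m n : Ix) (f : Fn) : ℂ :=
  M m n (toS f) + conj (M m n (conjS (toS f)))

variable {a : V} {θ : ℂ} {M : Ix → Ix → 𝓢(Mink, ℂ) →L[ℂ] ℂ}

lemma SM_fl (m n : Ix) (f : 𝓢(Mink, ℂ)) : SM M m n (fl f) = M m n f + conj (M m n (conjS f)) := by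
  rw [SM, toS_fl]

lemma SM_cont (m n : Ix) : Continuous fun f : 𝓢(Mink, ℂ) => SM M m n (fl f) := by
  have h : (fun f : 𝓢(Mink, ℂ) => SM M m n (fl f)) =
      fun f => M m n f + conj (M m n (conjS f)) := funext fun f => SM_fl m n f
  rw [h]
  exact (M m n).continuous.add (continuous_conj.comp
    ((M m n).continuous.comp H246.continuous_conjS))

lemma conjS_add_smul (f g : 𝓢(Mink, ℂ)) (c : ℂ) :
    conjS (f + c • g) = conjS f + conj c • conjS g := by
  ext x
  simp only [conjS_apply, SchwartzMap.add_apply, SchwartzMap.smul_apply, map_add, smul_eq_mul,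
    map_mul]

lemma SM_lin (m n : Ix) {f g : Fn} (c : ℂ) (hf : GF.IsTest f) (hg : GF.IsTest g) :
    SM M m n (fun x => f x + c * g x) = SM M m n f + c * SM M m n g := by
  obtain ⟨f, rfl⟩ := exists_fl hf
  obtain ⟨g, rfl⟩ := exists_fl hg
  rw [fl_add_smul, SM_fl, SM_fl, SM_fl, conjS_add_smul, map_add, map_add, map_smul, map_smul,
    map_add, smul_eq_mul, smul_eq_mul, map_mul, conj_conj]
  ring

/-- limits of cut off test functions -/
theorem SM_lim (m n : Ix) {f κ : Fn} (hf : GF.IsTest f) (hκ : GF.IsTest κ) (h1 : κ 0 = 1) :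
    Tendsto (fun R : ℝ => SM M m n fun x => f x * κ (R⁻¹ • x)) atTop (𝓝 (SM M m n f)) :=
  tendsto_cut (SM_cont m n) hf hκ h1

/-- **the functionals of the TL criterion** -/
theorem sd_of (h : H993.Rm a θ M) (hl : H993.RL M) : H121.SD a (SM M) where
  lin m n f g c hf hg := SM_lin m n c hf hg
  symm m n f := by
    unfold SM
    rw [h.symm m n, h.symm m n]
  cons n f hf := by
    obtain ⟨f, rfl⟩ := exists_fl hf
    have h1 := h.cons n f
    have h2 := congrArg conj (h.cons n (conjS f))
    rw [map_sum, map_zero] at h2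
    simp only [pd_fl, SM_fl, Finset.sum_add_distrib]
    rw [h1, zero_add, ← h2]
    refine Finset.sum_congr rfl fun m _ => ?_
    rw [conjS_lineDeriv]
  cov s r L f m n hs hr hL hLa hf := by
    obtain ⟨f, rfl⟩ := exists_fl hf
    rw [fl_sim s hs hL, SM_fl, h.cov s hs L hL r hr hLa m n f,
      h.cov s hs L hL r hr hLa m n (conjS f), map_sum, ← Finset.sum_add_distrib]
    refine Finset.sum_congr rfl fun k _ => ?_
    rw [map_sum, ← Finset.sum_add_distrib]
    refine Finset.sum_congr rfl fun j _ => ?_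
    rw [SM_fl, map_mul, conj_ofReal, H246.conjS_simS, mul_add]
  loc m n f ε hε hf hs := by
    refine tl_ext (SM_cont m n) (fun g hg hg' => ?_) hε hf hs
    rw [SM_fl]
    refine hl m n g hg fun x hx => ?_
    have := hg' x hx
    rwa [gf_mdot] at this

end Vale.Agent.P352.H148

end
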