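import Vale.Agent.P352.H148.Ext1
import Vale.Agent.P352.H755.ChD

set_option linter.all false

noncomputable section

open MeasureTheory SchwartzMap Complex Filter Topology
open scoped SchwartzMap ComplexConjugate ENNReal LineDeriv NNReal ContDiff

namespace Vale.Agent.P352.H148

open GF (Ix V Fn Sch ev pd bar sim bas o)
open H246 H496 SubConf
open H755 (Tst IsT com Ok Phi cg com_eq sp sp_far tst_prof supp_bd isClosed_Zf Zf fadd fsmul
  fzero fneg fsum tstIs)
open UniformSpace (Completion)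

variable {D : Type*} [NormedAddCommGroup D] [InnerProductSpace ℂ D]
variable {Q : GF.Theory D} {t : Ix → Ix → GF.Fld D} {A : GF.Fld D} {X : Ix → V → ℝ}

/-! ### Cutoffs of size `2 ^ n` -/

lemma exists_alpha : ∃ α : ℝ → ℝ, Tst α ∧ ∫ u, α u = 1 ∧ ∀ u, α u ≠ 0 → |u| ≤ 1 := by
  set b : ContDiffBump (0 : ℝ) := ⟨1 / 2, 1, by norm_num, by norm_num⟩ with hb
  refine ⟨b.normed volume, ⟨b.contDiff_normed, b.hasCompactSupport_normed⟩, b.integral_normed,
    fun u hu => ?_⟩
  have h1 : u ∈ Function.support (b.normed volume) := hu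
  rw [b.support_normed_eq, mem_ball_zero_iff, Real.norm_eq_abs] at h1
  exact h1.le

/-- the profile in time -/
def alf : ℝ → ℝ := exists_alpha.choose

lemma alf_tst : Tst alf := exists_alpha.choose_spec.1
lemma alf_int : ∫ u, alf u = 1 := exists_alpha.choose_spec.2.1
lemma alf_supp {u : ℝ} (h : alf u ≠ 0) : |u| ≤ 1 := exists_alpha.choose_spec.2.2 u h

/-- the scaled profile in time -/
def alfn (n : ℕ) (u : ℝ) : ℝ := ((2 : ℝ) ^ n)⁻¹ * alf (((2 : ℝ) ^ n)⁻¹ * u)

/-- the scaled cutoff -/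
def cn (n : ℕ) (x : V) : ℝ := alfn n (x o) * H755.chi (13 * 2 ^ n) x

/-- the cutoff of size one -/
def G0 (x : V) : ℝ := alf (x o) * H755.chi 13 x

lemma alfn_supp {n : ℕ} {u : ℝ} (h : alfn n u ≠ 0) : |u| ≤ 2 ^ n := by
  have h1 := alf_supp (right_ne_zero_of_mul h)
  have h2 : (0 : ℝ) < 2 ^ n := by positivity
  rw [abs_mul, abs_of_pos (two_inv_pos n), inv_mul_le_iff₀ h2, mul_one] at h1
  exact h1

lemma alfn_tst (n : ℕ) : Tst (alfn n) := by
  have h2 := (two_inv_pos n)
  refine ⟨contDiff_const.mul (alf_tst.1.comp (contDiff_const.mul contDiff_id)), ?_⟩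
  refine HasCompactSupport.intro (isCompact_closedBall (0 : ℝ) (2 ^ n)) fun u hu => ?_
  by_contra hne
  apply hu
  rw [mem_closedBall_zero_iff, Real.norm_eq_abs]
  exact alfn_supp hne

lemma alfn_int (n : ℕ) : ∫ u, alfn n u = 1 := by
  unfold alfn
  rw [integral_const_mul]
  have h := Measure.integral_comp_mul_left alf (((2 : ℝ) ^ n)⁻¹)
  rw [h, alf_int, inv_inv, smul_eq_mul, mul_one, abs_of_pos (by positivity)]
  exact inv_mul_cancel₀ (by positivity)

lemma cn_tst (n : ℕ) : Tst (cn n) := tst_prof (alfn_tst n) (by positivity)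

lemma G0_tst : Tst G0 := tst_prof alf_tst (by norm_num)

lemma cn_eq (n : ℕ) (x : V) : cn n x = ((2 : ℝ) ^ n)⁻¹ * G0 (((2 : ℝ) ^ n)⁻¹ • x) := by
  unfold cn alfn G0
  rw [mul_assoc]
  congr 1
  have e : H755.chi (13 * 2 ^ n) x = H755.chi 13 (((2 : ℝ) ^ n)⁻¹ • x) := by
    unfold H755.chi
    congr 1
    funext i
    simp only [Pi.smul_apply, smul_eq_mul, sp]
    split_ifs
    · simp
    · rw [mul_inv, mul_assoc]
  rw [e]
  rfl

/-- the cubes -/
def cub (n : ℕ) : Set V := {x | ∀ i, |x i| ≤ 4 * 2 ^ n}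

lemma ok_cub (n : ℕ) : Ok (cub n) (cn n) := by
  refine ⟨cn_tst n, alfn n, alfn_tst n, alfn_int n, fun x hx y hy => ?_⟩
  have h2 : (1 : ℝ) ≤ 2 ^ n := one_le_pow₀ (by norm_num)
  have hsub : {x : V | cn n x ≠ alfn n (x o)} ⊆ Zf (4 * 2 ^ n) (13 * 2 ^ n) := by
    intro x hx
    have hx' : cn n x ≠ alfn n (x o) := hx
    refine ⟨?_, ?_⟩
    · by_contra hne
      push Not at hne
      have h0 : alfn n (x o) = 0 := by
        by_contra h3
        have := alfn_supp h3
        have h4 : (0 : ℝ) < 2 ^ n := by positivity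
        linarith
      apply hx'
      unfold cn
      rw [h0, zero_mul]
    · by_contra hne
      push Not at hne
      apply hx'
      unfold cn
      rw [H755.chi_one (by positivity) hne.le, mul_one]
  have h3 := closure_minimal hsub (isClosed_Zf _ _) hx
  exact sp_far (M := 4 * 2 ^ n) (by positivity) (by linarith) h3.1 h3.2 hy

lemma Ok.mono {S S' : Set V} (h : S' ⊆ S) {g : V → ℝ} (hg : Ok S g) : Ok S' g := by
  obtain ⟨h1, α, h2, h3, h4⟩ := hg
  exact ⟨h1, α, h2, h3, fun x hx y hy => h4 x hx y (h hy)⟩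

lemma exists_cub {S : Set V} (hS : IsCompact S) : ∃ N, ∀ n, N ≤ n → S ⊆ cub n := by
  obtain ⟨R, hR⟩ := hS.isBounded.subset_closedBall (0 : V)
  obtain ⟨N, hN⟩ := pow_unbounded_of_one_lt R (one_lt_two)
  refine ⟨N, fun n hn x hx i => ?_⟩
  have h1 := hR hx
  rw [mem_closedBall_zero_iff] at h1
  have h2 := norm_le_pi_norm x i
  rw [Real.norm_eq_abs] at h2
  have h3 : (2 : ℝ) ^ N ≤ 2 ^ n := pow_le_pow_right₀ (by norm_num) hn
  have h4 : (0 : ℝ) < 2 ^ n := by positivity
  linarith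

/-- (a1) -/
theorem exists_ok {S : Set V} (hS : IsCompact S) : ∃ g, Ok S g := by
  obtain ⟨N, hN⟩ := exists_cub hS
  exact ⟨cn N, Ok.mono (hN N le_rfl) (ok_cub N)⟩

lemma ok_cg {f : Fn} (hf : H755.CS f) : Ok (tsupport f) (cg f) :=
  Classical.epsilon_spec (exists_ok hf.2.isCompact)

lemma Phi_eq (ht : IsT Q t) (hA : Q.fld A) (hX : IsKil X) {f : Fn} (hf : H755.CS f) {g : V → ℝ}
    {S : Set V} (hS : tsupport f ⊆ S) (hg : Ok S g) (v : D) :
    Phi t X A f v = com t X g A f v :=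
  com_eq ht hA hX hf (S := tsupport f) subset_rfl (ok_cg hf) (Ok.mono hS hg) v

lemma cub_of_ball {n : ℕ} {F : 𝓢(Mink, ℂ)} (h : tsupport F ⊆ Metric.closedBall 0 (4 * 2 ^ n)) :
    tsupport (fl F) ⊆ cub n := by
  rw [tsupport_fl]
  intro x hx i
  have h1 := h hx
  rw [mem_closedBall_zero_iff] at h1
  exact (abs_coord_le (WithLp.toLp 2 x) i).trans h1

/-! ### Multiplication by the components of a Killing field -/

lemma exists_mX (hX : IsKil X) (n : Ix) : ∃ M : 𝓢(Mink, ℂ) →L[ℂ] 𝓢(Mink, ℂ), ∀ g x,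
    M g x = ((GF.eta n * X n x.ofLp : ℝ) : ℂ) * g x := by
  obtain ⟨a, b, r, w, -, h⟩ := hX
  refine ⟨((GF.eta n * a n : ℝ) : ℂ) • ContinuousLinearMap.id ℂ _ +
    ((GF.eta n * r : ℝ) : ℂ) • Xm n + ∑ m, ((GF.eta n * w m n : ℝ) : ℂ) • Xm m +
    ∑ m, ((GF.eta n * 2 * (GF.eta m * b m) : ℝ) : ℂ) • ((Xm m).comp (Xm n)) -
    ∑ m, ((GF.eta n * (GF.eta m * b n) : ℝ) : ℂ) • ((Xm m).comp (Xm m)), fun g x => ?_⟩
  rw [h]
  simp only [ContinuousLinearMap.add_apply, ContinuousLinearMap.sub_apply,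
    ContinuousLinearMap.smul_apply, ContinuousLinearMap.sum_apply, ContinuousLinearMap.comp_apply,
    ContinuousLinearMap.id_apply, SchwartzMap.add_apply, SchwartzMap.sub_apply,
    SchwartzMap.smul_apply, SchwartzMap.sum_apply, Xm_apply, smul_eq_mul, GF.mdot,
    Fin.sum_univ_four]
  push_cast
  ring

/-! ### Joint continuity of products of two operator valued distributions -/

/-- operator valued distributions with an adjoint -/
structure Od (B B' : GF.Fld D) : Prop where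
  lin : ∀ f g c v, GF.IsTest f → GF.IsTest g → B (fun x => f x + c * g x) v = B f v + c • B g v
  cont : ∀ v, Continuous fun g => B (ev g) v
  adj : ∀ f v w, GF.IsTest f → inner ℂ (B f v) w = inner ℂ v (B' (bar f) w)

section

variable {B B' : GF.Fld D} (hB : Od B B')
include hB

lemma Od.zero (v : D) : B (fl 0) v = 0 := by
  have h2 := hB.lin (fl 0) (fl 0) 1 v (isTest_fl _) (isTest_fl _)
  rw [fl_add_smul] at h2
  simp only [smul_zero, add_zero, one_smul] at h2
  simpa using h2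

lemma Od.addf (F G : 𝓢(Mink, ℂ)) (v : D) : B (fl (F + G)) v = B (fl F) v + B (fl G) v := by
  have h2 := hB.lin (fl F) (fl G) 1 v (isTest_fl _) (isTest_fl _)
  rw [fl_add_smul] at h2
  simpa only [one_smul] using h2

lemma Od.smulf (c : ℂ) (F : 𝓢(Mink, ℂ)) (v : D) : B (fl (c • F)) v = c • B (fl F) v := by
  have h2 := hB.lin (fl 0) (fl F) c v (isTest_fl _) (isTest_fl _)
  rw [fl_add_smul, hB.zero, zero_add, zero_add] at h2
  exact h2

lemma Od.adjAdj (F : 𝓢(Mink, ℂ)) : Adj (B (fl F)) (B' (bar (fl F))) :=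
  fun v w => hB.adj _ v w (isTest_fl F)

lemma Od.contS (v : D) : Continuous fun F : 𝓢(Mink, ℂ) => B (fl F) v := by
  have h2 : (fun F : 𝓢(Mink, ℂ) => B (fl F) v) = (fun g => B (ev g) v) ∘ toSchL := rfl
  rw [h2]
  exact (hB.cont v).comp toSchL.continuous

/-- the product is continuous in the second factor -/
lemma Od.prod_cont {C C' : GF.Fld D} (hC : Od C C') (g : 𝓢(Mink, ℂ)) (v : D) :
    ∃ L : 𝓢(Mink, ℂ) →L[ℂ] D, ∀ f, L f = B (fl g) (C (fl f) v) := by
  set L0 : 𝓢(Mink, ℂ) →ₗ[ℂ] D :=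
    { toFun := fun f => B (fl g) (C (fl f) v)
      map_add' := fun f f' => by rw [hC.addf, (hB.adjAdj g).add]
      map_smul' := fun c f => by rw [hC.smulf, (hB.adjAdj g).smul, RingHom.id_apply] } with hL0
  have := barrelled_schwartz
  have hc : Continuous L0 := by
    refine cont_of_weak L0 (Z := Set.univ) dense_univ fun z _ => ?_
    have e : (fun f : 𝓢(Mink, ℂ) => inner ℂ z (L0 f)) =
        fun f : 𝓢(Mink, ℂ) => inner ℂ (B' (bar (fl g)) z) (C (fl f) v) := by
      funext f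
      show inner ℂ z (B (fl g) (C (fl f) v)) = _
      exact ((hB.adjAdj g).symm z (C (fl f) v)).symm
    rw [e]
    exact continuous_const.inner (hC.contS v)
  exact ⟨⟨L0, hc⟩, fun f => rfl⟩

/-- **Joint bound for the product of two operator valued distributions.** -/
theorem Od.joint {C C' : GF.Fld D} (hC : Od C C') (v : D) : ∃ (K : ℝ) (k : ℕ), 0 ≤ K ∧
    ∀ g f : 𝓢(Mink, ℂ), ‖B (fl g) (C (fl f) v)‖ ≤ K * snS k g * snS k f := by
  choose L hL using fun g => hB.prod_cont hC g v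
  obtain ⟨K, k, hK, h⟩ := H148.joint L (fun g g' f => by rw [hL, hL, hL, hB.addf])
    (fun c g f => by rw [hL, hL, hB.smulf])
    (fun f => by
      have e : (fun g => L g f) = fun g => B (fl g) (C (fl f) v) := by
        funext g
        exact hL g f
      rw [e]
      exact hB.contS _)
  refine ⟨K, k, hK, fun g f => ?_⟩
  rw [← hL]
  exact h g f

end

end Vale.Agent.P352.H148

end
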