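import Vale.Agent.P352.H148.Bdd2
import Vale.Agent.P352.H846.PhiLoc2
import Vale.Agent.P352.H755.ChE

set_option linter.all false

noncomputable section

open MeasureTheory SchwartzMap Complex Filter Topology
open scoped SchwartzMap ComplexConjugate ENNReal LineDeriv NNReal ContDiff

namespace Vale.Agent.P352.H148

open GF (Ix V Fn Sch ev pd bar sim bas o)
open H246 H496 SubConf
open H755 (Tst IsT Phi CField phi_linf phi_linv phi_adj)

variable {D : Type*} [NormedAddCommGroup D] [InnerProductSpace ℂ D]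
variable {Q : GF.Theory D} {t : Ix → Ix → GF.Fld D} {A B : GF.Fld D} {X : Ix → V → ℝ}

/-! ### Local fields on compactly supported test functions -/

/-- `f` is compactly supported -/
lemma cs_iff {f : Fn} : H755.CS f ↔ ∃ F : 𝓢(Mink, ℂ), HasCompactSupport F ∧ fl F = f := by
  constructor
  · rintro ⟨h1, h2⟩
    obtain ⟨F, rfl⟩ := exists_fl h1
    refine ⟨F, ?_, rfl⟩
    have h3 : (F : Mink → ℂ) = fl F ∘ (EuclideanSpace.equiv (Fin 4) ℝ).toHomeomorph := rfl
    rw [h3]
    exact h2.comp_homeomorph _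
  · rintro ⟨F, h, rfl⟩
    exact ⟨isTest_fl F, hasCompactSupport_fl h⟩

lemma cs_of_sub {f g : Fn} (hf : H755.CS f) (hg : GF.IsTest g) (h : tsupport g ⊆ tsupport f) :
    H755.CS g := ⟨hg, hf.2.of_isClosed_subset (isClosed_tsupport g) h⟩

/-- the fields -/
theorem cf_fld (hA : Q.fld A) (hAB : IsAdj A B) : CField Q A A B where
  linf f g c v hf hg := Q.lin A f g c v hA hf.1 hg.1
  linv f c v w hf := by rw [H755.fadd hA hf.1, H755.fsmul hA hf.1]
  bdd v := by
    have hc : Continuous fun F : 𝓢(Mink, ℂ) => A (fl F) v := by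
      have h2 : (fun F : 𝓢(Mink, ℂ) => A (fl F) v) = (fun g => A (ev g) v) ∘ toSchL := rfl
      rw [h2]
      exact (Q.cont A v hA).comp toSchL.continuous
    set L : 𝓢(Mink, ℂ) →ₗ[ℂ] D :=
      { toFun := fun F => A (fl F) v
        map_add' := fun F G => fld_addf hA F G v
        map_smul' := fun c F => fld_smulf hA c F v } with hL
    exact ⟨(normSeminorm ℂ D).comp L, hc.norm, fun F _ => le_rfl⟩
  adj f v w hf := hAB f v w hf.1
  loc C f g v hC h hf hg hs := by
    rcases h with h | h
    · exact Q.loc A C f g v h hC hf.1 hg.1 hs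
    · have hs' : GF.Sep g f := fun x hx y hy => by
        have h1 := hs y hy x hx
        have e : GF.mdot (fun m => x m - y m) (fun m => x m - y m) =
            GF.mdot (fun m => y m - x m) (fun m => y m - x m) := by
          unfold GF.mdot
          exact Finset.sum_congr rfl fun m _ => by ring
        rw [e]
        exact h1
      exact (Q.loc C A g f v h hA hg.1 hf.1 hs').symm

/-- the action of the charges -/
theorem cf_phi (ht : IsT Q t) (hA : Q.fld A) (hB : Q.fld B) (hAB : IsAdj A B) (hX : IsKil X) :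
    CField Q A (Phi t X A) (fun f v => -Phi t X B f v) where
  linf f g c v hf hg := phi_linf ht hA hX hf hg c v
  linv f c v w hf := phi_linv ht hA hX hf c v w
  bdd v := phi_bdd ht hA hX v
  adj f v w hf := by
    rw [inner_neg_right]
    exact phi_adj ht hA hB hAB hX hf v w
  loc C f g v hC h hf hg hs := H846.phi_loc ht hA hX hC h hf hg hs v

section

variable {P P' R R' : GF.Fld D}

theorem CField.add (h : CField Q A P P') (h' : CField Q A R R') :
    CField Q A (fun f v => P f v + R f v) (fun f v => P' f v + R' f v) where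
  linf f g c v hf hg := by
    simp only [h.linf f g c v hf hg, h'.linf f g c v hf hg, smul_add]
    abel
  linv f c v w hf := by
    simp only [h.linv f c v w hf, h'.linv f c v w hf, smul_add]
    abel
  bdd v := by
    obtain ⟨p, hp, h1⟩ := h.bdd v
    obtain ⟨q, hq, h2⟩ := h'.bdd v
    exact ⟨p + q, hp.add hq, fun F hF => (norm_add_le _ _).trans (add_le_add (h1 F hF) (h2 F hF))⟩
  adj f v w hf := by
    simp only [inner_add_left, inner_add_right, h.adj f v w hf, h'.adj f v w hf]
  loc C f g v hC hb hf hg hs := by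
    simp only [h.loc C f g v hC hb hf hg hs, h'.loc C f g v hC hb hf hg hs]
    rw [H755.fadd hC hg.1]

theorem CField.smul (h : CField Q A P P') (c : ℂ) :
    CField Q A (fun f v => c • P f v) (fun f v => conj c • P' f v) where
  linf f g z v hf hg := by
    simp only [h.linf f g z v hf hg, smul_add, smul_comm c z]
  linv f z v w hf := by
    simp only [h.linv f z v w hf, smul_add, smul_comm c z]
  bdd v := by
    obtain ⟨p, hp, h1⟩ := h.bdd v
    refine ⟨‖c‖₊ • p, ?_, fun F hF => ?_⟩
    · have e : (⇑(‖c‖₊ • p) : 𝓢(Mink, ℂ) → ℝ) = fun f => ‖c‖ * p f := by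
        funext f
        rw [Seminorm.smul_apply, NNReal.smul_def, coe_nnnorm, smul_eq_mul]
      rw [e]
      exact continuous_const.mul hp
    · rw [Seminorm.smul_apply, NNReal.smul_def, coe_nnnorm, smul_eq_mul, norm_smul]
      exact mul_le_mul_of_nonneg_left (h1 F hF) (norm_nonneg _)
  adj f v w hf := by
    simp only [inner_smul_left, inner_smul_right, h.adj f v w hf]
  loc C f g v hC hb hf hg hs := by
    simp only [h.loc C f g v hC hb hf hg hs]
    rw [H755.fsmul hC hg.1]

theorem CField.zero : CField Q A (fun _ _ => (0 : D)) (fun _ _ => 0) where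
  linf f g c v hf hg := by simp
  linv f c v w hf := by simp
  bdd v := ⟨0, continuous_const, fun F hF => by simp⟩
  adj f v w hf := by simp
  loc C f g v hC hb hf hg hs := by rw [H755.fzero hC hg.1]

theorem CField.sum {ι : Type*} (s : Finset ι) {P P' : ι → GF.Fld D}
    (h : ∀ i ∈ s, CField Q A (P i) (P' i)) :
    CField Q A (fun f v => ∑ i ∈ s, P i f v) (fun f v => ∑ i ∈ s, P' i f v) := by
  classical
  induction s using Finset.induction_on with
  | empty =>
    simp only [Finset.sum_empty]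
    exact CField.zero
  | insert a s ha ih =>
    simp only [Finset.sum_insert ha]
    exact CField.add (h a (Finset.mem_insert_self a s))
      (ih fun i hi => h i (Finset.mem_insert_of_mem hi))

/-- maps of test functions -/
structure TM (m : Fn → Fn) : Prop where
  clm : ∃ M : 𝓢(Mink, ℂ) →L[ℂ] 𝓢(Mink, ℂ), ∀ F, m (fl F) = fl (M F)
  bar : ∀ f, GF.IsTest f → m (bar f) = bar (m f)
  supp : ∀ f, GF.IsTest f → tsupport (m f) ⊆ tsupport f

lemma TM.test {m : Fn → Fn} (h : TM m) {f : Fn} (hf : GF.IsTest f) : GF.IsTest (m f) := by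
  obtain ⟨M, hM⟩ := h.clm
  obtain ⟨F, rfl⟩ := exists_fl hf
  rw [hM]
  exact isTest_fl _

lemma TM.cs {m : Fn → Fn} (h : TM m) {f : Fn} (hf : H755.CS f) : H755.CS (m f) :=
  cs_of_sub hf (h.test hf.1) (h.supp f hf.1)

lemma TM.lin {m : Fn → Fn} (h : TM m) {f g : Fn} (hf : GF.IsTest f) (hg : GF.IsTest g) (c : ℂ) :
    m (fun x => f x + c * g x) = fun x => m f x + c * m g x := by
  obtain ⟨M, hM⟩ := h.clm
  obtain ⟨F, rfl⟩ := exists_fl hf
  obtain ⟨G, rfl⟩ := exists_fl hg
  rw [fl_add_smul, hM, hM, hM, map_add, map_smul, ← fl_add_smul]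

theorem CField.comp (h : CField Q A P P') {m : Fn → Fn} (hm : TM m) :
    CField Q A (fun f => P (m f)) (fun f => P' (m f)) where
  linf f g c v hf hg := by
    show P (m fun x => f x + c * g x) v = P (m f) v + c • P (m g) v
    rw [hm.lin hf.1 hg.1]
    exact h.linf _ _ c v (hm.cs hf) (hm.cs hg)
  linv f c v w hf := h.linv _ c v w (hm.cs hf)
  bdd v := by
    obtain ⟨p, hp, h1⟩ := h.bdd v
    obtain ⟨M, hM⟩ := hm.clm
    refine ⟨p.comp (M : 𝓢(Mink, ℂ) →ₗ[ℂ] 𝓢(Mink, ℂ)), hp.comp M.continuous, fun F hF => ?_⟩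
    have h2 : HasCompactSupport (fl (M F)) := by
      rw [← hM]
      exact hF.of_isClosed_subset (isClosed_tsupport _) (hm.supp _ (isTest_fl F))
    show ‖P (m (fl F)) v‖ ≤ p (M F)
    rw [hM]
    exact h1 _ h2
  adj f v w hf := by
    show inner ℂ (P (m f) v) w = inner ℂ v (P' (m (bar f)) w)
    rw [hm.bar f hf.1]
    exact h.adj _ v w (hm.cs hf)
  loc C f g v hC hb hf hg hs :=
    h.loc C _ g v hC hb (hm.cs hf) hg fun x hx y hy => hs x (hm.supp f hf.1 hx) y hy

end

/-! ### Examples of maps of test functions -/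

theorem TM.id : TM fun f => f :=
  ⟨⟨ContinuousLinearMap.id ℂ _, fun F => rfl⟩, fun f _ => rfl, fun f _ => subset_rfl⟩

theorem TM.comp {m m' : Fn → Fn} (h : TM m) (h' : TM m') : TM fun f => m (m' f) := by
  obtain ⟨M, hM⟩ := h.clm
  obtain ⟨M', hM'⟩ := h'.clm
  refine ⟨⟨M.comp M', fun F => ?_⟩, fun f hf => ?_, fun f hf => ?_⟩
  · show m (m' (fl F)) = fl (M (M' F))
    rw [hM', hM]
  · show m (m' (GF.bar f)) = GF.bar (m (m' f))
    rw [h'.bar f hf, h.bar _ (h'.test hf)]
  · exact (h.supp _ (h'.test hf)).trans (h'.supp f hf)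

theorem TM.add {m m' : Fn → Fn} (h : TM m) (h' : TM m') : TM fun f x => m f x + m' f x := by
  obtain ⟨M, hM⟩ := h.clm
  obtain ⟨M', hM'⟩ := h'.clm
  refine ⟨⟨M + M', fun F => ?_⟩, fun f hf => ?_, fun f hf => ?_⟩
  · funext x
    show m (fl F) x + m' (fl F) x = _
    rw [hM, hM']
    rfl
  · funext x
    show m (GF.bar f) x + m' (GF.bar f) x = star (m f x + m' f x)
    rw [h.bar f hf, h'.bar f hf, star_add]
    rfl
  · refine closure_minimal (fun x hx => ?_) (isClosed_tsupport f)
    by_contra hn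
    apply hx
    have h1 : m f x = 0 := by
      by_contra h3
      exact hn (h.supp f hf (subset_tsupport _ h3))
    have h2 : m' f x = 0 := by
      by_contra h3
      exact hn (h'.supp f hf (subset_tsupport _ h3))
    show m f x + m' f x = 0
    rw [h1, h2, add_zero]

/-- multiplication by a real function -/
theorem TM.mul {p : V → ℝ} (hp : ∃ M : 𝓢(Mink, ℂ) →L[ℂ] 𝓢(Mink, ℂ), ∀ g x,
    M g x = ((p x.ofLp : ℝ) : ℂ) * g x) : TM fun f x => (p x : ℂ) * f x := by
  obtain ⟨M, hM⟩ := hp
  refine ⟨⟨M, fun F => ?_⟩, fun f hf => ?_, fun f hf => ?_⟩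
  · funext x
    rw [fl_apply, fl_apply, hM]
  · funext x
    show (p x : ℂ) * star (f x) = star ((p x : ℂ) * f x)
    rw [star_mul', ← starRingEnd_apply (p x : ℂ), conj_ofReal]
  · refine closure_mono fun x hx => ?_
    rw [Function.mem_support] at hx ⊢
    exact right_ne_zero_of_mul hx

theorem TM.smul (c : ℝ) : TM fun f x => (c : ℂ) * f x :=
  TM.mul (p := fun _ => c) ⟨(c : ℂ) • ContinuousLinearMap.id ℂ _, fun g x => rfl⟩

theorem TM.coord (n : Ix) : TM fun f x => (x n : ℂ) * f x :=
  TM.mul (p := fun x => x n) ⟨Xm n, fun g x => Xm_apply n g x⟩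

/-- multiplication by a component of a conformal Killing field -/
theorem TM.kil (hX : IsKil X) (n : Ix) : TM fun f x => (X n x : ℂ) * f x := by
  obtain ⟨M, hM⟩ := exists_mX hX n
  refine TM.mul (p := X n) ⟨((GF.eta n : ℝ) : ℂ) • M, fun g x => ?_⟩
  rw [ContinuousLinearMap.smul_apply, SchwartzMap.smul_apply, hM, smul_eq_mul, ofReal_mul]
  have h := eta_c n
  linear_combination (X n x.ofLp : ℂ) * g x * h

theorem TM.pd (n : Ix) : TM fun f => pd n f := by
  refine ⟨⟨LineDeriv.lineDerivOpCLM ℂ 𝓢(Mink, ℂ) (eb n), fun F => pd_fl n F⟩, fun f hf => ?_,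
    fun f hf => ?_⟩
  · obtain ⟨F, rfl⟩ := exists_fl hf
    funext x
    rw [bar_fl, pd_fl, pd_fl, bar_fl]
    congr 1
    ext y
    rw [ld_apply, conjS_apply, ld_apply]
    have h1 : (conjS F : Mink → ℂ) = fun y => conj (F y) := by
      funext z
      exact conjS_apply F z
    rw [h1]
    have h2 : HasFDerivAt (fun y => conj (F y))
        ((conjCLE : ℂ →L[ℝ] ℂ).comp (fderiv ℝ F y)) y :=
      (conjCLE : ℂ →L[ℝ] ℂ).hasFDerivAt.comp y (F.differentiableAt.hasFDerivAt)
    rw [h2.fderiv]
    rfl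
  · obtain ⟨F, rfl⟩ := exists_fl hf
    rw [pd_fl, tsupport_fl, tsupport_fl]
    exact Set.preimage_mono (tsupport_lineDerivOp_subset (eb n) F)

end Vale.Agent.P352.H148

end
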