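import Vale.Agent.P352.H148.Jc

set_option linter.all false

noncomputable section

open MeasureTheory SchwartzMap Complex Filter Topology
open scoped SchwartzMap ComplexConjugate ENNReal LineDeriv NNReal ContDiff

namespace Vale.Agent.P352.H148

open H246
open UniformSpace (Completion)

/-! ### Multiplication and dilations -/

/-- multiplication by a Schwartz function -/
def mulS (u : 𝓢(Mink, ℂ)) : 𝓢(Mink, ℂ) →L[ℂ] 𝓢(Mink, ℂ) := SchwartzMap.smulLeftCLM ℂ u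

@[simp] lemma mulS_apply (u f : 𝓢(Mink, ℂ)) (x : Mink) : mulS u f x = u x * f x := by
  rw [mulS, SchwartzMap.smulLeftCLM_apply_apply u.hasTemperateGrowth]
  rfl

lemma seminorm_mulS {i j : ℕ} (u f : 𝓢(Mink, ℂ)) {U P : ℝ} (hU0 : 0 ≤ U) (hP0 : 0 ≤ P)
    (hU : ∀ m ≤ j, ∀ x, ‖iteratedFDeriv ℝ m u x‖ ≤ U)
    (hP : ∀ m ≤ j, SchwartzMap.seminorm ℂ i m f ≤ P) :
    SchwartzMap.seminorm ℂ i j (mulS u f) ≤ 2 ^ j * U * P := by
  refine seminorm_le_bound ℂ i j _ (by positivity) fun x => ?_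
  have e : (⇑(mulS u f) : Mink → ℂ) = fun y => u y * f y := by
    funext y
    rw [mulS_apply]
  rw [e]
  have h1 := norm_iteratedFDeriv_mul_le (𝕜 := ℝ) (u.smooth ⊤) (f.smooth ⊤) x (n := j)
    (by exact_mod_cast le_top)
  have h2 : ‖x‖ ^ i * ‖iteratedFDeriv ℝ j (fun y => u y * f y) x‖ ≤
      ∑ m ∈ Finset.range (j + 1), (j.choose m : ℝ) * U * P := by
    refine (mul_le_mul_of_nonneg_left h1 (by positivity)).trans ?_
    rw [Finset.mul_sum]
    refine Finset.sum_le_sum fun m hm => ?_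
    rw [Finset.mem_range] at hm
    have h3 := hU m (by omega) x
    have h4 := (SchwartzMap.le_seminorm ℂ i (j - m) f x).trans (hP (j - m) (by omega))
    calc ‖x‖ ^ i * ((j.choose m : ℝ) * ‖iteratedFDeriv ℝ m u x‖ *
          ‖iteratedFDeriv ℝ (j - m) f x‖)
        = (j.choose m : ℝ) * ‖iteratedFDeriv ℝ m u x‖ *
          (‖x‖ ^ i * ‖iteratedFDeriv ℝ (j - m) f x‖) := by ring
      _ ≤ (j.choose m : ℝ) * U * P := by gcongr
  refine h2.trans (le_of_eq ?_)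
  rw [← Finset.sum_mul, ← Finset.sum_mul]
  congr 2
  exact_mod_cast Nat.sum_range_choose j

lemma seminorm_out {i j M : ℕ} {r : ℝ} (hr : 0 < r) (g : 𝓢(Mink, ℂ))
    (hz : ∀ x, ‖x‖ < r → g x = 0) :
    SchwartzMap.seminorm ℂ i j g ≤ (r ^ M)⁻¹ * SchwartzMap.seminorm ℂ (i + M) j g := by
  refine seminorm_le_bound ℂ i j _ (by positivity) fun x => ?_
  rcases lt_or_ge ‖x‖ r with h | h
  · have h1 : (g : Mink → ℂ) =ᶠ[𝓝 x] fun _ => 0 := by
      have : {y : Mink | ‖y‖ < r} ∈ 𝓝 x := (isOpen_lt continuous_norm continuous_const).mem_nhds h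
      filter_upwards [this] with y hy using hz y hy
    have h2 : iteratedFDeriv ℝ j g x = 0 := by
      rw [(h1.iteratedFDeriv ℝ j).eq_of_nhds]
      rw [iteratedFDeriv_zero_fun]
      rfl
    rw [h2, norm_zero, mul_zero]
    positivity
  · have h1 := SchwartzMap.le_seminorm ℂ (i + M) j g x
    have h2 : r ^ M ≤ ‖x‖ ^ M := pow_le_pow_left₀ hr.le h M
    have hrM : 0 < r ^ M := by positivity
    rw [← div_eq_inv_mul, le_div_iff₀ hrM]
    calc ‖x‖ ^ i * ‖iteratedFDeriv ℝ j g x‖ * r ^ M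
        ≤ ‖x‖ ^ i * ‖iteratedFDeriv ℝ j g x‖ * ‖x‖ ^ M := by gcongr
      _ = ‖x‖ ^ (i + M) * ‖iteratedFDeriv ℝ j g x‖ := by rw [pow_add]; ring
      _ ≤ _ := h1

lemma snS_shell {l M : ℕ} {r : ℝ} (hr : 0 < r) (u f : 𝓢(Mink, ℂ)) {U : ℝ} (hU0 : 0 ≤ U)
    (hU : ∀ m ≤ l, ∀ x, ‖iteratedFDeriv ℝ m u x‖ ≤ U) (hz : ∀ x, ‖x‖ < r → u x = 0) :
    snS l (mulS u f) ≤ (r ^ M)⁻¹ * (2 ^ l * U * snS (l + M) f) := by
  have hrM : 0 < (r ^ M)⁻¹ := by positivity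
  refine snS_le_of (mul_nonneg hrM.le (mul_nonneg (by positivity) (snS_nonneg _ _))) ?_
  intro i hi j hj
  refine (seminorm_out (M := M) hr (mulS u f) fun x hx => by rw [mulS_apply, hz x hx,
    zero_mul]).trans ?_
  refine mul_le_mul_of_nonneg_left ?_ hrM.le
  refine (seminorm_mulS u f hU0 (snS_nonneg (l + M) f) (fun m hm => hU m (hm.trans hj))
    (fun m hm => seminorm_le_snS (by omega) (by omega) f)).trans ?_
  have h0 := snS_nonneg (l + M) f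
  have h2 : (2 : ℝ) ^ j ≤ 2 ^ l := pow_le_pow_right₀ (by norm_num) hj
  gcongr

lemma snS_mulS {l : ℕ} (u f : 𝓢(Mink, ℂ)) {U : ℝ} (hU0 : 0 ≤ U)
    (hU : ∀ m ≤ l, ∀ x, ‖iteratedFDeriv ℝ m u x‖ ≤ U) :
    snS l (mulS u f) ≤ 2 ^ l * U * snS l f := by
  refine snS_le_of (mul_nonneg (by positivity) (snS_nonneg _ _)) ?_
  intro i hi j hj
  refine (seminorm_mulS u f hU0 (snS_nonneg l f) (fun m hm => hU m (hm.trans hj))
    (fun m hm => seminorm_le_snS hi (hm.trans hj) f)).trans ?_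
  have h0 := snS_nonneg l f
  have h2 : (2 : ℝ) ^ j ≤ 2 ^ l := pow_le_pow_right₀ (by norm_num) hj
  gcongr

lemma iter_bd {l m : ℕ} (hm : m ≤ l) (u : 𝓢(Mink, ℂ)) (x : Mink) :
    ‖iteratedFDeriv ℝ m u x‖ ≤ snS l u := by
  have h1 := SchwartzMap.le_seminorm ℂ 0 m u x
  rw [pow_zero, one_mul] at h1
  exact h1.trans (seminorm_le_snS (Nat.zero_le l) hm u)

lemma iter_scale {s : ℝ} (hs : s ≠ 0) (g : 𝓢(Mink, ℂ)) (n : ℕ) (x : Mink) :
    iteratedFDeriv ℝ n (scaleS s hs g) x = s ^ n • iteratedFDeriv ℝ n g (s • x) := by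
  have : (scaleS s hs g : Mink → ℂ) = fun y => g (s • y) := by
    funext y; rw [scaleS_apply]
  rw [this, iteratedFDeriv_comp_const_smul s (g.smooth n)]

lemma iter_scale_bd {l m : ℕ} (hm : m ≤ l) {s : ℝ} (hs : 0 < s) (hs1 : s ≤ 1)
    (u : 𝓢(Mink, ℂ)) (x : Mink) : ‖iteratedFDeriv ℝ m (scaleS s hs.ne' u) x‖ ≤ snS l u := by
  rw [iter_scale, norm_smul, norm_pow, Real.norm_of_nonneg hs.le]
  calc s ^ m * ‖iteratedFDeriv ℝ m u (s • x)‖ ≤ 1 * snS l u :=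
        mul_le_mul (pow_le_one₀ hs.le hs1) (iter_bd hm u _) (norm_nonneg _) zero_le_one
    _ = _ := one_mul _

lemma snS_scale {l : ℕ} {s : ℝ} (hs : 0 < s) (hs1 : s ≤ 1) (G : 𝓢(Mink, ℂ)) :
    snS l (scaleS s hs.ne' G) ≤ (s ^ l)⁻¹ * snS l G := by
  have h0 := snS_nonneg l G
  have hsl : 0 < (s ^ l)⁻¹ := by positivity
  refine snS_le_of (mul_nonneg hsl.le h0) fun i hi j hj => ?_
  refine seminorm_le_bound ℂ i j _ (mul_nonneg hsl.le h0) fun x => ?_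
  rw [iter_scale, norm_smul, norm_pow, Real.norm_of_nonneg hs.le]
  have h1 := (SchwartzMap.le_seminorm ℂ i j G (s • x)).trans (seminorm_le_snS hi hj G)
  rw [norm_smul, Real.norm_of_nonneg hs.le, mul_pow] at h1
  have h2 : ‖x‖ ^ i * (s ^ j * ‖iteratedFDeriv ℝ j G (s • x)‖) =
      s ^ j * (s ^ i)⁻¹ * (s ^ i * ‖x‖ ^ i * ‖iteratedFDeriv ℝ j G (s • x)‖) := by
    field_simp
  rw [h2]
  have h3 : s ^ j * (s ^ i)⁻¹ ≤ (s ^ l)⁻¹ := by
    calc s ^ j * (s ^ i)⁻¹ ≤ 1 * (s ^ l)⁻¹ := by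
          apply mul_le_mul (pow_le_one₀ hs.le hs1) _ (by positivity) zero_le_one
          apply inv_anti₀ (by positivity)
          exact pow_le_pow_of_le_one hs.le hs1 hi
      _ = _ := one_mul _
  exact mul_le_mul h3 h1 (by positivity) hsl.le

/-! ### The dyadic partition of unity -/

lemma exists_chi : ∃ χ : 𝓢(Mink, ℂ), (∀ x, ‖x‖ ≤ 1 → χ x = 1) ∧ (∀ x, 2 ≤ ‖x‖ → χ x = 0) ∧
    ∀ x, conj (χ x) = χ x := by
  set b : ContDiffBump (0 : Mink) := ⟨1, 2, one_pos, one_lt_two⟩ with hb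
  have hφs : ContDiff ℝ ∞ fun x : Mink => ((b x : ℝ) : ℂ) := ofRealCLM.contDiff.comp b.contDiff
  have hφc : HasCompactSupport fun x : Mink => ((b x : ℝ) : ℂ) :=
    b.hasCompactSupport.comp_left (g := fun r : ℝ => (r : ℂ)) (by simp)
  refine ⟨hφc.toSchwartzMap hφs, fun x hx => ?_, fun x hx => ?_, fun x => ?_⟩
  · show ((b x : ℝ) : ℂ) = 1
    rw [b.one_of_mem_closedBall (by simpa using hx)]
    simp
  · show ((b x : ℝ) : ℂ) = 0
    rw [b.zero_of_le_dist (by simpa using hx)]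
    simp
  · show conj ((b x : ℝ) : ℂ) = ((b x : ℝ) : ℂ)
    exact conj_ofReal _

/-- a bump function -/
def chi : 𝓢(Mink, ℂ) := exists_chi.choose

lemma chi_one {x : Mink} (h : ‖x‖ ≤ 1) : chi x = 1 := exists_chi.choose_spec.1 x h

lemma chi_zero {x : Mink} (h : 2 ≤ ‖x‖) : chi x = 0 := exists_chi.choose_spec.2.1 x h

lemma chi_conj (x : Mink) : conj (chi x) = chi x := exists_chi.choose_spec.2.2 x

lemma two_inv_pos (n : ℕ) : 0 < ((2 : ℝ) ^ n)⁻¹ := by positivity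

lemma two_inv_le (n : ℕ) : ((2 : ℝ) ^ n)⁻¹ ≤ 1 :=
  inv_le_one_of_one_le₀ (one_le_pow₀ (by norm_num))

/-- the profile of the shells -/
def eta0 : 𝓢(Mink, ℂ) := scaleS ((2 : ℝ) ^ 1)⁻¹ (two_inv_pos 1).ne' chi - chi

/-- the dyadic shells -/
def shl (n : ℕ) : 𝓢(Mink, ℂ) := scaleS ((2 : ℝ) ^ n)⁻¹ (two_inv_pos n).ne' eta0

/-- balls -/
def bal (n : ℕ) : 𝓢(Mink, ℂ) := scaleS ((2 : ℝ) ^ n)⁻¹ (two_inv_pos n).ne' chi

lemma shl_eq (n : ℕ) : shl n = bal (n + 1) - bal n := by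
  ext x
  simp only [shl, bal, eta0, scaleS_apply, SchwartzMap.sub_apply, smul_smul]
  congr 2
  rw [pow_one, pow_succ, mul_inv, mul_comm]

lemma norm_sc (n : ℕ) (x : Mink) : ‖((2 : ℝ) ^ n)⁻¹ • x‖ = ((2 : ℝ) ^ n)⁻¹ * ‖x‖ := by
  rw [norm_smul, Real.norm_of_nonneg (two_inv_pos n).le]

lemma bal_one {n : ℕ} {x : Mink} (h : ‖x‖ ≤ 2 ^ n) : bal n x = 1 := by
  rw [bal, scaleS_apply]
  apply chi_one
  rw [norm_sc, inv_mul_le_iff₀ (by positivity), mul_one]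
  exact h

lemma bal_zero {n : ℕ} {x : Mink} (h : 2 * 2 ^ n ≤ ‖x‖) : bal n x = 0 := by
  rw [bal, scaleS_apply]
  apply chi_zero
  rw [norm_sc, le_inv_mul_iff₀ (by positivity), mul_comm]
  exact h

lemma shl_in {n : ℕ} {x : Mink} (h : ‖x‖ < 2 ^ n) : shl n x = 0 := by
  rw [shl_eq, SchwartzMap.sub_apply, bal_one h.le, bal_one, sub_self]
  refine h.le.trans ?_
  rw [pow_succ]
  have : (0 : ℝ) < 2 ^ n := by positivity
  linarith

lemma shl_out {n : ℕ} {x : Mink} (h : 4 * 2 ^ n ≤ ‖x‖) : shl n x = 0 := by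
  have h0 : (0 : ℝ) < 2 ^ n := by positivity
  rw [shl_eq, SchwartzMap.sub_apply, bal_zero, bal_zero, sub_self]
  · linarith
  · rw [pow_succ]
    linarith

lemma bal_sum (N : ℕ) (f : 𝓢(Mink, ℂ)) :
    mulS chi f + ∑ n ∈ Finset.range N, mulS (shl n) f = mulS (bal N) f := by
  induction N with
  | zero =>
    rw [Finset.range_zero, Finset.sum_empty, add_zero]
    ext x
    rw [mulS_apply, mulS_apply, bal, scaleS_apply, pow_zero, inv_one, one_smul]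
  | succ N ih =>
    rw [Finset.sum_range_succ, ← add_assoc, ih, shl_eq]
    ext x
    rw [SchwartzMap.add_apply, mulS_apply, mulS_apply, mulS_apply, SchwartzMap.sub_apply]
    ring

lemma tsupport_le {g : 𝓢(Mink, ℂ)} {r : ℝ} (h : ∀ x, r < ‖x‖ → g x = 0) :
    tsupport g ⊆ Metric.closedBall 0 r := by
  refine closure_minimal (fun x hx => ?_) Metric.isClosed_closedBall
  rw [mem_closedBall_zero_iff]
  by_contra hn
  exact hx (h x (not_le.1 hn))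

lemma comp_of_le {g : 𝓢(Mink, ℂ)} {r : ℝ} (h : tsupport g ⊆ Metric.closedBall 0 r) :
    HasCompactSupport g :=
  (isCompact_closedBall (0 : Mink) r).of_isClosed_subset (isClosed_tsupport g) h

lemma ts_chi (f : 𝓢(Mink, ℂ)) : tsupport (mulS chi f) ⊆ Metric.closedBall 0 (4 * 1) :=
  tsupport_le fun x hx => by
    rw [mulS_apply, chi_zero (by linarith), zero_mul]

lemma ts_shl (n : ℕ) (f : 𝓢(Mink, ℂ)) :
    tsupport (mulS (shl n) f) ⊆ Metric.closedBall 0 (4 * 2 ^ n) :=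
  tsupport_le fun x hx => by
    rw [mulS_apply, shl_out hx.le, zero_mul]

lemma exists_N {f : 𝓢(Mink, ℂ)} (hf : HasCompactSupport f) :
    ∃ N : ℕ, ∀ x, f x ≠ 0 → ‖x‖ < 2 ^ N := by
  obtain ⟨R, hR⟩ := hf.isCompact.isBounded.subset_closedBall (0 : Mink)
  obtain ⟨N, hN⟩ := pow_unbounded_of_one_lt R (one_lt_two)
  refine ⟨N, fun x hx => ?_⟩
  have := hR (subset_tsupport _ hx)
  rw [mem_closedBall_zero_iff] at this
  exact this.trans_lt hN

end Vale.Agent.P352.H148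

end
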