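import Vale.Agent.P352.H148.Ext0
import Vale.Agent.P352.H496.CSeq

set_option linter.all false

noncomputable section

open MeasureTheory SchwartzMap Complex Filter Topology
open scoped SchwartzMap ComplexConjugate ENNReal LineDeriv NNReal ContDiff

namespace Vale.Agent.P352.H148

open H246
open UniformSpace (Completion)

/-! ### Extension from compactly supported functions -/

section

variable {F : Type*} [NormedAddCommGroup F] [NormedSpace ℂ F]

/-- a linear map on compactly supported functions that is given on large balls by a jointly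
continuous bilinear map of a dilated cutoff and the function -/
structure Dyc (c : 𝓢(Mink, ℂ) → F) (b : 𝓢(Mink, ℂ) → 𝓢(Mink, ℂ) → F) (G : 𝓢(Mink, ℂ)) :
    Prop where
  add : ∀ f g : 𝓢(Mink, ℂ), HasCompactSupport f → HasCompactSupport g → c (f + g) = c f + c g
  smul : ∀ (z : ℂ) (f : 𝓢(Mink, ℂ)), HasCompactSupport f → c (z • f) = z • c f
  eq : ∀ (n : ℕ) (f : 𝓢(Mink, ℂ)), tsupport f ⊆ Metric.closedBall 0 (4 * 2 ^ n) →
    c f = ((((2 : ℝ) ^ n)⁻¹ : ℝ) : ℂ) • b (scaleS ((2 : ℝ) ^ n)⁻¹ (two_inv_pos n).ne' G) f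
  bd : ∃ (C : ℝ) (k : ℕ), 0 ≤ C ∧ ∀ g f, ‖b g f‖ ≤ C * snS k g * snS k f

variable {c : 𝓢(Mink, ℂ) → F} {b : 𝓢(Mink, ℂ) → 𝓢(Mink, ℂ) → F} {G : 𝓢(Mink, ℂ)}

lemma Dyc.zero (h : Dyc c b G) : c 0 = 0 := by
  have := h.smul 0 0 HasCompactSupport.zero
  rwa [zero_smul, zero_smul] at this

lemma Dyc.bd_chi (h : Dyc c b G) : ∃ (C : ℝ) (k : ℕ), 0 ≤ C ∧ ∀ f,
    ‖c (mulS chi f)‖ ≤ C * snS k f := by
  obtain ⟨C, k, hC, hb⟩ := h.bd
  refine ⟨C * snS k (scaleS ((2 : ℝ) ^ 0)⁻¹ (two_inv_pos 0).ne' G) * (2 ^ k * snS k chi), k,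
    mul_nonneg (mul_nonneg hC (snS_nonneg _ _)) (mul_nonneg (by positivity) (snS_nonneg _ _)),
    fun f => ?_⟩
  have h1 : tsupport (mulS chi f) ⊆ Metric.closedBall 0 (4 * 2 ^ 0) := by
    rw [pow_zero]
    exact ts_chi f
  rw [h.eq 0 _ h1, norm_smul, norm_real, Real.norm_of_nonneg (two_inv_pos 0).le]
  have h2 : snS k (mulS chi f) ≤ 2 ^ k * snS k chi * snS k f :=
    snS_mulS chi f (snS_nonneg _ _) fun m hm x => iter_bd hm _ _
  have h3 : 0 ≤ C * snS k (scaleS ((2 : ℝ) ^ 0)⁻¹ (two_inv_pos 0).ne' G) :=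
    mul_nonneg hC (snS_nonneg _ _)
  calc ((2 : ℝ) ^ 0)⁻¹ * ‖b (scaleS ((2 : ℝ) ^ 0)⁻¹ (two_inv_pos 0).ne' G) (mulS chi f)‖
      ≤ 1 * (C * snS k (scaleS ((2 : ℝ) ^ 0)⁻¹ (two_inv_pos 0).ne' G) * snS k (mulS chi f)) :=
        mul_le_mul (two_inv_le 0) (hb _ _) (norm_nonneg _) zero_le_one
    _ ≤ 1 * (C * snS k (scaleS ((2 : ℝ) ^ 0)⁻¹ (two_inv_pos 0).ne' G) *
        (2 ^ k * snS k chi * snS k f)) := by
        rw [one_mul, one_mul]
        exact mul_le_mul_of_nonneg_left h2 h3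
    _ = _ := by ring

lemma Dyc.bd_shl (h : Dyc c b G) : ∃ (C : ℝ) (k : ℕ), 0 ≤ C ∧ ∀ f n,
    ‖c (mulS (shl n) f)‖ ≤ C * snS k f * (1 / 2) ^ n := by
  obtain ⟨C, k, hC, hb⟩ := h.bd
  refine ⟨C * snS k G * (2 ^ k * snS k eta0), k + (k + 1),
    mul_nonneg (mul_nonneg hC (snS_nonneg _ _)) (mul_nonneg (by positivity) (snS_nonneg _ _)),
    fun f n => ?_⟩
  set s : ℝ := ((2 : ℝ) ^ n)⁻¹ with hs
  have hs0 : 0 < s := two_inv_pos n
  have hs1 : s ≤ 1 := two_inv_le n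
  have hr0 : (0 : ℝ) < 2 ^ n := by positivity
  rw [h.eq n _ (ts_shl n f), norm_smul, norm_real, Real.norm_of_nonneg hs0.le]
  have h1 := hb (scaleS s hs0.ne' G) (mulS (shl n) f)
  have h2 : snS k (scaleS s hs0.ne' G) ≤ (s ^ k)⁻¹ * snS k G := snS_scale hs0 hs1 G
  have h3 : snS k (mulS (shl n) f) ≤ (((2 : ℝ) ^ n) ^ (k + 1))⁻¹ *
      (2 ^ k * snS k eta0 * snS (k + (k + 1)) f) :=
    snS_shell hr0 (shl n) f (snS_nonneg _ _) (fun m hm x => iter_scale_bd hm hs0 hs1 eta0 x)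
      (fun x hx => shl_in hx)
  have hf0 := snS_nonneg (k + (k + 1)) f
  have hG0 := snS_nonneg k G
  have he0 := snS_nonneg k eta0
  have h4 : s * ‖b (scaleS s hs0.ne' G) (mulS (shl n) f)‖ ≤
      1 * (C * ((s ^ k)⁻¹ * snS k G) * ((((2 : ℝ) ^ n) ^ (k + 1))⁻¹ *
      (2 ^ k * snS k eta0 * snS (k + (k + 1)) f))) := by
    refine mul_le_mul hs1 (h1.trans ?_) (norm_nonneg _) zero_le_one
    have h5 := snS_nonneg k (mulS (shl n) f)
    have h6 := snS_nonneg k (scaleS s hs0.ne' G)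
    gcongr
  refine h4.trans (le_of_eq ?_)
  have h7 : (s ^ k)⁻¹ * (((2 : ℝ) ^ n) ^ (k + 1))⁻¹ = (1 / 2) ^ n := by
    rw [hs, inv_pow, inv_inv, pow_succ, one_div, inv_pow]
    field_simp
  rw [one_mul, ← h7]
  ring

/-- maps on compactly supported functions that decrease on the dyadic shells -/
structure Shc (c : 𝓢(Mink, ℂ) → F) : Prop where
  add : ∀ f g : 𝓢(Mink, ℂ), HasCompactSupport f → HasCompactSupport g → c (f + g) = c f + c g
  smul : ∀ (z : ℂ) (f : 𝓢(Mink, ℂ)), HasCompactSupport f → c (z • f) = z • c f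
  bc : ∃ (C : ℝ) (k : ℕ), 0 ≤ C ∧ ∀ f, ‖c (mulS chi f)‖ ≤ C * snS k f
  bs : ∃ (C : ℝ) (k : ℕ), 0 ≤ C ∧ ∀ f n, ‖c (mulS (shl n) f)‖ ≤ C * snS k f * (1 / 2) ^ n

lemma Dyc.shc (h : Dyc c b G) : Shc c := ⟨h.add, h.smul, h.bd_chi, h.bd_shl⟩

lemma shc_of_bd (add : ∀ f g : 𝓢(Mink, ℂ), HasCompactSupport f → HasCompactSupport g →
      c (f + g) = c f + c g)
    (smul : ∀ (z : ℂ) (f : 𝓢(Mink, ℂ)), HasCompactSupport f → c (z • f) = z • c f)
    {p : Seminorm ℂ 𝓢(Mink, ℂ)} (hp : Continuous p)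
    (hb : ∀ f : 𝓢(Mink, ℂ), HasCompactSupport f → ‖c f‖ ≤ p f) : Shc c := by
  obtain ⟨C, k, hC, hk⟩ := exists_snS p hp
  refine ⟨add, smul, ⟨C * (2 ^ k * snS k chi), k,
    mul_nonneg hC (mul_nonneg (by positivity) (snS_nonneg _ _)), fun f => ?_⟩,
    ⟨C * (2 ^ k * snS k eta0), k + 1,
      mul_nonneg hC (mul_nonneg (by positivity) (snS_nonneg _ _)), fun f n => ?_⟩⟩
  · refine ((hb _ (comp_of_le (ts_chi f))).trans (hk _)).trans ?_
    rw [mul_assoc]
    exact mul_le_mul_of_nonneg_left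
      (snS_mulS chi f (snS_nonneg _ _) fun m hm x => iter_bd hm _ _) hC
  · refine ((hb _ (comp_of_le (ts_shl n f))).trans (hk _)).trans ?_
    have h3 : snS k (mulS (shl n) f) ≤ (((2 : ℝ) ^ n) ^ 1)⁻¹ *
        (2 ^ k * snS k eta0 * snS (k + 1) f) :=
      snS_shell (by positivity) (shl n) f (snS_nonneg _ _)
        (fun m hm x => iter_scale_bd hm (two_inv_pos n) (two_inv_le n) eta0 x)
        (fun x hx => shl_in hx)
    refine (mul_le_mul_of_nonneg_left h3 hC).trans (le_of_eq ?_)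
    have h7 : (((2 : ℝ) ^ n) ^ 1)⁻¹ = (1 / 2) ^ n := by
      rw [pow_one, one_div, inv_pow]
    rw [h7]
    ring

lemma Shc.summable [CompleteSpace F] (h : Shc c) (f : 𝓢(Mink, ℂ)) :
    Summable fun n => c (mulS (shl n) f) := by
  obtain ⟨C, k, hC, hb⟩ := h.bs
  refine Summable.of_norm_bounded (g := fun n => C * snS k f * (1 / 2) ^ n) ?_ (hb f)
  exact summable_geometric_two.mul_left _

lemma Shc.zero (h : Shc c) : c 0 = 0 := by
  have := h.smul 0 0 HasCompactSupport.zero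
  rwa [zero_smul, zero_smul] at this

lemma Shc.partial_sum (h : Shc c) (f : 𝓢(Mink, ℂ)) (N : ℕ) :
    c (mulS (bal N) f) = c (mulS chi f) + ∑ n ∈ Finset.range N, c (mulS (shl n) f) := by
  have key : ∀ N, HasCompactSupport (∑ n ∈ Finset.range N, mulS (shl n) f : 𝓢(Mink, ℂ)) ∧
      c (∑ n ∈ Finset.range N, mulS (shl n) f) = ∑ n ∈ Finset.range N, c (mulS (shl n) f) := by
    intro N
    induction N with
    | zero =>
      rw [Finset.range_zero, Finset.sum_empty, Finset.sum_empty]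
      exact ⟨HasCompactSupport.zero, h.zero⟩
    | succ N ih =>
      rw [Finset.sum_range_succ, Finset.sum_range_succ]
      have h1 : HasCompactSupport (mulS (shl N) f) := comp_of_le (ts_shl N f)
      refine ⟨ih.1.add h1, ?_⟩
      rw [h.add _ _ ih.1 h1, ih.2]
  rw [← bal_sum, h.add _ _ (comp_of_le (ts_chi f)) (key N).1, (key N).2]

/-- **Extension to Schwartz functions.** -/
theorem Shc.exists_ext [CompleteSpace F] (h : Shc c) :
    ∃ E : 𝓢(Mink, ℂ) →L[ℂ] F, ∀ f : 𝓢(Mink, ℂ), HasCompactSupport f → E f = c f := by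
  have hcs : ∀ (f : 𝓢(Mink, ℂ)) n, HasCompactSupport (mulS (shl n) f) := fun f n => comp_of_le (ts_shl n f)
  have hcc : ∀ f : 𝓢(Mink, ℂ), HasCompactSupport (mulS chi f) := fun f => comp_of_le (ts_chi f)
  set E0 : 𝓢(Mink, ℂ) →ₗ[ℂ] F :=
    { toFun := fun f => c (mulS chi f) + ∑' n, c (mulS (shl n) f)
      map_add' := fun f g => by
        have e : (fun n => c (mulS (shl n) (f + g))) = fun n =>
            c (mulS (shl n) f) + c (mulS (shl n) g) := by
          funext n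
          rw [map_add, h.add _ _ (hcs f n) (hcs g n)]
        rw [e, (h.summable f).tsum_add (h.summable g), map_add, h.add _ _ (hcc f) (hcc g)]
        abel
      map_smul' := fun z f => by
        have e : (fun n => c (mulS (shl n) (z • f))) = fun n => z • c (mulS (shl n) f) := by
          funext n
          rw [map_smul, h.smul _ _ (hcs f n)]
        rw [e, (h.summable f).tsum_const_smul z, map_smul, h.smul _ _ (hcc f), RingHom.id_apply,
          smul_add] } with hE0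
  obtain ⟨C1, k1, hC1, hb1⟩ := h.bc
  obtain ⟨C2, k2, hC2, hb2⟩ := h.bs
  have hbd : ∀ f, ‖E0 f‖ ≤ C1 * snS k1 f + C2 * snS k2 f * 2 := by
    intro f
    refine (norm_add_le _ _).trans (add_le_add (hb1 f) ?_)
    have h1 : HasSum (fun n : ℕ => C2 * snS k2 f * (1 / 2 : ℝ) ^ n) (C2 * snS k2 f * 2) :=
      hasSum_geometric_two.mul_left _
    exact tsum_of_norm_bounded h1 (hb2 f)
  have h0 : ContinuousAt E0 0 := by
    unfold ContinuousAt
    rw [map_zero, tendsto_zero_iff_norm_tendsto_zero]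
    have hlim : Tendsto (fun f => C1 * snS k1 f + C2 * snS k2 f * 2) (𝓝 (0 : 𝓢(Mink, ℂ)))
        (𝓝 (C1 * snS k1 0 + C2 * snS k2 0 * 2)) :=
      (((cont_snS k1).tendsto 0).const_mul C1).add ((((cont_snS k2).tendsto 0).const_mul C2).mul_const 2)
    rw [map_zero, map_zero, mul_zero, mul_zero, zero_mul, add_zero] at hlim
    exact squeeze_zero (fun f => norm_nonneg _) hbd hlim
  refine ⟨⟨E0, continuous_of_continuousAt_zero E0 h0⟩, fun f hf => ?_⟩
  obtain ⟨N, hN⟩ := exists_N hf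
  have e1 : mulS (bal N) f = f := by
    ext x
    rw [mulS_apply]
    by_cases hx : f x = 0
    · rw [hx, mul_zero]
    · rw [bal_one (hN x hx).le, one_mul]
  have e2 : ∀ n ∉ Finset.range N, c (mulS (shl n) f) = 0 := by
    intro n hn
    rw [Finset.mem_range, not_lt] at hn
    have : mulS (shl n) f = 0 := by
      ext x
      rw [mulS_apply, SchwartzMap.zero_apply]
      by_cases hx : f x = 0
      · rw [hx, mul_zero]
      · rw [shl_in ((hN x hx).trans_le (pow_le_pow_right₀ (by norm_num) hn)), zero_mul]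
    rw [this, h.zero]
  show c (mulS chi f) + ∑' n, c (mulS (shl n) f) = c f
  rw [tsum_eq_sum e2, ← h.partial_sum f N, e1]

/-- **Extension of bounded maps.** -/
theorem ext_of_bd [CompleteSpace F] (add : ∀ f g : 𝓢(Mink, ℂ), HasCompactSupport f →
      HasCompactSupport g → c (f + g) = c f + c g)
    (smul : ∀ (z : ℂ) (f : 𝓢(Mink, ℂ)), HasCompactSupport f → c (z • f) = z • c f)
    {p : Seminorm ℂ 𝓢(Mink, ℂ)} (hp : Continuous p)
    (hb : ∀ f : 𝓢(Mink, ℂ), HasCompactSupport f → ‖c f‖ ≤ p f) :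
    ∃ E : 𝓢(Mink, ℂ) →L[ℂ] F, ∀ f : 𝓢(Mink, ℂ), HasCompactSupport f → E f = c f :=
  (shc_of_bd add smul hp hb).exists_ext

/-- **The Schwartz bound** on compactly supported functions. -/
theorem Shc.bdd (h : Shc c) : ∃ (C : ℝ) (k : ℕ), 0 ≤ C ∧
    ∀ f : 𝓢(Mink, ℂ), HasCompactSupport f → ‖c f‖ ≤ C * snS k f := by
  obtain ⟨C1, k1, hC1, hb1⟩ := h.bc
  obtain ⟨C2, k2, hC2, hb2⟩ := h.bs
  refine ⟨C1 + C2 * 2, max k1 k2, by positivity, fun f hf => ?_⟩
  obtain ⟨N, hN⟩ := exists_N hf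
  have e1 : mulS (bal N) f = f := by
    ext x
    rw [mulS_apply]
    by_cases hx : f x = 0
    · rw [hx, mul_zero]
    · rw [bal_one (hN x hx).le, one_mul]
  have h1 := h.partial_sum f N
  rw [e1] at h1
  rw [h1]
  have h2 : ‖∑ n ∈ Finset.range N, c (mulS (shl n) f)‖ ≤ C2 * snS k2 f * 2 := by
    refine (norm_sum_le _ _).trans ?_
    refine (Finset.sum_le_sum fun n _ => hb2 f n).trans ?_
    rw [← Finset.mul_sum]
    have h0 := snS_nonneg k2 f
    refine mul_le_mul_of_nonneg_left ?_ (by positivity)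
    exact sum_geometric_two_le N
  have h3 := snS_mono (le_max_left k1 k2) f
  have h4 := snS_mono (le_max_right k1 k2) f
  have h5 := snS_nonneg (max k1 k2) f
  calc _ ≤ C1 * snS k1 f + C2 * snS k2 f * 2 := (norm_add_le _ _).trans (add_le_add (hb1 f) h2)
    _ ≤ C1 * snS (max k1 k2) f + C2 * snS (max k1 k2) f * 2 := by gcongr
    _ = _ := by ring

end

/-- continuous functions on Schwartz space that agree on compactly supported functions -/
theorem ext_compact {F : Type*} [TopologicalSpace F] [T2Space F] {u v : 𝓢(Mink, ℂ) → F}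
    (hu : Continuous u) (hv : Continuous v) (h : ∀ f : 𝓢(Mink, ℂ), HasCompactSupport f → u f = v f)
    (f : 𝓢(Mink, ℂ)) : u f = v f := by
  obtain ⟨g, hg1, -, hg2⟩ := H496.exists_compact_sup f
  refine tendsto_nhds_unique ((hu.tendsto f).comp hg2) ?_
  refine ((hv.tendsto f).comp hg2).congr fun n => ?_
  exact (h _ (hg1 n)).symm

end Vale.Agent.P352.H148

end
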