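import Vale.Agent.P352.H148.Kd2

set_option linter.all false

noncomputable section

open MeasureTheory SchwartzMap Complex Filter Topology
open scoped SchwartzMap ComplexConjugate ENNReal LineDeriv NNReal

namespace Vale.Agent.P352.H148

open H246
open UniformSpace (Completion)

/-! ### Norms on Schwartz space and joint continuity -/

/-- Schwartz norms -/
def snS (k : ℕ) : Seminorm ℂ 𝓢(Mink, ℂ) :=
  (Finset.Iic (k, k)).sup (schwartzSeminormFamily ℂ Mink ℂ)

lemma snS_nonneg (k : ℕ) (f : 𝓢(Mink, ℂ)) : 0 ≤ snS k f := apply_nonneg _ _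

lemma snS_mono {k l : ℕ} (h : k ≤ l) (f : 𝓢(Mink, ℂ)) : snS k f ≤ snS l f := by
  have hs : Finset.Iic (k, k) ⊆ Finset.Iic (l, l) := by
    intro m hm
    rw [Finset.mem_Iic] at hm ⊢
    exact hm.trans ⟨h, h⟩
  exact Seminorm.le_def.1 (Finset.sup_mono hs) f

lemma seminorm_le_snS {i j k : ℕ} (hi : i ≤ k) (hj : j ≤ k) (f : 𝓢(Mink, ℂ)) :
    SchwartzMap.seminorm ℂ i j f ≤ snS k f := by
  have hm : (i, j) ∈ Finset.Iic (k, k) := Finset.mem_Iic.2 ⟨hi, hj⟩
  exact Seminorm.le_def.1 (Finset.le_sup (f := schwartzSeminormFamily ℂ Mink ℂ) hm) f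

lemma snS_le_of {k : ℕ} {f : 𝓢(Mink, ℂ)} {C : ℝ} (hC : 0 ≤ C)
    (h : ∀ i ≤ k, ∀ j ≤ k, SchwartzMap.seminorm ℂ i j f ≤ C) : snS k f ≤ C := by
  refine Seminorm.finset_sup_apply_le hC fun m hm => ?_
  rw [Finset.mem_Iic] at hm
  exact h m.1 hm.1 m.2 hm.2

lemma norm_le_snS (k : ℕ) (f : 𝓢(Mink, ℂ)) (x : Mink) : ‖f x‖ ≤ snS k f := by
  have h1 := SchwartzMap.norm_le_seminorm ℂ f x
  exact h1.trans (seminorm_le_snS (Nat.zero_le k) (Nat.zero_le k) f)

lemma snS_pos {k : ℕ} {f : 𝓢(Mink, ℂ)} (hf : f ≠ 0) : 0 < snS k f := by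
  rcases (snS_nonneg k f).lt_or_eq with h | h
  · exact h
  · exfalso
    apply hf
    ext x
    have h1 := norm_le_snS k f x
    rw [← h] at h1
    rw [SchwartzMap.zero_apply]
    exact norm_le_zero_iff.1 h1

lemma cont_snS (k : ℕ) : Continuous (snS k) := by
  have h : ∀ s : Finset (ℕ × ℕ), Continuous fun f : 𝓢(Mink, ℂ) =>
      (s.sup (schwartzSeminormFamily ℂ Mink ℂ) : Seminorm ℂ 𝓢(Mink, ℂ)) f := by
    intro s
    induction s using Finset.induction_on with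
    | empty =>
      simp only [Finset.sup_empty]
      exact continuous_const
    | insert a s ha ih =>
      simp only [Finset.sup_insert]
      exact ((schwartz_withSeminorms ℂ Mink ℂ).continuous_seminorm a).sup ih
  exact h _

lemma exists_snS (p : Seminorm ℂ 𝓢(Mink, ℂ)) (hp : Continuous p) :
    ∃ (C : ℝ) (k : ℕ), 0 ≤ C ∧ ∀ f, p f ≤ C * snS k f := by
  obtain ⟨s, C, -, h⟩ := Seminorm.bound_of_continuous (schwartz_withSeminorms ℂ Mink ℂ) p hp
  refine ⟨C, s.sup (fun m => max m.1 m.2), C.2, fun f => ?_⟩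
  have h1 : p f ≤ C * (s.sup (schwartzSeminormFamily ℂ Mink ℂ)) f := Seminorm.le_def.1 h f
  refine h1.trans ?_
  apply mul_le_mul_of_nonneg_left _ C.2
  refine Seminorm.le_def.1 (Finset.sup_mono fun m hm => ?_) f
  rw [Finset.mem_Iic]
  have h2 : max m.1 m.2 ≤ s.sup (fun m => max m.1 m.2) :=
    Finset.le_sup (f := fun m : ℕ × ℕ => max m.1 m.2) hm
  exact ⟨(le_max_left _ _).trans h2, (le_max_right _ _).trans h2⟩

lemma clm_snS {F : Type*} [NormedAddCommGroup F] [NormedSpace ℂ F] (L : 𝓢(Mink, ℂ) →L[ℂ] F) :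
    ∃ (C : ℝ) (k : ℕ), 0 ≤ C ∧ ∀ f, ‖L f‖ ≤ C * snS k f :=
  exists_snS ((normSeminorm ℂ F).comp (L : 𝓢(Mink, ℂ) →ₗ[ℂ] F)) (L.continuous.norm)

lemma clm_snS' (L : 𝓢(Mink, ℂ) →L[ℂ] 𝓢(Mink, ℂ)) (l : ℕ) :
    ∃ (C : ℝ) (k : ℕ), 0 ≤ C ∧ ∀ f, snS l (L f) ≤ C * snS k f :=
  exists_snS ((snS l).comp (L : 𝓢(Mink, ℂ) →ₗ[ℂ] 𝓢(Mink, ℂ))) ((cont_snS l).comp L.continuous)

lemma tendsto_zero_of_snS {g : ℕ → 𝓢(Mink, ℂ)}
    (h : ∀ k, Tendsto (fun n => snS k (g n)) atTop (𝓝 0)) : Tendsto g atTop (𝓝 0) := by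
  rw [(schwartz_withSeminorms ℂ Mink ℂ).tendsto_nhds g 0]
  intro m ε hε
  have h1 := h (max m.1 m.2)
  filter_upwards [h1.eventually (gt_mem_nhds hε)] with n hn
  rw [sub_zero]
  exact (seminorm_le_snS (le_max_left _ _) (le_max_right _ _) (g n)).trans_lt hn

/-- **Joint continuity.** -/
theorem joint {F : Type*} [NormedAddCommGroup F] [NormedSpace ℂ F]
    (B : 𝓢(Mink, ℂ) → 𝓢(Mink, ℂ) →L[ℂ] F) (hadd : ∀ g g' f, B (g + g') f = B g f + B g' f)
    (hsmul : ∀ (c : ℂ) g f, B (c • g) f = c • B g f)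
    (hc : ∀ f, Continuous fun g => B g f) :
    ∃ (C : ℝ) (k : ℕ), 0 ≤ C ∧ ∀ g f, ‖B g f‖ ≤ C * snS k g * snS k f := by
  by_contra hcon
  push Not at hcon
  have hB0 : ∀ f, B 0 f = 0 := by
    intro f
    have := hsmul 0 0 f
    rwa [zero_smul, zero_smul] at this
  have h1 : ∀ n : ℕ, ∃ g f, ((n : ℝ) + 1) ^ 2 * snS n g * snS n f < ‖B g f‖ := fun n =>
    hcon _ n (by positivity)
  choose g f hgf using h1
  have hg0 : ∀ n, g n ≠ 0 := by
    intro n h0
    have := hgf n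
    rw [h0, hB0, norm_zero, map_zero, mul_zero, zero_mul] at this
    exact lt_irrefl _ this
  have hf0 : ∀ n, f n ≠ 0 := by
    intro n h0
    have := hgf n
    rw [h0, (B (g n)).map_zero, norm_zero, map_zero, mul_zero] at this
    exact lt_irrefl _ this
  have hgp : ∀ n, 0 < snS n (g n) := fun n => snS_pos (hg0 n)
  have hfp : ∀ n, 0 < snS n (f n) := fun n => snS_pos (hf0 n)
  set c : ℕ → ℝ := fun n => (((n : ℝ) + 1) * snS n (g n))⁻¹ with hcd
  set d : ℕ → ℝ := fun n => (((n : ℝ) + 1) * snS n (f n))⁻¹ with hdd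
  have hcp : ∀ n, 0 < c n := fun n => inv_pos.2 (mul_pos (by positivity) (hgp n))
  have hdp : ∀ n, 0 < d n := fun n => inv_pos.2 (mul_pos (by positivity) (hfp n))
  set g' : ℕ → 𝓢(Mink, ℂ) := fun n => (c n : ℂ) • g n with hg'
  set f' : ℕ → 𝓢(Mink, ℂ) := fun n => (d n : ℂ) • f n with hf'
  have hlim : Tendsto (fun n : ℕ => 1 / ((n : ℝ) + 1)) atTop (𝓝 0) :=
    tendsto_one_div_add_atTop_nhds_zero_nat
  have hgl : Tendsto g' atTop (𝓝 0) := by
    apply tendsto_zero_of_snS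
    intro k
    refine squeeze_zero' (Eventually.of_forall fun n => snS_nonneg _ _) ?_ hlim
    filter_upwards [eventually_ge_atTop k] with n hn
    have e : snS n (g' n) = 1 / ((n : ℝ) + 1) := by
      show snS n ((c n : ℂ) • g n) = _
      rw [map_smul_eq_mul, norm_real, Real.norm_of_nonneg (hcp n).le]
      show (((n : ℝ) + 1) * snS n (g n))⁻¹ * snS n (g n) = _
      have := (hgp n).ne'
      field_simp
    rw [← e]
    exact snS_mono hn _
  have hfl : Tendsto f' atTop (𝓝 0) := by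
    apply tendsto_zero_of_snS
    intro k
    refine squeeze_zero' (Eventually.of_forall fun n => snS_nonneg _ _) ?_ hlim
    filter_upwards [eventually_ge_atTop k] with n hn
    have e : snS n (f' n) = 1 / ((n : ℝ) + 1) := by
      show snS n ((d n : ℂ) • f n) = _
      rw [map_smul_eq_mul, norm_real, Real.norm_of_nonneg (hdp n).le]
      show (((n : ℝ) + 1) * snS n (f n))⁻¹ * snS n (f n) = _
      have := (hfp n).ne'
      field_simp
    rw [← e]
    exact snS_mono hn _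
  have hbig : ∀ n, 1 < ‖B (g' n) (f' n)‖ := by
    intro n
    show 1 < ‖B ((c n : ℂ) • g n) ((d n : ℂ) • f n)‖
    rw [hsmul, map_smul, norm_smul, norm_smul, norm_real, norm_real,
      Real.norm_of_nonneg (hcp n).le, Real.norm_of_nonneg (hdp n).le]
    have h2 : c n * (d n * (((n : ℝ) + 1) ^ 2 * snS n (g n) * snS n (f n))) = 1 := by
      show (((n : ℝ) + 1) * snS n (g n))⁻¹ * ((((n : ℝ) + 1) * snS n (f n))⁻¹ * _) = 1
      have h3 := (hfp n).ne'
      have h4 := (hgp n).ne'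
      field_simp
    calc (1 : ℝ) = c n * (d n * (((n : ℝ) + 1) ^ 2 * snS n (g n) * snS n (f n))) := h2.symm
      _ < c n * (d n * ‖B (g n) (f n)‖) :=
        mul_lt_mul_of_pos_left (mul_lt_mul_of_pos_left (hgf n) (hdp n)) (hcp n)
  -- the family `B (g' n)`
  have := barrelled_schwartz
  have hbd : ∀ (k : Fin 1) (x : 𝓢(Mink, ℂ)), BddAbove (Set.range fun n =>
      (fun _ : Fin 1 => normSeminorm ℂ F) k ((B (g' n)) x)) := by
    intro k x
    have h2 : Tendsto (fun n => ‖B (g' n) x‖) atTop (𝓝 ‖B 0 x‖) :=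
      ((hc x).norm.tendsto 0).comp hgl
    exact h2.bddAbove_range
  have heq := (norm_withSeminorms ℂ F).banach_steinhaus (𝓕 := fun n => B (g' n)) hbd
  have h5 := heq.equicontinuous 0
  rw [Metric.equicontinuousAt_iff_pair] at h5
  obtain ⟨U, hU, h6⟩ := h5 1 one_pos
  have h7 := hfl.eventually hU
  obtain ⟨n, hn⟩ := h7.exists
  have h8 := h6 (f' n) hn 0 (mem_of_mem_nhds hU) n
  simp only [Function.comp_apply, map_zero, dist_zero_right] at h8
  exact absurd h8 (not_lt.2 (hbig n).le)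

end Vale.Agent.P352.H148

end
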