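import Vale.Agent.P352.H148.YbAx
import Vale.Agent.P352.H746.Bk

/-!
# P352 (helper148): continuous vector valued distributions, operator form of YbAx
-/

set_option linter.all false

noncomputable section

open MeasureTheory SchwartzMap Complex Filter Topology
open scoped SchwartzMap ComplexConjugate ENNReal LineDeriv ContDiff

namespace Vale.Agent.P352.H148

open GF (Ix V Fn Sch ev pd bar sim bas o)
open H246 H496 H755 H246R H731 H746 H993
open UniformSpace (Completion)

variable {D : Type*} [NormedAddCommGroup D] [InnerProductSpace ℂ D]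
variable {Q : GF.Theory D}

/-- `axL` and `axS` are the same multiplication operator -/
lemma axL_axS (a : V) (F : 𝓢(Mink, ℂ)) : axL a F = axS a F := by
  apply fl_inj
  funext x
  rw [fl_axL]
  show (GF.mdot a x : ℂ) * fl F x = _
  simp only [fl_apply, axS_apply]

theorem sup_zero {Y : 𝓢(Mink, ℂ) →L[ℂ] D} {μ : Measure Mink}
    (Kd : Cvd Q ((Completion.toComplL (𝕜 := ℂ) (E := D)).comp Y) μ) {a : V} (ha : IsNull a)
    (h : ∀ F G, (inner ℂ (Y F) (Y (axL a G)) : ℂ) = inner ℂ (Y (axL a F)) (Y G))
    (F : 𝓢(Mink, ℂ)) : Y F = 0 := by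
  have hcov : ∀ (x : Mink) (z : D) G, (inner ℂ (U1 Q x z) (Y (tauS x G)) : ℂ) =
      inner ℂ z (Y G) := by
    intro x z G
    have h1 : inner ℂ ((U1 Q x z : D) : Completion D) ((Y (tauS x G) : D) : Completion D) =
        inner ℂ ((z : D) : Completion D) ((Y G : D) : Completion D) := Kd.cov G x z
    rwa [Completion.inner_coe, Completion.inner_coe] at h1
  refine yb_ax_zero (Q := Q) (Y := Y) (fun F G => map_add Y F G) (fun c F => map_smul Y c F)
    (fun w => continuous_const.inner Y.continuous) ?_ ha ?_ F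
  · intro x G
    have h1 : inner ℂ (Y (tauS x G) - U1 Q x (Y G)) (Y (tauS x G) - U1 Q x (Y G)) = (0 : ℂ) := by
      have h2 : U1 Q x (U1 Q (-x) (Y (tauS x G) - U1 Q x (Y G))) =
          Y (tauS x G) - U1 Q x (Y G) := by
        rw [U1_U1_all, add_neg_cancel, U1_zero_all]
      set d := Y (tauS x G) - U1 Q x (Y G) with hd
      have h3 := hcov x (U1 Q (-x) d) G
      rw [← U1_inner x (U1 Q (-x) d) (Y G), h2] at h3
      calc inner ℂ d d = inner ℂ d (Y (tauS x G)) - inner ℂ d (U1 Q x (Y G)) := by
            rw [← inner_sub_right, ← hd]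
        _ = 0 := by rw [h3, sub_self]
    exact sub_eq_zero.1 (inner_self_eq_zero.1 h1)
  · intro F G
    rw [← axL_axS, ← axL_axS]
    exact h F G

end Vale.Agent.P352.H148

end
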