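import Vale.Agent.P352.GFDefs

open MeasureTheory Filter Topology
open scoped SchwartzMap ContDiff

namespace Vale.Agent.P352.H148

open GF

noncomputable section

variable {E W : Type*} [NormedAddCommGroup E] [NormedSpace ℝ E]
  [NormedAddCommGroup W] [NormedSpace ℝ W]

/-- A Schwartz function of `L x` times a function of temperate growth whose support is contained
in `‖x‖ ≤ C (1 + ‖L x‖)` is a Schwartz function. -/
theorem exists_cone (ψ : 𝓢(E, ℂ)) (L : W →L[ℝ] E) {g : W → ℂ} (hg : g.HasTemperateGrowth)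
    {C : ℝ} (hC : ∀ x, g x ≠ 0 → ‖x‖ ≤ C * (1 + ‖L x‖)) :
    ∃ F : 𝓢(W, ℂ), ∀ x, F x = ψ (L x) * g x := by
  have hsm : ContDiff ℝ ∞ fun x => ψ (L x) * g x :=
    ((ψ.smooth ⊤).comp L.contDiff).mul hg.1
  have hcl : IsClosed {x : W | ‖x‖ ≤ C * (1 + ‖L x‖)} :=
    isClosed_le continuous_norm (by fun_prop)
  have hts : tsupport (fun x => ψ (L x) * g x) ⊆ {x : W | ‖x‖ ≤ C * (1 + ‖L x‖)} := by
    refine closure_minimal (fun x hx => hC x fun h => hx ?_) hcl
    simp only [h, mul_zero]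
  have hC0 : 0 ≤ |C| := abs_nonneg C
  refine ⟨⟨_, hsm, fun k n => ?_⟩, fun x => rfl⟩
  obtain ⟨m, B, hB, hgB⟩ := hg.norm_iteratedFDeriv_le_uniform n
  set K : ℕ × ℕ := (k + m, n) with hK
  set M : ℝ := 2 ^ (k + m) * ((Finset.Iic K).sup fun q => SchwartzMap.seminorm ℝ q.1 q.2) ψ
    with hM
  have hM0 : 0 ≤ M := by positivity
  refine ⟨(1 + |C|) ^ (k + m) * B * M * ∑ i ∈ Finset.range (n + 1),
    (n.choose i : ℝ) * ‖L‖ ^ i, fun x => ?_⟩
  by_cases hx : x ∈ tsupport (fun x => ψ (L x) * g x)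
  · have hx' : ‖x‖ ≤ |C| * (1 + ‖L x‖) := (hts hx).trans (by gcongr; exact le_abs_self C)
    have h1x : 1 + ‖x‖ ≤ (1 + |C|) * (1 + ‖L x‖) := by
      have := norm_nonneg (L x)
      nlinarith
    have hmul := norm_iteratedFDeriv_mul_le (n := n) (N := ∞)
      ((ψ.smooth ⊤).comp L.contDiff) hg.1 x (by exact_mod_cast le_top)
    have hb : ∀ i ∈ Finset.range (n + 1),
        (n.choose i : ℝ) * ‖iteratedFDeriv ℝ i (ψ ∘ L) x‖ * ‖iteratedFDeriv ℝ (n - i) g x‖ ≤
        (n.choose i : ℝ) * (‖L‖ ^ i * ‖iteratedFDeriv ℝ i ψ (L x)‖) *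
          (B * ((1 + |C|) * (1 + ‖L x‖)) ^ m) := by
      intro i hi
      have e1 : ‖iteratedFDeriv ℝ i (ψ ∘ L) x‖ ≤ ‖L‖ ^ i * ‖iteratedFDeriv ℝ i ψ (L x)‖ := by
        rw [L.iteratedFDeriv_comp_right (ψ.smooth ⊤) x (by exact_mod_cast le_top)]
        rw [mul_comm]
        exact (ContinuousMultilinearMap.norm_compContinuousLinearMap_le _ _).trans
          (le_of_eq (by rw [Finset.prod_const, Finset.card_univ, Fintype.card_fin]))
      have e2 : ‖iteratedFDeriv ℝ (n - i) g x‖ ≤ B * ((1 + |C|) * (1 + ‖L x‖)) ^ m :=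
        (hgB (n - i) (Nat.sub_le n i) x).trans (by gcongr)
      gcongr
    calc ‖x‖ ^ k * ‖iteratedFDeriv ℝ n (fun x => ψ (L x) * g x) x‖
        ≤ ((1 + |C|) * (1 + ‖L x‖)) ^ k * ∑ i ∈ Finset.range (n + 1),
          (n.choose i : ℝ) * (‖L‖ ^ i * ‖iteratedFDeriv ℝ i ψ (L x)‖) *
          (B * ((1 + |C|) * (1 + ‖L x‖)) ^ m) := by
          gcongr
          · linarith [norm_nonneg x]
          · exact hmul.trans (Finset.sum_le_sum hb)
      _ = (1 + |C|) ^ (k + m) * B * ∑ i ∈ Finset.range (n + 1),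
          ((n.choose i : ℝ) * ‖L‖ ^ i) *
            ((1 + ‖L x‖) ^ (k + m) * ‖iteratedFDeriv ℝ i ψ (L x)‖) := by
          rw [Finset.mul_sum, Finset.mul_sum]
          refine Finset.sum_congr rfl fun i _ => ?_
          rw [mul_pow, mul_pow, pow_add, pow_add]
          ring
      _ ≤ (1 + |C|) ^ (k + m) * B * ∑ i ∈ Finset.range (n + 1),
          ((n.choose i : ℝ) * ‖L‖ ^ i) * M := by
          gcongr with i hi
          exact SchwartzMap.one_add_le_sup_seminorm_apply (𝕜 := ℝ) (m := K) le_rfl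
            (Nat.lt_succ_iff.1 (Finset.mem_range.1 hi)) ψ (L x)
      _ = _ := by
          rw [← Finset.sum_mul]
          ring
  · have h0 : iteratedFDeriv ℝ n (fun x => ψ (L x) * g x) x = 0 := by
      by_contra h
      exact hx (support_iteratedFDeriv_subset n h)
    change ‖x‖ ^ k * ‖iteratedFDeriv ℝ n (fun x => ψ (L x) * g x) x‖ ≤ _
    rw [h0, norm_zero, mul_zero]
    positivity

/-- a function of temperate growth that vanishes at the origin, rescaled -/
theorem scale_bd {h : W → ℂ} (hh : h.HasTemperateGrowth) (h0 : h 0 = 0) (n : ℕ) :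
    ∃ (m : ℕ) (B : ℝ), 0 ≤ B ∧ ∀ R : ℝ, 1 ≤ R → ∀ j ≤ n, ∀ x,
      ‖iteratedFDeriv ℝ j (fun y => h (R⁻¹ • y)) x‖ ≤ R⁻¹ * (B * (1 + ‖x‖) ^ m) := by
  obtain ⟨m, B, hB, hb⟩ := hh.norm_iteratedFDeriv_le_uniform (n + 1)
  refine ⟨m + 1, B, hB, fun R hR j hj x => ?_⟩
  have hR0 : 0 < R := by linarith
  have hRi : R⁻¹ ≤ 1 := inv_le_one_of_one_le₀ hR
  have hRi0 : 0 < R⁻¹ := by positivity
  have hx0 := norm_nonneg x
  have hsx : ‖R⁻¹ • x‖ = R⁻¹ * ‖x‖ := by
    rw [norm_smul, Real.norm_eq_abs, abs_of_pos hRi0]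
  have hsx' : ‖R⁻¹ • x‖ ≤ ‖x‖ := by
    rw [hsx]
    exact mul_le_of_le_one_left hx0 hRi
  rcases j with _ | j
  · have h1 : ‖h (R⁻¹ • x)‖ ≤ B * (1 + ‖x‖) ^ m * (R⁻¹ * ‖x‖) := by
      have h2 := (convex_closedBall (0 : W) ‖x‖).norm_image_sub_le_of_norm_fderiv_le (𝕜 := ℝ)
        (f := h) (C := B * (1 + ‖x‖) ^ m) (x := 0) (y := R⁻¹ • x)
        (fun y _ => (hh.1.differentiable (by simp)).differentiableAt) (fun y hy => by
          rw [← norm_iteratedFDeriv_one]
          refine (hb 1 (by omega) y).trans ?_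
          gcongr
          simpa using hy) (by simp) (by simpa using hsx')
      rwa [h0, sub_zero, sub_zero, hsx] at h2
    rw [norm_iteratedFDeriv_zero]
    calc ‖h (R⁻¹ • x)‖ ≤ B * (1 + ‖x‖) ^ m * (R⁻¹ * ‖x‖) := h1
      _ ≤ B * (1 + ‖x‖) ^ m * (R⁻¹ * (1 + ‖x‖)) := by gcongr; linarith
      _ = _ := by ring
  · set Lr : W →L[ℝ] W := R⁻¹ • ContinuousLinearMap.id ℝ W with hLr
    have hLn : ‖Lr‖ ≤ R⁻¹ := by
      rw [hLr, norm_smul, Real.norm_eq_abs, abs_of_pos hRi0]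
      exact mul_le_of_le_one_right hRi0.le ContinuousLinearMap.norm_id_le
    have he : (fun y => h (R⁻¹ • y)) = h ∘ Lr := rfl
    rw [he, Lr.iteratedFDeriv_comp_right hh.1 x (by exact_mod_cast le_top)]
    refine (ContinuousMultilinearMap.norm_compContinuousLinearMap_le _ _).trans ?_
    rw [Finset.prod_const, Finset.card_univ, Fintype.card_fin]
    have h1 : ‖Lr‖ ^ (j + 1) ≤ R⁻¹ := by
      calc ‖Lr‖ ^ (j + 1) ≤ R⁻¹ ^ (j + 1) := by gcongr
        _ ≤ R⁻¹ ^ 1 := pow_le_pow_of_le_one hRi0.le hRi (by omega)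
        _ = R⁻¹ := pow_one _
    calc ‖iteratedFDeriv ℝ (j + 1) h (Lr x)‖ * ‖Lr‖ ^ (j + 1)
        ≤ (B * (1 + ‖R⁻¹ • x‖) ^ m) * R⁻¹ := by
          gcongr
          exact hb (j + 1) (by omega) _
      _ ≤ (B * (1 + ‖x‖) ^ (m + 1)) * R⁻¹ := by
          gcongr
          calc (1 + ‖R⁻¹ • x‖) ^ m ≤ (1 + ‖x‖) ^ m := by gcongr
            _ ≤ (1 + ‖x‖) ^ (m + 1) := pow_le_pow_right₀ (by linarith) (by omega)
      _ = _ := by ring

/-- products with rescaled functions that vanish at the origin -/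
theorem tendsto_scale (F : 𝓢(W, ℂ)) {h : W → ℂ} (hh : h.HasTemperateGrowth) (h0 : h 0 = 0)
    {G : ℝ → 𝓢(W, ℂ)} (hG : ∀ R, 1 ≤ R → ∀ x, G R x = F x * h (R⁻¹ • x)) :
    Tendsto G atTop (𝓝 0) := by
  rw [(schwartz_withSeminorms ℝ W ℂ).tendsto_nhds]
  rintro ⟨k, n⟩ ε hε
  obtain ⟨m, B, hB, hb⟩ := scale_bd hh h0 n
  set K : ℕ × ℕ := (k + m, n) with hK
  set M : ℝ := 2 ^ (k + m) * ((Finset.Iic K).sup fun q => SchwartzMap.seminorm ℝ q.1 q.2) F
    with hM
  have hM0 : 0 ≤ M := by positivity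
  set A : ℝ := ∑ i ∈ Finset.range (n + 1), (n.choose i : ℝ) * M * B with hA
  have hA0 : 0 ≤ A := Finset.sum_nonneg fun i _ => by positivity
  have hbd : ∀ R, 1 ≤ R → SchwartzMap.seminorm ℝ k n (G R) ≤ R⁻¹ * A := by
    intro R hR
    have hR0 : 0 < R := by linarith
    refine SchwartzMap.seminorm_le_bound ℝ k n (G R) (by positivity) fun x => ?_
    have he : (G R : W → ℂ) = fun x => F x * h (R⁻¹ • x) := funext (hG R hR)
    have hmul := norm_iteratedFDeriv_mul_le (n := n) (N := ∞) (F.smooth ⊤)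
      (hh.1.comp (contDiff_const_smul R⁻¹)) x (by exact_mod_cast le_top)
    rw [he]
    calc ‖x‖ ^ k * ‖iteratedFDeriv ℝ n (fun x => F x * h (R⁻¹ • x)) x‖
        ≤ (1 + ‖x‖) ^ k * ∑ i ∈ Finset.range (n + 1),
          (n.choose i : ℝ) * ‖iteratedFDeriv ℝ i F x‖ * (R⁻¹ * (B * (1 + ‖x‖) ^ m)) := by
          gcongr
          · linarith [norm_nonneg x]
          · refine hmul.trans (Finset.sum_le_sum fun i _ => ?_)
            gcongr
            exact hb R hR (n - i) (Nat.sub_le n i) x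
      _ = R⁻¹ * ∑ i ∈ Finset.range (n + 1), (n.choose i : ℝ) *
          ((1 + ‖x‖) ^ (k + m) * ‖iteratedFDeriv ℝ i F x‖) * B := by
          rw [Finset.mul_sum, Finset.mul_sum]
          refine Finset.sum_congr rfl fun i _ => ?_
          rw [pow_add]
          ring
      _ ≤ R⁻¹ * A := by
          refine mul_le_mul_of_nonneg_left (Finset.sum_le_sum fun i hi => ?_) (by positivity)
          gcongr
          exact SchwartzMap.one_add_le_sup_seminorm_apply (𝕜 := ℝ) (m := K) le_rfl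
            (Nat.lt_succ_iff.1 (Finset.mem_range.1 hi)) F x
  filter_upwards [eventually_ge_atTop (1 : ℝ), eventually_gt_atTop (A / ε)] with R h1 h2
  have hR0 : 0 < R := by linarith
  rw [sub_zero]
  calc SchwartzMap.seminorm ℝ k n (G R) ≤ R⁻¹ * A := hbd R h1
    _ < ε := by
      rw [inv_mul_lt_iff₀ hR0]
      rwa [div_lt_iff₀ hε] at h2

/-- A smooth step: one on `(-∞, 1/4]`, zero on `[1/2, ∞)`. -/
def stp (t : ℝ) : ℝ := Real.smoothTransition (2 - 4 * t)

theorem stp_one {t : ℝ} (h : t ≤ 1 / 4) : stp t = 1 :=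
  Real.smoothTransition.one_of_one_le (by linarith)

theorem stp_zero {t : ℝ} (h : 1 / 2 ≤ t) : stp t = 0 :=
  Real.smoothTransition.zero_of_nonpos (by linarith)

theorem stp_smooth : ContDiff ℝ ∞ stp :=
  Real.smoothTransition.contDiff.comp (by fun_prop)

theorem stp_temp : Function.HasTemperateGrowth stp := by
  have h1 : HasCompactSupport (fderiv ℝ stp) := by
    refine HasCompactSupport.intro (isCompact_Icc (a := (1 / 4 : ℝ)) (b := 1 / 2)) fun t ht => ?_
    rw [Set.mem_Icc, not_and_or, not_le, not_le] at ht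
    rcases ht with ht | ht
    · have : stp =ᶠ[𝓝 t] fun _ => 1 := by
        filter_upwards [Iio_mem_nhds ht] with s hs
        exact stp_one (le_of_lt hs)
      rw [this.fderiv_eq]
      simp
    · have : stp =ᶠ[𝓝 t] fun _ => 0 := by
        filter_upwards [Ioi_mem_nhds ht] with s hs
        exact stp_zero (le_of_lt hs)
      rw [this.fderiv_eq]
      simp
  refine Function.HasTemperateGrowth.of_fderiv
    (h1.hasTemperateGrowth (stp_smooth.fderiv_right (m := ∞) (by simp)))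
    (stp_smooth.differentiable (by simp)) (k := 0) (C := 1) fun t => ?_
  rw [Real.norm_eq_abs, pow_zero, mul_one]
  unfold stp
  rw [abs_of_nonneg (Real.smoothTransition.nonneg _)]
  exact Real.smoothTransition.le_one _

end

end Vale.Agent.P352.H148
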