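import Vale.Agent.P352.H496.Base
import Vale.Agent.P352.H496.Crit2
import Vale.Agent.P352.H496.Gen1
import Vale.Agent.P352.H496.Inv
import Vale.Agent.P352.H755.R7c
import Vale.Agent.P352.H246.Ind

/-!
# P352 (helper148): transversal locality off the null plane is automatic
-/

set_option linter.all false

noncomputable section

open MeasureTheory SchwartzMap Complex Filter Topology
open scoped SchwartzMap ComplexConjugate ENNReal LineDeriv

namespace Vale.Agent.P352.H148

open GF (Ix V Fn Sch ev pd bar sim bas o)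
open H246 H496
open H755 (simL_smul md_LL sim_linv)
open UniformSpace (Completion)

variable {D : Type*} [NormedAddCommGroup D] [InnerProductSpace ℂ D]
variable {Q : GF.Theory D} {T : Ix → Ix → GF.Fld D}
variable {H : D → D} {alg : Set V → Set (D → D)} {S : V → ℝ → D → D} {G : V → D → D}
variable {l : Fn → Completion D}

lemma md_smulL (c : ℝ) (x y : V) : GF.mdot (c • x) y = c * GF.mdot x y := by
  rw [gm, gm]
  simp only [Pi.smul_apply, smul_eq_mul]
  ring

/-- every wedge is the image of the standard wedge -/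
lemma exists_lw {c d : V} (hc : IsNull c) (hd : IsNull d) (hcd : 0 < GF.mdot c d) :
    ∃ L, GF.IsLor L ∧ ∀ x : Mink, x ∈ MW (Wed L 0 1) ↔ x.ofLp ∈ Wdg c d 0 := by
  obtain ⟨θ, φ, h1⟩ := exists_rot hd
  have hM := isLor_Rt θ φ
  have hd0 : 0 < d 0 := hd.2
  set M := Rt θ φ with hMd
  obtain ⟨c', hc'⟩ : ∃ c', c' = sim 1 (linv M) 0 c := ⟨_, rfl⟩
  have e1 : sim 1 M 0 c' = c := by rw [hc', sim_linv hM]
  have hcc : GF.mdot c' c' = 0 := by rw [← md_LL hM, e1, hc.1]
  have hpos : 0 < c' 0 + c' 1 := by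
    have h2 : GF.mdot (nu (-1)) c' = (d 0)⁻¹ * GF.mdot d c := by
      rw [← md_LL hM, h1, e1, md_smulL]
    have h3 : GF.mdot (nu (-1)) c' = c' 0 + c' 1 := by
      rw [gm]; simp [nu]
    rw [← h3, h2, gm_comm]
    positivity
  set β : ℝ := (c' 0 + c' 1) / 2 with hβ
  have hβ0 : 0 < β := by rw [hβ]; linarith
  obtain ⟨w, hw⟩ : ∃ w : ℝ × ℝ, w = (c' 2 / (2 * β), c' 3 / (2 * β)) := ⟨_, rfl⟩
  have e2 : c' = β • sim 1 (nr w) 0 (nu 1) := by
    rw [gm] at hcc
    have hb2 : 2 * β = c' 0 + c' 1 := by rw [hβ]; ring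
    have h2 : β * (2 * w.1) = c' 2 := by rw [hw]; field_simp
    have h3 : β * (2 * w.2) = c' 3 := by rw [hw]; field_simp
    have h4 : β * (w.1 ^ 2 + w.2 ^ 2) = (c' 0 - c' 1) / 2 := by
      have h5 : (4 * β) * (β * (w.1 ^ 2 + w.2 ^ 2)) = c' 2 ^ 2 + c' 3 ^ 2 := by
        rw [← h2, ← h3]; ring
      have h6 : (4 * β) * ((c' 0 - c' 1) / 2) = c' 2 ^ 2 + c' 3 ^ 2 := by
        linear_combination (c' 0 - c' 1) * hb2 + hcc
      exact mul_left_cancel₀ (by positivity : (4 * β) ≠ 0) (h5.trans h6.symm)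
    funext n
    fin_cases n
    · simp [sim, nu, nr, Fin.sum_univ_four]
      linarith
    · simp [sim, nu, nr, Fin.sum_univ_four]
      linarith
    · simp [sim, nu, nr, Fin.sum_univ_four]
      linarith
    · simp [sim, nu, nr, Fin.sum_univ_four]
      linarith
  set L := lmul (nr w) M with hL
  have hLL : GF.IsLor L := isLor_lmul (isLor_nr w) hM
  have hcomp : ∀ z, sim 1 L 0 z = sim 1 M 0 (sim 1 (nr w) 0 z) := by
    intro z
    funext n
    simp only [hL, sim, lmul, Fin.sum_univ_four, Pi.zero_apply]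
    ring
  have hcL : c = β • sim 1 L 0 (nu 1) := by
    rw [hcomp, ← simL_smul, ← e2, e1]
  have hdL : d = d 0 • sim 1 L 0 (nu (-1)) := by
    rw [hcomp, nr_nu, one_smul, h1, smul_smul, mul_inv_cancel₀ hd0.ne', one_smul]
  have k1 : ∀ y, GF.mdot c (sim 1 L 0 y) = β * (y 0 - y 1) := by
    intro y
    rw [hcL, md_smulL, md_LL hLL, gm]
    simp [nu]
  have k2 : ∀ y, GF.mdot d (sim 1 L 0 y) = d 0 * (y 0 + y 1) := by
    intro y
    have : GF.mdot d (sim 1 L 0 y) = GF.mdot (d 0 • sim 1 L 0 (nu (-1))) (sim 1 L 0 y) := by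
      rw [← hdL]
    rw [this, md_smulL, md_LL hLL, gm]
    simp [nu]
  refine ⟨L, hLL, fun x => ⟨?_, ?_⟩⟩
  · rintro ⟨y, hy, hx⟩
    rw [one_mul, abs_lt] at hy
    show GF.mdot c (x.ofLp - 0) < 0 ∧ 0 < GF.mdot d (x.ofLp - 0)
    rw [sub_zero, hx, k1, k2]
    constructor
    · nlinarith
    · nlinarith
  · rintro ⟨h2, h3⟩
    rw [sub_zero] at h2 h3
    obtain ⟨y, hy⟩ : ∃ y, x.ofLp = sim 1 L 0 y := ⟨_, (sim_linv hLL x.ofLp).symm⟩
    rw [hy, k1] at h2
    rw [hy, k2] at h3
    refine ⟨y, ?_, hy⟩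
    rw [one_mul, abs_lt]
    have h4 : y 0 - y 1 < 0 := by
      by_contra h
      push Not at h
      nlinarith
    have h5 : 0 < y 0 + y 1 := by
      by_contra h
      push Not at h
      nlinarith
    constructor <;> linarith

section

variable {μ : Measure Mink} (Sy : SymMeasure μ 4) (hA : PField Q T (GF.tr T) 4)
  (two : Two Q (GF.tr T) μ)

include two in
/-- the wedge relation for operators that commute with the trace -/
lemma wedge_comm {L : Ix → V} (hL : GF.IsLor L) {X X' : D → D} (hX : Adj X X')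
    (hcomm : ∀ G, IsTest (MW (Wed L 0 1)) G → ∀ v, GF.tr T (fl G) (X v) = X (GF.tr T (fl G) v))
    {f : 𝓢(Mink, ℂ)} (hf : IsTest (MW (Wed L 0 1)) f) :
    inner ℂ ((X' Q.vac : D) : Completion D) (lamV Sy hA f) =
      inner ℂ (lamV Sy hA (conjS f)) ((X Q.vac : D) : Completion D) := by
  set Jd := ContinuousLinearMap.adjoint (H246.J Sy hA) with hJd
  set x := Jd ((X' Q.vac : D) : Completion D) with hx
  set y := Jd ((X Q.vac : D) : Completion D) with hy
  have ex : ∀ φ, inner ℂ ((X' Q.vac : D) : Completion D) (H246.J Sy hA φ) =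
      inner ℂ x φ := fun φ => (ContinuousLinearMap.adjoint_inner_left _ _ _).symm
  have ey : ∀ φ, inner ℂ (H246.J Sy hA φ) ((X Q.vac : D) : Completion D) =
      inner ℂ φ y := fun φ => (ContinuousLinearMap.adjoint_inner_right _ _ _).symm
  have hxm : MemLp (fun p => conj (x p)) 2 μ := (Lp.memLp x).star
  have e1 : ∀ f, inner ℂ x (toL Sy.good.temp f) = ∫ p, mft f p * conj (x p) ∂μ := by
    intro f
    rw [L2.inner_def]
    apply integral_congr_ae
    filter_upwards [coeFn_toL Sy.good.temp f] with p hp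
    rw [hp]
    simp
  have e2 : ∀ f, inner ℂ x (toI Sy f) = ∫ p, mft f p * ((H246.im p : ℂ) * conj (x p)) ∂μ := by
    intro f
    rw [L2.inner_def]
    apply integral_congr_ae
    filter_upwards [coeFn_toI Sy f] with p hp
    rw [hp]
    simp only [RCLike.inner_apply]
    ring
  have key := wed_im Sy hL 0 hxm (Lp.memLp y) (fun g hg => by
    rw [← e1, ← inner_toL Sy.good.temp, ← ex, ← ey, J_toL Sy hA two, J_toL Sy hA two, hA.kap_apply,
      hA.kap_apply, Completion.inner_coe, Completion.inner_coe,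
      hX.symm, ← hcomm g hg, hA.herm, conjS_conjS]) f hf
  rw [← e2, ← inner_toI Sy] at key
  rw [lamV_apply, lamV_apply, inner_smul_right, inner_smul_left, ex, ey, key]
  simp only [map_neg, map_div₀, map_one, map_ofNat]

end

/-- the operators of an algebra commute with the trace in the opposite wedge -/
lemma tr_comm_w (hT : Q.IsStress T) (N : Net Q H alg S) {c d : V} (hc : IsNull c)
    (hd : IsNull d) (hcd : 0 < GF.mdot c d) {X X' : D → D} (hX : X ∈ alg (Wdg d c 0))
    (hadj : Adj X X') {F : 𝓢(Mink, ℂ)} (hF : In (Wdg c d 0) (fl F)) (v : D) :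
    GF.tr T (fl F) (X v) = X (GF.tr T (fl F) v) := by
  have h1 : ∀ m, T m m (fl F) (X v) = X (T m m (fl F) v) := by
    intro m
    have h2 := N.fld _ (T m m) (fl F) (Q.bose_fld _ (hT.bose m m)) hF
    have hp : 0 < GF.mdot d c := by rw [gm_comm]; exact hcd
    exact (N.loc _ _ 0 hd hc hp X hX _ h2 v).symm
  unfold GF.tr
  have hsum : ∀ (s : Finset Ix) (w : Ix → D), X (∑ m ∈ s, w m) = ∑ m ∈ s, X (w m) := by
    intro s w
    induction s using Finset.induction_on with
    | empty =>
      have := hadj.smul 0 0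
      simpa using this
    | insert a s ha ih => rw [Finset.sum_insert ha, Finset.sum_insert ha, hadj.add, ih]
  rw [hsum]
  refine Finset.sum_congr rfl fun m _ => ?_
  rw [h1, hadj.smul]

/-- the potential is local relative to the algebras of the wedges -/
theorem pot_alg (hT : Q.IsStress T) (N : Net Q H alg S) (hl : IsPot Q T l) {c d : V}
    (hc : IsNull c) (hd : IsNull d) (hcd : 0 < GF.mdot c d) {X X' : D → D}
    (hX : X ∈ alg (Wdg d c 0)) (hadj : Adj X X') {f : Fn} (hf : In (Wdg c d 0) f) :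
    inner ℂ ((X' Q.vac : D) : Completion D) (l f) =
      inner ℂ (l (bar f)) ((X Q.vac : D) : Completion D) := by
  obtain ⟨μ, Sy, two⟩ := (PField.tr hT).exists_sym
  have hp := isPot_lamF Sy (PField.tr hT) two
  obtain ⟨L, hL, hLW⟩ := exists_lw hc hd hcd
  obtain ⟨F, rfl, hF⟩ := exists_In hf
  have hF' : IsTest (MW (Wed L 0 1)) F := ⟨hF.1, fun x hx => (hLW x).2 (hF.2 hx)⟩
  rw [hp.unique hl _ (isTest_fl F), bar_fl, hp.unique hl _ (isTest_fl (conjS F)), lamF_fl, lamF_fl]
  refine wedge_comm Sy (PField.tr hT) two hL hadj (fun G hG v => ?_) hF'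
  exact tr_comm_w hT N hc hd hcd hX hadj (In_fl.2 ⟨hG.1, fun x hx => (hLW x).1 (hG.2 hx)⟩) v

lemma der_pot (N : CNet Q H alg S) (Gg : Gnr Q alg S G) {a : V} (ha : IsNull a) (x : Completion D)
    (v : D) : HasDerivAt (fun s : ℝ => inner ℂ x ((S a s v : D) : Completion D))
      (inner ℂ x ((I • G a v : D) : Completion D)) 0 := by
  have h1 := Gg.der a v ha
  have h2 : HasDerivAt (fun s : ℝ => ((S a s v : D) : Completion D))
      ((I • G a v : D) : Completion D) 0 :=
    ((Completion.toComplL (𝕜 := ℂ) (E := D)).restrictScalars ℝ).hasFDerivAt.comp_hasDerivAt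
      (0 : ℝ) h1
  have h3 := (hasDerivAt_const (0 : ℝ) x).inner ℂ h2
  refine h3.congr_deriv ?_
  rw [inner_zero_left, add_zero]

/-- the derivative of the wedge relation along a null deformation -/
lemma der_rel (hT : Q.IsStress T) (N : CNet Q H alg S) (Gg : Gnr Q alg S G) (hl : IsPot Q T l)
    {a : V} (ha : IsNull a) {c d : V} (hc : IsNull c) (hd : IsNull d) (hcd : 0 < GF.mdot c d)
    {v : D} {ε : ℝ} (hε : ε ≠ 0) (hmem : ∀ s : ℝ, 0 ≤ s → ∃ X, X ∈ alg (Wdg d c 0) ∧ Adj X X ∧
      X Q.vac = S a (ε * s) v) {g : Fn} (hg : In (Wdg c d 0) g) :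
    inner ℂ (l (bar g)) ((G a v : D) : Completion D) =
      -conj (inner ℂ (l g) ((G a v : D) : Completion D)) := by
  have h0 : ∀ s : ℝ, 0 ≤ s → conj (inner ℂ (l g) ((S a (ε * s) v : D) : Completion D)) -
      inner ℂ (l (bar g)) ((S a (ε * s) v : D) : Completion D) = (0 : ℂ) := by
    intro s hs
    obtain ⟨X, hX, hadj, hv⟩ := hmem s hs
    have h1 := pot_alg hT N.toNet hl hc hd hcd hX hadj hg
    rw [hv] at h1
    rw [inner_conj_symm, h1, sub_self]
  have hsc : HasDerivAt (fun s : ℝ => ε * s) ε 0 := by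
    simpa using (hasDerivAt_id (0 : ℝ)).const_mul ε
  have d1 : ∀ x : Completion D, HasDerivAt
      (fun s : ℝ => inner ℂ x ((S a (ε * s) v : D) : Completion D))
      (ε • inner ℂ x ((I • G a v : D) : Completion D)) 0 := by
    intro x
    have h1 := der_pot N Gg ha x v
    have h2 : HasDerivAt (fun s : ℝ => inner ℂ x ((S a s v : D) : Completion D))
        (inner ℂ x ((I • G a v : D) : Completion D)) (ε * 0) := by
      rwa [mul_zero]
    exact h2.scomp (0 : ℝ) hsc
  have hcj : ∀ z : ℂ, HasFDerivAt (fun w : ℂ => conj w) (Complex.conjCLE : ℂ →L[ℝ] ℂ) z :=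
    fun z => Complex.conjCLE.hasFDerivAt
  have d2 : HasDerivAt (fun s : ℝ => conj (inner ℂ (l g) ((S a (ε * s) v : D) : Completion D)))
      (conj (ε • inner ℂ (l g) ((I • G a v : D) : Completion D))) 0 :=
    (hcj _).comp_hasDerivAt (0 : ℝ) (d1 (l g))
  have d3 := d2.sub (d1 (l (bar g)))
  have d4 : HasDerivWithinAt (fun s : ℝ =>
      conj (inner ℂ (l g) ((S a (ε * s) v : D) : Completion D)) -
      inner ℂ (l (bar g)) ((S a (ε * s) v : D) : Completion D)) (0 : ℂ) (Set.Ici 0) 0 := by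
    refine (hasDerivWithinAt_const (0 : ℝ) (Set.Ici 0) (0 : ℂ)).congr (fun s hs => h0 s hs) ?_
    exact h0 0 le_rfl
  have h5 := (uniqueDiffWithinAt_Ici (0 : ℝ)).eq_deriv _ d3.hasDerivWithinAt d4
  have hε' : (ε : ℂ) ≠ 0 := by exact_mod_cast hε
  rw [Completion.coe_smul, inner_smul_right, inner_smul_right, real_smul, real_smul, map_mul,
    map_mul, conj_ofReal, conj_I] at h5
  have h6 : (ε : ℂ) * I * (conj (inner ℂ (l g) ((G a v : D) : Completion D)) +
      inner ℂ (l (bar g)) ((G a v : D) : Completion D)) = 0 := by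
    linear_combination -h5
  have h7 := (mul_eq_zero.1 h6).resolve_left (mul_ne_zero hε' I_ne_zero)
  linear_combination h7

lemma zero_mem_clos {c d : V} (hc : IsNull c) (hd : IsNull d) (hcd : 0 < GF.mdot c d) :
    (0 : Mink) ∈ closure (MW (Wdg c d 0)) := by
  have ht : Tendsto (fun j : ℕ => (1 / ((j : ℝ) + 1)) • (WithLp.toLp 2 (c - d) : Mink)) atTop
      (𝓝 (0 : Mink)) := by
    have := (tendsto_one_div_add_atTop_nhds_zero_nat (𝕜 := ℝ)).smul_const
      (WithLp.toLp 2 (c - d) : Mink)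
    rwa [zero_smul] at this
  refine mem_closure_of_tendsto ht (Eventually.of_forall fun j => ?_)
  have hj : (0 : ℝ) < 1 / ((j : ℝ) + 1) := by positivity
  have e : ((1 / ((j : ℝ) + 1)) • (WithLp.toLp 2 (c - d) : Mink)).ofLp =
      (1 / ((j : ℝ) + 1)) • (c - d) := rfl
  show GF.mdot c (((1 / ((j : ℝ) + 1)) • (WithLp.toLp 2 (c - d) : Mink)).ofLp - 0) < 0 ∧
    0 < GF.mdot d (((1 / ((j : ℝ) + 1)) • (WithLp.toLp 2 (c - d) : Mink)).ofLp - 0)
  rw [e, sub_zero, gm_smul, gm_smul, gm_sub, gm_sub, hc.1, hd.1, gm_comm d c]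
  constructor
  · rw [zero_sub]
    nlinarith
  · rw [sub_zero]
    positivity

/-- the real part of the value at the edge vanishes -/
lemma re_edge (hT : Q.IsStress T) (N : CNet Q H alg S) (Gg : Gnr Q alg S G) (hl : IsPot Q T l)
    {a : V} (ha : IsNull a) {c d : V} (hc : IsNull c) (hd : IsNull d) (hcd : 0 < GF.mdot c d)
    {v : D} {ε : ℝ} (hε : ε ≠ 0) (hmem : ∀ s : ℝ, 0 ≤ s → ∃ X, X ∈ alg (Wdg d c 0) ∧ Adj X X ∧
      X Q.vac = S a (ε * s) v) {z : ℂ} (hz : Val l (G a v) z) : z.re = 0 := by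
  obtain ⟨F, hF, rfl, hint⟩ := hz
  have hc' : Continuous fun x : Mink => F x.ofLp := hF.comp (by fun_prop)
  have h1 : ∀ x ∈ MW (Wdg c d 0), F x.ofLp + conj (F x.ofLp) = 0 := by
    refine fund (isOpen_MW_Wdg c d 0) (hc'.add (Complex.continuous_conj.comp hc')) fun g hg => ?_
    have hin : In (Wdg c d 0) (fl g) := In_fl.2 ⟨hg.1, fun x hx => hg.2 hx⟩
    have hin2 : In Set.univ (fl g) := In_fl.2 ⟨hg.1, fun x _ => Set.mem_univ _⟩
    have hin3 : In Set.univ (fl (conjS g)) := In_fl.2 ⟨(H246.isTest_conj (f := g) hg).1,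
      fun x _ => Set.mem_univ _⟩
    have h2 := der_rel hT N Gg hl ha hc hd hcd hε hmem hin
    rw [bar_fl, hint _ hin2, hint _ hin3, ← integral_conj, integral_V, integral_V] at h2
    have i1 : Integrable fun x : Mink => g x * F x.ofLp := by
      refine Continuous.integrable_of_hasCompactSupport (g.continuous.mul hc') ?_
      exact hg.1.mul_right
    have i2 : Integrable fun x : Mink => g x * conj (F x.ofLp) := by
      refine Continuous.integrable_of_hasCompactSupport
        (g.continuous.mul (Complex.continuous_conj.comp hc')) ?_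
      exact hg.1.mul_right
    have e1 : ∫ x : Mink, star (fl (conjS g) x.ofLp) * F x.ofLp = ∫ x : Mink, g x * F x.ofLp := by
      congr 1
      ext x
      have : fl (conjS g) x.ofLp = conj (g x) := by
        rw [fl_apply]
        exact conjS_apply g x
      rw [this]
      simp
    have e2 : ∫ x : Mink, conj (star (fl g x.ofLp) * F x.ofLp) =
        ∫ x : Mink, g x * conj (F x.ofLp) := by
      congr 1
      ext x
      have : fl g x.ofLp = g x := by rw [fl_apply]
      rw [this]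
      simp
    rw [e1, e2] at h2
    have e3 : ∫ x : Mink, g x * (F x.ofLp + conj (F x.ofLp)) =
        (∫ x : Mink, g x * F x.ofLp) + ∫ x : Mink, g x * conj (F x.ofLp) := by
      rw [← integral_add i1 i2]
      congr 1
      ext x
      ring
    rw [e3, h2, neg_add_cancel]
  have hcl2 : IsClosed {x : Mink | F x.ofLp + conj (F x.ofLp) = 0} :=
    isClosed_eq (hc'.add (Complex.continuous_conj.comp hc')) continuous_const
  have h3 : F (0 : Mink).ofLp + conj (F (0 : Mink).ofLp) = 0 :=
    closure_minimal h1 hcl2 (zero_mem_clos hc hd hcd)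
  have h4 := congrArg Complex.re h3
  simp only [add_re, conj_re, zero_re] at h4
  have h5 : (F (0 : Mink).ofLp).re = 0 := by linarith
  exact h5

/-- **Transversal locality off the null plane is automatic.** -/
theorem tl_off (hT : Q.IsStress T) (N : CNet Q H alg S) (Gg : Gnr Q alg S G) (hl : IsPot Q T l)
    {a b : V} (ha : IsNull a) (hb : IsNull b) (hab : 0 < GF.mdot a b) {m n : Ix} {f : Fn} {c : ℂ}
    (hf : In (Wdg a b 0) f ∨ In (Wdg b a 0) f) (hr : ∀ y, (f y).im = 0)
    (hc : Val l (G a (T m n f Q.vac)) c) : c.re = 0 := by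
  have hbar : bar f = f := by
    funext y
    show star (f y) = f y
    exact Complex.conj_eq_iff_im.2 (hr y)
  have hba : 0 < GF.mdot b a := by rw [gm_comm]; exact hab
  have hT' : GF.IsTest f → Adj (T m n f) (T m n f) := by
    intro ht v w
    have := hT.herm m n f v w ht
    rwa [hbar] at this
  have hshf : ∀ s z, GF.mdot b (shf a s z) = GF.mdot b z - s * GF.mdot z z * GF.mdot b a := by
    intro s z
    unfold shf
    rw [gm_sub, gm_smul]
  rcases hf with hf | hf
  · refine re_edge hT N Gg hl ha hb ha hba (ε := 1) one_ne_zero (fun s hs => ?_) hc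
    rw [one_mul]
    have h1 := N.fld _ (T m n) f (Q.bose_fld _ (hT.bose m n)) hf
    refine ⟨fun u => S a s (T m n f (S a (-s) u)), ?_, ?_, ?_⟩
    · refine N.S_right a b b 0 0 s ha hb hb hab hab (gm_zero a) (gm_zero a) ?_ _ h1
      intro z hz hbz
      rw [sub_zero] at hbz ⊢
      rw [hshf]
      have h2 := orth_nonpos ha hz
      have h3 : s * GF.mdot z z * GF.mdot b a ≤ 0 := by
        have : s * GF.mdot z z ≤ 0 := mul_nonpos_of_nonneg_of_nonpos hs h2
        exact mul_nonpos_of_nonpos_of_nonneg this hba.le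
      linarith
    · have h2 := (adj_S N.toNet ha s).comp ((hT' hf.1).comp (adj_S N.toNet ha (-s)))
      rwa [neg_neg] at h2
    · show S a s (T m n f (S a (-s) Q.vac)) = _
      rw [N.S_vac a (-s) ha]
  · refine re_edge hT N Gg hl ha ha hb hab (ε := -1) (by norm_num) (fun s hs => ?_) hc
    have e : (-1 : ℝ) * s = -s := by ring
    rw [e]
    have h1 := N.fld _ (T m n) f (Q.bose_fld _ (hT.bose m n)) hf
    refine ⟨fun u => S a (-s) (T m n f (S a (-(-s)) u)), ?_, ?_, ?_⟩
    · refine N.S_left a b b 0 0 (-s) ha hb hb hab hab (gm_zero a) (gm_zero a) ?_ _ h1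
      intro z hz hbz
      rw [sub_zero] at hbz ⊢
      rw [hshf]
      have h2 := orth_nonpos ha hz
      have h3 : 0 ≤ -s * GF.mdot z z * GF.mdot b a := by
        have : 0 ≤ -s * GF.mdot z z := mul_nonneg_of_nonpos_of_nonpos (by linarith) h2
        exact mul_nonneg this hba.le
      linarith
    · have h2 := (adj_S N.toNet ha (-s)).comp ((hT' hf.1).comp (adj_S N.toNet ha (-(-s))))
      rwa [neg_neg] at h2 ⊢
    · show S a (-s) (T m n f (S a (-(-s)) Q.vac)) = _
      rw [N.S_vac a (-(-s)) ha]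

end Vale.Agent.P352.H148

end
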