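import Vale.Agent.P352.H755.R7h
import Vale.Agent.P352.H746.Flow3

/-!
# P352 (helper148): symmetric operators that scale under boosts and commute with their generator
-/

set_option linter.all false

noncomputable section

open MeasureTheory Filter Topology Set
open scoped ContDiff ComplexConjugate

namespace Vale.Agent.P352.H148

open GF (Ix V Fn bas eta pd bar sim o)
open H246 H496 H15 H755 H746

variable {D : Type*} [NormedAddCommGroup D] [InnerProductSpace ℂ D] {Q : GF.Theory D}
  {A : (V → V) → D → D}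

/-- the infinitesimal boost in the plane of `a` and `b` -/
def Xb (a b : V) (z : V) : V := GF.mdot b z • a - GF.mdot a z • b

lemma Xb_sim (a b : V) : IsSim 0 (Xb a b) := by
  refine ⟨0, fun m n => eta m * (b m * a n - a m * b n), fun m n => by ring, fun z n => ?_⟩
  simp only [Xb, Pi.sub_apply, Pi.smul_apply, smul_eq_mul, Pi.zero_apply, zero_mul, add_zero,
    zero_add, GF.mdot, Fin.sum_univ_four]
  ring

/-- a symmetric operator of nonzero boost weight that commutes with the boosts is zero -/
theorem bst_zero (h : Rep Q A) {a b : V} (ha : IsNull a) (hb : IsNull b) (hab : GF.mdot a b = 1)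
    {B : D → D} {k : ℝ} (hk : k ≠ 0) (hsym : ∀ v w, inner ℂ (B v) w = inner ℂ v (B w))
    (hcov : ∀ (L : Ix → V) (r : ℝ) (v : D), 0 < r → GF.IsLor L → sim 1 L 0 a = r • a →
      sim 1 L 0 b = r⁻¹ • b → B (Q.U 1 L 0 v) = ((r ^ k : ℝ) : ℂ) • Q.U 1 L 0 (B v))
    (hcomm : ∀ v w, inner ℂ (A (Xb a b) w) (B v) = inner ℂ (B w) (A (Xb a b) v)) (v : D) :
    B v = 0 := by
  have hba : GF.mdot b a = 1 := by rw [md_comm]; exact hab
  set L : ℝ → Ix → V := fun e => bst a b (Real.exp e - 1) (Real.exp (-e) - 1) with hL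
  have hLor : ∀ e, GF.IsLor (L e) := fun e => isLor_bst ha hb hab (by
    have := Real.exp_pos e
    linarith) (by
    rw [add_sub_cancel, add_sub_cancel, ← Real.exp_add, add_neg_cancel, Real.exp_zero])
  have hL0 : L 0 = GF.one := by
    rw [hL]
    funext m
    simp only [bst, Real.exp_zero, neg_zero, sub_self, zero_mul, zero_smul, add_zero]
    rfl
  have hLa : ∀ e, sim 1 (L e) 0 a = Real.exp e • a := by
    intro e
    rw [hL, sim_bst, hba, ha.1]
    funext n
    simp only [Pi.add_apply, Pi.smul_apply, smul_eq_mul]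
    ring
  have hLb : ∀ e, sim 1 (L e) 0 b = (Real.exp e)⁻¹ • b := by
    intro e
    rw [hL, sim_bst, hab, hb.1, ← Real.exp_neg]
    funext n
    simp only [Pi.add_apply, Pi.smul_apply, smul_eq_mul]
    ring
  have hder : ∀ x : D, HasDerivAt (fun e => Q.U 1 (L e) 0 x) (Complex.I • A (Xb a b) x) 0 := by
    intro x
    refine h.der (fun _ => 1) L (fun _ => 0) (Xb a b) x rfl hL0 rfl
      (fun e => ⟨one_pos, hLor e⟩) ?_
    intro n z
    have e1 : (fun e => sim 1 (L e) 0 z n) = fun e => z n + (Real.exp e - 1) *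
        GF.mdot b z * a n + (Real.exp (-e) - 1) * GF.mdot a z * b n := by
      funext e
      rw [hL, sim_bst]
      simp only [Pi.add_apply, Pi.smul_apply, smul_eq_mul]
    rw [e1]
    have d1 : HasDerivAt (fun e : ℝ => Real.exp e) 1 0 := by
      have := Real.hasDerivAt_exp 0
      rwa [Real.exp_zero] at this
    have d2 : HasDerivAt (fun e : ℝ => Real.exp (-e)) (-1) 0 := by
      have := (hasDerivAt_neg (0 : ℝ)).exp
      simpa using this
    have d3 := (((d1.sub_const 1).mul_const (GF.mdot b z)).mul_const (a n)).const_add (z n)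
    have d4 := ((d2.sub_const 1).mul_const (GF.mdot a z)).mul_const (b n)
    have d5 := d3.add d4
    refine (d5.congr_deriv ?_).congr_of_eventuallyEq (Eventually.of_forall fun e => ?_)
    · simp only [Xb, Pi.sub_apply, Pi.smul_apply, smul_eq_mul]
      ring
    · simp only [Pi.add_apply]
  have key : ∀ w : D, (inner ℂ w (B v) : ℂ) = 0 := by
    intro w
    have f1 : HasDerivAt (fun e => (inner ℂ (B w) (Q.U 1 (L e) 0 v) : ℂ))
        (Complex.I * inner ℂ (B w) (A (Xb a b) v)) 0 := by
      have := (hasDerivAt_const (0 : ℝ) (B w)).inner ℂ (hder v)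
      refine this.congr_deriv ?_
      rw [inner_zero_left, add_zero, inner_smul_right]
    have f2 : HasDerivAt (fun e : ℝ => ((Real.exp (e * k) : ℝ) : ℂ) *
        (inner ℂ w (Q.U 1 (L e) 0 (B v)) : ℂ))
        ((k : ℂ) * inner ℂ w (B v) + Complex.I * inner ℂ w (A (Xb a b) (B v))) 0 := by
      have g1 : HasDerivAt (fun e : ℝ => ((Real.exp (e * k) : ℝ) : ℂ)) (k : ℂ) 0 := by
        have g0 : HasDerivAt (fun e : ℝ => Real.exp (e * k)) k 0 := by
          have := ((hasDerivAt_id (0 : ℝ)).mul_const k).exp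
          simpa using this
        exact g0.ofReal_comp
      have g2 := (hasDerivAt_const (0 : ℝ) w).inner ℂ (hder (B v))
      refine (g1.mul g2).congr_deriv ?_
      rw [inner_zero_left, add_zero, inner_smul_right, zero_mul, Real.exp_zero,
        Complex.ofReal_one, one_mul, hL0]
      have e0 : Q.U 1 GF.one 0 (B v) = B v := U1_zero_all (B v)
      rw [e0]
    have e3 : (fun e => (inner ℂ (B w) (Q.U 1 (L e) 0 v) : ℂ)) =
        fun e : ℝ => ((Real.exp (e * k) : ℝ) : ℂ) * (inner ℂ w (Q.U 1 (L e) 0 (B v)) : ℂ) := by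
      funext e
      rw [hsym, hcov (L e) (Real.exp e) v (Real.exp_pos e) (hLor e) (hLa e) (hLb e),
        inner_smul_right, ← Real.exp_mul]
    rw [e3] at f1
    have h4 := f1.unique f2
    have h5 : (inner ℂ w (A (Xb a b) (B v)) : ℂ) = inner ℂ (B w) (A (Xb a b) v) := by
      rw [← A_symm h (Xb_sim a b), hcomm]
    rw [h5] at h4
    have h6 : (k : ℂ) * inner ℂ w (B v) = 0 := by linear_combination -h4
    exact (mul_eq_zero.1 h6).resolve_left (by exact_mod_cast hk)
  exact inner_self_eq_zero.1 (key (B v))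

end Vale.Agent.P352.H148

end
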