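import Vale.Agent.P352.H746.Nec2
import Vale.Agent.P352.H246.ScalVac

/-!
# P352 (helper148): the improvement is unique
-/

set_option linter.all false

noncomputable section

open MeasureTheory SchwartzMap Filter Topology
open scoped SchwartzMap ComplexConjugate ENNReal ContDiff

namespace Vale.Agent.P352.H148

open GF (Ix V Fn Sch ev pd bar bas o eta)
open H246 H496 H846 H746
open H15 (IsEnl)
open UniformSpace (Completion)

variable {D : Type*} [NormedAddCommGroup D] [InnerProductSpace ℂ D]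
variable {Q Q₁ Q₂ : GF.Theory D} {T : Ix → Ix → GF.Fld D} {L L' : GF.Fld D}

lemma al_mono {Q Q' : GF.Theory D} (he : IsEnl Q Q') {W : Set V} {X X' : D → D}
    (hX : Al Q W X X') : Al Q' W X X' := by
  induction hX with
  | one => exact Al.one
  | add X X' Y Y' _ _ ih1 ih2 => exact Al.add _ _ _ _ ih1 ih2
  | smul c X X' _ ih => exact Al.smul _ _ _ ih
  | fld B B' k X X' hB hB' hh hk _ ih =>
    exact Al.fld _ _ _ _ _ (he.fld _ hB) (he.fld _ hB') hh hk ih

/-- **Uniqueness of the improvement**: scalar fields of dimension two of two enlargements that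
improve the stress tensor to traceless tensors are equal. -/
theorem L_unique (hT : Q.IsStress T) (he : IsEnl Q Q₁) (hL : Q₁.IsScalar L 2)
    (t1 : ∀ f v, GF.IsTest f → GF.tr (GF.improve T L) f v = 0)
    (he' : IsEnl Q Q₂) (hL' : Q₂.IsScalar L' 2)
    (t2 : ∀ f v, GF.IsTest f → GF.tr (GF.improve T L') f v = 0) {f : Fn} (hf : GF.IsTest f)
    (v : D) : L f v = L' f v := by
  obtain ⟨l, hl, -⟩ := H246.main hT
  have hvac : ∀ f, GF.IsTest f → L f Q.vac = L' f Q.vac := by
    intro f hf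
    have h1 := pot_of_L hT he hL t1 hl hf
    rw [pot_of_L hT he' hL' t2 hl hf] at h1
    exact (Completion.coe_injective D h1).symm
  -- compactly supported test functions
  have key : ∀ (g : 𝓢(Mink, ℂ)), IsTest Set.univ g → ∀ v, L (fl g) v = L' (fl g) v := by
    intro g hg v
    obtain ⟨b, hb, -⟩ := exists_far_test hg hg 0 0
    have hP : ∀ v : D, ∀ ε > 0, ∃ x, (∃ X X', Al Q (Wed (Rt 0 0) b (-1)) X X' ∧ x = X Q.vac) ∧
        ‖x - v‖ < ε := by
      intro v ε hε
      obtain ⟨X, X', hX, h1⟩ := dens_al (Q := Q) (big_wed 0 0 b) v hε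
      exact ⟨_, ⟨X, X', hX, rfl⟩, h1⟩
    have hcomm : ∀ (g : 𝓢(Mink, ℂ)), IsTest (MW (Wed (Rt 0 0) b 1)) g → ∀ X X',
        Al Q (Wed (Rt 0 0) b (-1)) X X' → L (fl g) (X Q.vac) = L' (fl g) (X Q.vac) := by
      intro g hg X X' hX
      have hW : ∀ {Q' : GF.Theory D} {M : GF.Fld D}, IsEnl Q Q' → Q'.IsScalar M 2 →
          ∀ v, M (fl g) (X v) = X (M (fl g) v) := by
        intro Q' M hE hM
        exact bose_comm hM.1 (fun G hG => wed_sep (isLor_Rt 0 0) b hg hG) (al_mono hE hX)
      rw [hW he hL, hW he' hL', hvac _ (isTest_fl g)]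
    refine sub_eq_zero.1 (zero_of_dens hP fun y hy => ?_)
    obtain ⟨X, X', hX, rfl⟩ := hy
    have h1 := hL.2.1 (bar (fl g)) (X Q.vac) v (isTest_bar (isTest_fl g))
    have h2 := hL'.2.1 (bar (fl g)) (X Q.vac) v (isTest_bar (isTest_fl g))
    rw [bar_bar] at h1 h2
    have hb' : IsTest (MW (Wed (Rt 0 0) b 1)) (conjS g) := H246.isTest_conj hb
    have h3 := hcomm (conjS g) hb' X X' hX
    rw [← bar_fl] at h3
    rw [inner_sub_right, ← h1, ← h2, h3, sub_self]
  obtain ⟨F, rfl⟩ := exists_fl hf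
  obtain ⟨g, hg, hlim⟩ := exists_compact_seq F
  have c1 := ((fld_cont (Q₁.bose_fld _ hL.1) v).tendsto F).comp hlim
  have c2 := ((fld_cont (Q₂.bose_fld _ hL'.1) v).tendsto F).comp hlim
  refine tendsto_nhds_unique c1 (c2.congr fun n => ?_)
  exact (key (g n) ⟨hg n, Set.subset_univ _⟩ v).symm

end Vale.Agent.P352.H148

end
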