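import Vale.Agent.P352.H746.V6
import Vale.Agent.P352.H846.TvC
import Vale.Agent.P352.H148.Uq

/-!
# P352 (helper148): the on-shell dilaton constraint and conformal invariance, final form
-/

set_option linter.all false

noncomputable section

open MeasureTheory Filter Topology SchwartzMap
open scoped SchwartzMap ComplexConjugate ContDiff

namespace Vale.Agent.P352.H148

open GF (Ix V Fn Fld Theory Sch IsLor bas eta o sim pd tr improve ev bar Sep)
open H246 H496 H755 H15 H846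
open H121 (TrNull)

variable {D : Type*} [NormedAddCommGroup D] [InnerProductSpace ℂ D]
variable {Q : GF.Theory D} {T : Ix → Ix → GF.Fld D} {J : Ix → GF.Fld D}
  {A : (V → V) → D → D} {K : V → D → D}

/-- the improvement is the only one -/
lemma only_one (hT : Q.IsStress T) {L : Fld D} (h : ∀ Q₁ : Theory D, IsEnl Q Q₁ →
      ∃ Q₂ : Theory D, IsEnl Q₁ Q₂ ∧ Q₂.IsScalar L 2 ∧ Q₂.IsStress (improve T L) ∧
      IsImpr Q₂ T (improve T L) ∧ ConfAct Q₂ (improve T L)) :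
    ∀ (Q' : Theory D) (L' : Fld D), IsEnl Q Q' → Q'.IsScalar L' 2 →
      (∀ f v, GF.IsTest f → tr (improve T L') f v = 0) → ∀ f v, GF.IsTest f → L' f v = L f v := by
  intro Q' L' he' hL' t' f v hf
  obtain ⟨Q₂, he, hL, -, hi, -⟩ := h Q ⟨rfl, rfl, fun _ h => h, fun _ h => h⟩
  exact L_unique hT he' hL' t' he hL hi.traceless hf v

/-- **The on-shell dilaton constraint and conformal invariance.** -/
theorem main_v7 (hT : Q.IsStress T) (hJ : IsVirial Q T J) :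
    (NullCharges Q T J A K →
      (TrVac Q T ↔ TrNull T) ∧
      (TrNull T ↔ ∃ L : Fld D, (∀ Q₁ : Theory D, IsEnl Q Q₁ → ∃ Q₂ : Theory D, IsEnl Q₁ Q₂ ∧
          Q₂.IsScalar L 2 ∧ Q₂.IsStress (improve T L) ∧ IsImpr Q₂ T (improve T L) ∧
          ConfAct Q₂ (improve T L)) ∧
        ∀ (Q' : Theory D) (L' : Fld D), IsEnl Q Q' → Q'.IsScalar L' 2 →
          (∀ f v, GF.IsTest f → tr (improve T L') f v = 0) →
            ∀ f v, GF.IsTest f → L' f v = L f v) ∧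
      (∀ (Q' : Theory D) (L : Fld D), IsEnl Q Q' → Q'.IsScalar L 2 →
        (∀ f v, GF.IsTest f → tr (improve T L) f v = 0) → TrNull T) ∧
      (ConfGen Q A K ↔ OnShell Q T J) ∧ (TGen Q → (ConfGen Q A K ↔ TrNull T))) ∧
    (ConfGen Q A K → Mom Q T K ∨ Act Q J K →
      ∃ L : Fld D, ∀ Q₁ : Theory D, IsEnl Q Q₁ → ∃ Q₂ : Theory D, IsEnl Q₁ Q₂ ∧
        Q₂.IsScalar L 2 ∧ Q₂.IsStress (improve T L) ∧ IsImpr Q₂ T (improve T L) ∧
        ConfAct Q₂ (improve T L) ∧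
        (NullCharges Q T J A K → NoFlux T J →
          (∀ r X, IsSim r X → Chg Q₂ (improve T L) X (A X)) ∧
          ∀ a, IsNull a → Chg Q₂ (improve T L) (cK a) (K a))) := by
  refine ⟨fun h => ?_, (H746.main_v6 hT hJ).2⟩
  obtain ⟨h1, h2, h3, h4⟩ := (H746.main_v6 (A := A) (K := K) hT hJ).1 h
  refine ⟨H846.trVac_iff hT hJ h, ⟨fun ht => ?_, fun ⟨L, hL, _⟩ => h1.2 ⟨L, hL⟩⟩, h2, h3, h4⟩
  obtain ⟨L, hL⟩ := h1.1 ht
  exact ⟨L, hL, only_one hT hL⟩

/-- **The on-shell dilaton constraint and conformal invariance**, uniqueness as a clause. -/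
theorem main_v7b (hT : Q.IsStress T) (hJ : IsVirial Q T J) :
    (NullCharges Q T J A K →
      (TrVac Q T ↔ TrNull T) ∧
      (TrNull T ↔ ∃ L : Fld D, ∀ Q₁ : Theory D, IsEnl Q Q₁ → ∃ Q₂ : Theory D, IsEnl Q₁ Q₂ ∧
        Q₂.IsScalar L 2 ∧ Q₂.IsStress (improve T L) ∧ IsImpr Q₂ T (improve T L) ∧
        ConfAct Q₂ (improve T L)) ∧
      (∀ (Q' : Theory D) (L : Fld D), IsEnl Q Q' → Q'.IsScalar L 2 →
        (∀ f v, GF.IsTest f → tr (improve T L) f v = 0) → TrNull T) ∧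
      (ConfGen Q A K ↔ OnShell Q T J) ∧ (TGen Q → (ConfGen Q A K ↔ TrNull T))) ∧
    (ConfGen Q A K → Mom Q T K ∨ Act Q J K →
      ∃ L : Fld D, ∀ Q₁ : Theory D, IsEnl Q Q₁ → ∃ Q₂ : Theory D, IsEnl Q₁ Q₂ ∧
        Q₂.IsScalar L 2 ∧ Q₂.IsStress (improve T L) ∧ IsImpr Q₂ T (improve T L) ∧
        ConfAct Q₂ (improve T L) ∧
        (NullCharges Q T J A K → NoFlux T J →
          (∀ r X, IsSim r X → Chg Q₂ (improve T L) X (A X)) ∧
          ∀ a, IsNull a → Chg Q₂ (improve T L) (cK a) (K a))) ∧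
    ∀ (Q₁ Q₂ : Theory D) (L L' : Fld D), IsEnl Q Q₁ → Q₁.IsScalar L 2 →
      (∀ f v, GF.IsTest f → tr (improve T L) f v = 0) → IsEnl Q Q₂ → Q₂.IsScalar L' 2 →
      (∀ f v, GF.IsTest f → tr (improve T L') f v = 0) →
      ∀ f v, GF.IsTest f → L f v = L' f v := by
  refine ⟨fun h => ⟨H846.trVac_iff hT hJ h, (H746.main_v6 (A := A) (K := K) hT hJ).1 h⟩,
    (H746.main_v6 hT hJ).2, fun Q₁ Q₂ L L' he hL t he' hL' t' f v hf =>
    L_unique hT he hL t he' hL' t' hf v⟩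

end Vale.Agent.P352.H148

end
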