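import Vale.Agent.P352.H148.Zl
import Vale.Agent.P352.H993.TrFt

/-!
# P352 (helper148): covariant vector valued distributions whose two-point measure is invariant
under translations along a null vector
-/

set_option linter.all false

noncomputable section

open MeasureTheory SchwartzMap Complex Filter Topology
open scoped SchwartzMap ComplexConjugate ENNReal LineDeriv ContDiff

namespace Vale.Agent.P352.H148

open GF (Ix V Fn Sch ev pd bar sim bas o)
open H246 H496 H755 H246R H731 H746 H993
open UniformSpace (Completion)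

variable {D : Type*} [NormedAddCommGroup D] [InnerProductSpace ℂ D]
variable {Q : GF.Theory D}

lemma lineDeriv_line (h : 𝓢(Mink, ℂ)) (a p : Mink) (t : ℝ) :
    HasDerivAt (fun t : ℝ => h (p + t • a)) ((∂_{a} h : 𝓢(Mink, ℂ)) (p + t • a)) t := by
  have h1 : HasDerivAt (fun t : ℝ => p + t • a) a t := by
    simpa using ((hasDerivAt_id t).smul_const a).const_add p
  have h2 : HasFDerivAt h (fderiv ℝ h (p + t • a)) (p + t • a) :=
    (h.differentiable _).hasFDerivAt
  exact h2.comp_hasDerivAt t h1

/-- a measure on the forward cone that is invariant along a positive vector is zero -/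
theorem meas_zero {μ : Measure Mink} [IsFiniteMeasureOnCompacts μ]
    (hcone : ∀ᵐ p ∂μ, p ∈ fwdCone) {a : Mink} (ha : 0 < a 0)
    (hd : ∀ h : 𝓢(Mink, ℂ), HasCompactSupport h → ∫ p, (∂_{a} h : 𝓢(Mink, ℂ)) p ∂μ = 0) :
    μ = 0 := by
  -- integrals of test functions
  have key : ∀ h : 𝓢(Mink, ℂ), HasCompactSupport h → ∫ p, h p ∂μ = 0 := by
    intro h hc
    obtain ⟨R, hR⟩ := hc.isCompact.isBounded.subset_closedBall (0 : Mink)
    have hR0 : ∀ p, R < ‖p‖ → h p = 0 := by
      intro p hp
      by_contra h0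
      have := hR (subset_tsupport _ h0)
      rw [mem_closedBall_zero_iff] at this
      linarith
    have hR1 : ∀ p, R < ‖p‖ → (∂_{a} h : 𝓢(Mink, ℂ)) p = 0 := by
      intro p hp
      have h1 : (∂_{a} h : 𝓢(Mink, ℂ)) p = fderiv ℝ h p a := rfl
      have h2 : (h : Mink → ℂ) =ᶠ[𝓝 p] fun _ => 0 := by
        have h3 : {q : Mink | R < ‖q‖} ∈ 𝓝 p :=
          (isOpen_lt continuous_const continuous_norm).mem_nhds hp
        filter_upwards [h3] with q hq
        exact hR0 q hq
      rw [h1, h2.fderiv_eq]
      simp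
    set ψ : ℝ → ℂ := fun t => ∫ p, h (p + t • a) ∂μ with hψ
    -- compactly supported translates
    have htr : ∀ t : ℝ, ∃ g : 𝓢(Mink, ℂ), HasCompactSupport g ∧
        (∀ p, g p = h (p + t • a)) ∧
        ∀ p, (∂_{a} g : 𝓢(Mink, ℂ)) p = (∂_{a} h : 𝓢(Mink, ℂ)) (p + t • a) := by
      intro t
      refine ⟨tauS (-(t • a)) h, ?_, fun p => ?_, fun p => ?_⟩
      · refine HasCompactSupport.intro (isCompact_closedBall (0 : Mink) (|R| + ‖t • a‖)) ?_
        intro p hp
        rw [tauS_apply, sub_neg_eq_add]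
        apply hR0
        rw [mem_closedBall_zero_iff, not_le] at hp
        have h1 : ‖p‖ ≤ ‖p + t • a‖ + ‖t • a‖ := by
          have := norm_sub_le (p + t • a) (t • a)
          rwa [add_sub_cancel_right] at this
        have := le_abs_self R
        linarith
      · rw [tauS_apply, sub_neg_eq_add]
      · have e : (tauS (-(t • a)) h : Mink → ℂ) = fun q => h (q + t • a) := by
          funext q
          rw [tauS_apply, sub_neg_eq_add]
        show fderiv ℝ (tauS (-(t • a)) h) p a = fderiv ℝ h (p + t • a) a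
        rw [e, fderiv_comp_add_right]
    have hder : ∀ t, HasDerivAt ψ 0 t := by
      intro t
      obtain ⟨C, hC⟩ := (∂_{a} h : 𝓢(Mink, ℂ)).toBoundedContinuousFunction.isBounded_range
        |>.exists_norm_le
      have hC' : ∀ p, ‖(∂_{a} h : 𝓢(Mink, ℂ)) p‖ ≤ C := fun p => hC _ ⟨p, rfl⟩
      have hC0 : 0 ≤ C := (norm_nonneg _).trans (hC' 0)
      set B : Set Mink := Metric.closedBall (0 : Mink) (|R| + (|t| + 1) * ‖a‖) with hB
      have hBc : IsCompact B := isCompact_closedBall _ _
      have hout : ∀ s : ℝ, |s - t| < 1 → ∀ p, p ∉ B → R < ‖p + s • a‖ := by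
        intro s hs p hp
        rw [hB, mem_closedBall_zero_iff, not_le] at hp
        have h1 : ‖p‖ ≤ ‖p + s • a‖ + ‖s • a‖ := by
          have := norm_sub_le (p + s • a) (s • a)
          rwa [add_sub_cancel_right] at this
        have h2 : ‖s • a‖ ≤ (|t| + 1) * ‖a‖ := by
          rw [norm_smul, Real.norm_eq_abs]
          have h3 : |s| ≤ |t| + 1 := by
            have := abs_sub_abs_le_abs_sub s t
            linarith
          gcongr
        have := le_abs_self R
        linarith
      have hint : ∀ s : ℝ, Integrable (fun p => h (p + s • a)) μ := by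
        intro s
        obtain ⟨g, hg1, hg2, -⟩ := htr s
        have e : (fun p => h (p + s • a)) = g := funext fun p => (hg2 p).symm
        rw [e]
        exact g.continuous.integrable_of_hasCompactSupport hg1
      have hint' : ∀ s : ℝ, AEStronglyMeasurable
          (fun p => (∂_{a} h : 𝓢(Mink, ℂ)) (p + s • a)) μ := fun s =>
        ((∂_{a} h : 𝓢(Mink, ℂ)).continuous.comp (continuous_add_const _)).aestronglyMeasurable
      have h1 := hasDerivAt_integral_of_dominated_loc_of_deriv_le (μ := μ) (𝕜 := ℝ)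
        (F := fun s p => h (p + s • a))
        (F' := fun s p => (∂_{a} h : 𝓢(Mink, ℂ)) (p + s • a)) (x₀ := t)
        (s := Metric.ball t 1) (bound := B.indicator fun _ => C)
        (Metric.ball_mem_nhds t one_pos)
        (Eventually.of_forall fun s => (hint s).aestronglyMeasurable)
        (hint t) (hint' t)
        (Eventually.of_forall fun p s hs => by
          rw [Metric.mem_ball, Real.dist_eq] at hs
          by_cases hp : p ∈ B
          · rw [Set.indicator_of_mem hp]
            exact hC' _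
          · rw [Set.indicator_of_notMem hp, hR1 _ (hout s hs p hp), norm_zero])
        ((integrable_indicator_iff hBc.measurableSet).2
          (integrableOn_const hBc.measure_lt_top.ne))
        (Eventually.of_forall fun p s _ => lineDeriv_line h a p s)
      have h2 : ∫ p, (∂_{a} h : 𝓢(Mink, ℂ)) (p + t • a) ∂μ = 0 := by
        obtain ⟨g, hg1, -, hg3⟩ := htr t
        have := hd g hg1
        simpa only [hg3] using this
      have h3 := h1.2
      rw [h2] at h3
      exact h3
    have hconst : ∀ t, ψ t = ψ 0 := fun t =>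
      is_const_of_deriv_eq_zero (fun t => (hder t).differentiableAt) (fun t => (hder t).deriv) t 0
    have h0 : ψ ((|R| + 1) / a 0) = 0 := by
      rw [hψ]
      simp only
      rw [integral_eq_zero_of_ae]
      filter_upwards [hcone] with p hp
      apply hR0
      have h1 : 0 ≤ p 0 := hp.1
      have h2 : |(p + ((|R| + 1) / a 0) • a) 0| ≤ ‖p + ((|R| + 1) / a 0) • a‖ := by
        have := PiLp.norm_apply_le (p + ((|R| + 1) / a 0) • a) 0
        rwa [Real.norm_eq_abs] at this
      have h3 : (p + ((|R| + 1) / a 0) • a) 0 = p 0 + (|R| + 1) := by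
        simp only [PiLp.add_apply, PiLp.smul_apply, smul_eq_mul]
        field_simp
      rw [h3] at h2
      have h4 : |R| + 1 ≤ |p 0 + (|R| + 1)| := by
        have := le_abs_self (p 0 + (|R| + 1))
        linarith
      have := le_abs_self R
      linarith
    have h1 : ψ 0 = ∫ p, h p ∂μ := by
      rw [hψ]
      simp only [zero_smul, add_zero]
    rw [← h1, ← hconst, h0]
  -- balls have measure zero
  have hball : ∀ R : ℝ, 0 < R → μ (Metric.closedBall 0 R) = 0 := by
    intro R hR
    let b : ContDiffBump (0 : Mink) := ⟨R, R + 1, hR, by linarith⟩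
    have hbs : HasCompactSupport (fun x => ((b x : ℝ) : ℂ)) :=
      b.hasCompactSupport.comp_left (g := fun t : ℝ => (t : ℂ)) (by simp)
    have hbc : ContDiff ℝ ((⊤ : ℕ∞) : WithTop ℕ∞) (fun x => ((b x : ℝ) : ℂ)) :=
      Complex.ofRealCLM.contDiff.comp b.contDiff
    have h1 := key (hbs.toSchwartzMap hbc) hbs
    have h2 : ∫ x, ((b x : ℝ) : ℂ) ∂μ = 0 := h1
    rw [integral_complex_ofReal, ofReal_eq_zero] at h2
    have h3 : Integrable (fun x => b x) μ :=
      b.continuous.integrable_of_hasCompactSupport b.hasCompactSupport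
    rw [integral_eq_zero_iff_of_nonneg (fun p => b.nonneg) h3] at h2
    have h4 : μ {p | ¬ (b p = 0)} = 0 := h2
    refine measure_mono_null ?_ h4
    intro p hp
    have h5 : b p = 1 := b.one_of_mem_closedBall hp
    show ¬ (b p = 0)
    rw [h5]; simp
  rw [← Measure.measure_univ_eq_zero]
  have : (Set.univ : Set Mink) = ⋃ k : ℕ, Metric.closedBall 0 ((k : ℝ) + 1) := by
    symm
    rw [Set.eq_univ_iff_forall]
    intro p
    obtain ⟨k, hk⟩ := exists_nat_ge ‖p‖
    exact Set.mem_iUnion.2 ⟨k, by rw [mem_closedBall_zero_iff]; linarith⟩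
  rw [this]
  exact measure_iUnion_null fun k => hball _ (by positivity)

lemma mftS_axS (a : V) (F : 𝓢(Mink, ℂ)) (p : Mink) :
    mft (axS a F) p = -I * (∂_{(WithLp.toLp 2 a : Mink)} (mftS F) : 𝓢(Mink, ℂ)) p := by
  have h1 : mftS (axS a F) = (-I : ℂ) • dS a (mftS F) := by
    unfold axS dS
    rw [map_sum, Finset.smul_sum]
    refine Finset.sum_congr rfl fun m _ => ?_
    rw [map_smul, mftS_Xm, smul_smul, smul_smul]
    congr 1
    have h2 : (GF.eta m : ℂ) * (GF.eta m : ℂ) = 1 := by
      rw [← ofReal_mul, eta_sq, ofReal_one]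
    push_cast
    linear_combination (-(I * (a m : ℂ))) * h2
  have h2 : dS a (mftS F) = (∂_{(WithLp.toLp 2 a : Mink)} (mftS F) : 𝓢(Mink, ℂ)) := by
    ext x
    rw [dS_apply]
    show _ = fderiv ℝ (mftS F) x (WithLp.toLp 2 a)
    have h3 : (WithLp.toLp 2 a : Mink) = ∑ m, a m • (eb m : Mink) := by
      ext n
      simp [eb, Pi.single_apply]
    rw [h3, map_sum]
    refine Finset.sum_congr rfl fun m _ => ?_
    rw [map_smul, real_smul]
    rfl
  rw [← mftS_apply, h1, h2, SchwartzMap.smul_apply, smul_eq_mul]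

/-- **the measure argument** -/
theorem yb_ax_zero {Y : 𝓢(Mink, ℂ) → D} (hadd : ∀ F G, Y (F + G) = Y F + Y G)
    (hsmul : ∀ (c : ℂ) F, Y (c • F) = c • Y F)
    (hcont : ∀ w : D, Continuous fun F => (inner ℂ w (Y F) : ℂ))
    (htr : ∀ (x : Mink) F, Y (tauS x F) = U1 Q x (Y F)) {a : V} (ha : IsNull a)
    (h : ∀ F G, inner ℂ (Y F) (Y (axS a G)) = inner ℂ (Y (axS a F)) (Y G))
    (F : 𝓢(Mink, ℂ)) : Y F = 0 := by
  set κl : 𝓢(Mink, ℂ) →ₗ[ℂ] Completion D :=
    { toFun := fun F => (Y F : Completion D)
      map_add' := fun F G => by rw [hadd, Completion.coe_add]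
      map_smul' := fun c F => by rw [hsmul, Completion.coe_smul, RingHom.id_apply] } with hκl
  have := barrelled_schwartz
  have hc : Continuous κl := by
    refine cont_of_weak κl (Z := Set.range ((↑) : D → Completion D)) Completion.denseRange_coe ?_
    rintro _ ⟨z, rfl⟩
    have e : (fun F : 𝓢(Mink, ℂ) => inner ℂ (z : Completion D) (κl F)) =
        fun F : 𝓢(Mink, ℂ) => inner ℂ z (Y F) := by
      funext F
      exact Completion.inner_coe z (Y F)
    rw [e]
    exact hcont z
  obtain ⟨μ, Kd⟩ := exists_cvd (Q := Q) ⟨κl, hc⟩ (fun g a z => by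
      show inner ℂ ((U1 Q a z : D) : Completion D) ((Y (tauS a g) : D) : Completion D) =
        inner ℂ (z : Completion D) ((Y g : D) : Completion D)
      rw [Completion.inner_coe, Completion.inner_coe, htr, U1_inner])
  have := Kd.fin
  have htwo : ∀ F G, inner ℂ (Y F) (Y G) = ∫ p, conj (mft F p) * mft G p ∂μ := by
    intro F G
    rw [← Kd.two F G, ← Completion.inner_coe]
    rfl
  have hμ : μ = 0 := by
    refine meas_zero Kd.cone (a := (WithLp.toLp 2 a : Mink)) ha.2 fun g hg => ?_
    -- a function that is one near the support of g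
    obtain ⟨R, hR⟩ := hg.isCompact.isBounded.subset_closedBall (0 : Mink)
    let b : ContDiffBump (0 : Mink) := ⟨|R| + 1, |R| + 2, by positivity, by linarith⟩
    have hbs : HasCompactSupport (fun x => ((b x : ℝ) : ℂ)) :=
      b.hasCompactSupport.comp_left (g := fun t : ℝ => (t : ℂ)) (by simp)
    have hbc : ContDiff ℝ ((⊤ : ℕ∞) : WithTop ℕ∞) (fun x => ((b x : ℝ) : ℂ)) :=
      Complex.ofRealCLM.contDiff.comp b.contDiff
    obtain ⟨F, hF⟩ := mftS_surj (hbs.toSchwartzMap hbc)
    obtain ⟨G, hG⟩ := mftS_surj g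
    have h1 := h F G
    rw [htwo, htwo] at h1
    have hFp : ∀ p, mft F p = ((b p : ℝ) : ℂ) := by
      intro p
      rw [← mftS_apply, hF]
      rfl
    have hGp : ∀ p, mft G p = g p := by
      intro p
      rw [← mftS_apply, hG]
    simp only [mftS_axS, hF, hG, hFp, hGp] at h1
    set α : Mink := WithLp.toLp 2 a with hα
    have hb1 : ∀ p ∈ tsupport g, (b p : ℝ) = 1 ∧
        (∂_{α} (hbs.toSchwartzMap hbc) : 𝓢(Mink, ℂ)) p = 0 := by
      intro p hp
      have h2 := hR hp
      rw [mem_closedBall_zero_iff] at h2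
      have h3 : ‖p‖ < |R| + 1 := by
        have := le_abs_self R
        linarith
      refine ⟨b.one_of_mem_closedBall (by
        rw [mem_closedBall_zero_iff]
        exact h3.le), ?_⟩
      show fderiv ℝ (fun x => ((b x : ℝ) : ℂ)) p α = 0
      have h4 : (fun x => ((b x : ℝ) : ℂ)) =ᶠ[𝓝 p] fun _ => 1 := by
        have h5 : {q : Mink | ‖q‖ < |R| + 1} ∈ 𝓝 p :=
          (isOpen_lt continuous_norm continuous_const).mem_nhds h3
        filter_upwards [h5] with q hq
        have h6 : (b q : ℝ) = 1 := b.one_of_mem_closedBall (by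
          rw [mem_closedBall_zero_iff]
          exact (le_of_lt hq))
        rw [h6, ofReal_one]
      rw [h4.fderiv_eq]
      simp
    have hg0 : ∀ p, p ∉ tsupport g → g p = 0 ∧ (∂_{α} g : 𝓢(Mink, ℂ)) p = 0 := by
      intro p hp
      refine ⟨image_eq_zero_of_notMem_tsupport hp, ?_⟩
      show fderiv ℝ g p α = 0
      have h4 : (g : Mink → ℂ) =ᶠ[𝓝 p] fun _ => 0 := notMem_tsupport_iff_eventuallyEq.1 hp
      rw [h4.fderiv_eq]
      simp
    have e1 : ∀ p, conj ((b p : ℝ) : ℂ) * (-I * (∂_{α} g : 𝓢(Mink, ℂ)) p) =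
        -I * (∂_{α} g : 𝓢(Mink, ℂ)) p := by
      intro p
      by_cases hp : p ∈ tsupport g
      · rw [(hb1 p hp).1, ofReal_one, map_one, one_mul]
      · rw [(hg0 p hp).2, mul_zero, mul_zero]
    have e2 : ∀ p, conj (-I * (∂_{α} (hbs.toSchwartzMap hbc) : 𝓢(Mink, ℂ)) p) * g p = 0 := by
      intro p
      by_cases hp : p ∈ tsupport g
      · rw [(hb1 p hp).2, mul_zero, map_zero, zero_mul]
      · rw [(hg0 p hp).1, mul_zero]
    simp only [e1, e2, integral_zero] at h1
    rw [integral_const_mul] at h1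
    exact (mul_eq_zero.1 h1).resolve_left (neg_ne_zero.2 I_ne_zero)
  have h9 := htwo F F
  rw [hμ, integral_zero_measure] at h9
  exact inner_self_eq_zero.1 h9

end Vale.Agent.P352.H148

end
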